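import Mathlib

/-! Commutative algebra lemmas for P266. -/

open IsLocalRing

namespace Vale.Agent.P266

universe u

/-- A derivation preserving the kernel of a surjection descends. -/
theorem exists_derivation_descend {S T : Type u} [CommRing S] [CommRing T] (f : S →+* T)
    (hf : Function.Surjective f) (D : Derivation ℤ S S)
    (hD : ∀ y, f y = 0 → f (D y) = 0) :
    ∃ D' : Derivation ℤ T T, ∀ y, D' (f y) = f (D y) :=
  ⟨Derivation.liftOfSurjective (f := f.toIntAlgHom) hf hD,
    fun y => Derivation.liftOfSurjective_apply (f := f.toIntAlgHom) hf hD y⟩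

/-- In a local Noetherian ring in which positive integers are units, an element `g` of the maximal
ideal with a derivation `E` such that `E g = 1` is a non-zero-divisor. -/
theorem mem_nonZeroDivisors_of_derivation {S : Type u} [CommRing S] [IsLocalRing S]
    [IsNoetherianRing S] (hu : ∀ m : ℕ, m ≠ 0 → IsUnit (m : S))
    (E : Derivation ℤ S S) (g : S) (hg : g ∈ maximalIdeal S) (hE : E g = 1) :
    g ∈ nonZeroDivisors S := by
  have key : ∀ j m : ℕ, ∀ b : S, b * g ^ m = 0 → ∃ c, b = c * g ^ j := by
    intro j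
    induction j with
    | zero => intro m b _; exact ⟨b, by simp⟩
    | succ j ihj =>
      intro m
      induction m with
      | zero => intro b hb; exact ⟨0, by simpa using hb⟩
      | succ m ihm =>
        intro b hb
        have h1 : E b * g ^ (m + 1) + ((m + 1 : ℕ) : S) * b * g ^ m = 0 := by
          have h := congrArg E hb
          simp only [Derivation.leibniz, Derivation.leibniz_pow, hE, map_zero, smul_eq_mul,
            nsmul_eq_mul, Nat.add_sub_cancel] at h
          linear_combination h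
        obtain ⟨c, hc⟩ := ihm (E b * g + ((m + 1 : ℕ) : S) * b) (by linear_combination h1)
        obtain ⟨c', hc'⟩ := ihj (m + 2) (E b) (by
          linear_combination g * h1 - ((m + 1 : ℕ) : S) * hb)
        obtain ⟨v, hv⟩ := hu (m + 1) (Nat.succ_ne_zero m)
        refine ⟨↑v⁻¹ * (c - c'), ?_⟩
        have h2 : (v : S) * b = (c - c') * g ^ (j + 1) := by
          rw [hv, sub_mul]
          have : E b * g = c' * g ^ (j + 1) := by rw [hc', pow_succ]; ring
          rw [← hc, ← this]; ring
        calc b = ↑v⁻¹ * ((v : S) * b) := by rw [← mul_assoc, Units.inv_mul, one_mul]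
          _ = _ := by rw [h2]; ring
  rw [mem_nonZeroDivisors_iff_right]
  intro b hb
  have hmem : b ∈ ⨅ i : ℕ, maximalIdeal S ^ i := by
    rw [Ideal.mem_iInf]
    intro i
    obtain ⟨c, rfl⟩ := key i 1 b (by simpa using hb)
    exact Ideal.mul_mem_left _ _ (Ideal.pow_mem_pow hg i)
  rw [Ideal.iInf_pow_eq_bot_of_isLocalRing _ (maximalIdeal.isMaximal S).ne_top] at hmem
  simpa using hmem

/-- A local Noetherian ring of equicharacteristic zero with `r` derivations whose values on `r`
elements of the maximal ideal form the identity matrix modulo it has dimension at least `r`. -/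
theorem natCast_le_ringKrullDim_of_derivations :
    ∀ (r : ℕ) (S : Type u) [CommRing S] [IsLocalRing S] [IsNoetherianRing S],
      (∀ m : ℕ, m ≠ 0 → IsUnit (m : S)) →
      ∀ (D : Fin r → Derivation ℤ S S) (g : Fin r → S), (∀ i, g i ∈ maximalIdeal S) →
      (∀ i j, D i (g j) - (if i = j then 1 else 0) ∈ maximalIdeal S) →
      (r : WithBot ℕ∞) ≤ ringKrullDim S := by
  intro r
  induction r with
  | zero => intro S _ _ _ _ _ _ _ _; simpa using ringKrullDim_nonneg_of_nontrivial
  | succ r ih =>
    intro S _ _ _ hu D g hg hD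
    have hunit : IsUnit (D 0 (g 0)) := by
      by_contra h
      have h1 : D 0 (g 0) ∈ maximalIdeal S := h
      have := Ideal.sub_mem _ h1 (hD 0 0)
      simp at this
    obtain ⟨v, hv⟩ := hunit
    let E : Derivation ℤ S S := (↑v⁻¹ : S) • D 0
    have hE : E (g 0) = 1 := by simp [E, ← hv]
    have hnzd := mem_nonZeroDivisors_of_derivation hu E (g 0) (hg 0) hE
    let J : Ideal S := Ideal.span {g 0}
    let mkJ : S →+* S ⧸ J := Ideal.Quotient.mk J
    have hsurj : Function.Surjective mkJ := Ideal.Quotient.mk_surjective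
    let D' : Fin r → Derivation ℤ S S := fun i => D i.succ - (D i.succ (g 0)) • E
    have hD'0 : ∀ i, D' i (g 0) = 0 := by intro i; simp [D', hE]
    have hker : ∀ i, ∀ y, mkJ y = 0 → mkJ (D' i y) = 0 := by
      intro i y hy
      obtain ⟨a, rfl⟩ := Ideal.mem_span_singleton'.1 (Ideal.Quotient.eq_zero_iff_mem.1 hy)
      apply Ideal.Quotient.eq_zero_iff_mem.2
      rw [Derivation.leibniz, hD'0]
      simpa using Ideal.mul_mem_right _ J (Ideal.mem_span_singleton_self (g 0))
    have hJtop : J ≠ ⊤ := fun h =>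
      (maximalIdeal.isMaximal S).ne_top (top_le_iff.1 (h ▸ (Ideal.span_le.2 (by
        simpa using hg 0))))
    haveI : Nontrivial (S ⧸ J) := Ideal.Quotient.nontrivial_iff.mpr hJtop
    haveI : IsLocalRing (S ⧸ J) := IsLocalRing.of_surjective' (Ideal.Quotient.mk J) hsurj
    have hmax : ∀ y ∈ maximalIdeal S, mkJ y ∈ maximalIdeal (S ⧸ J) := by
      intro y hy hunit
      have hl : IsLocalHom (Ideal.Quotient.mk J) := IsLocalHom.of_surjective _ hsurj
      exact hy (hl.map_nonunit y hunit)
    have hu' : ∀ m : ℕ, m ≠ 0 → IsUnit (m : S ⧸ J) := fun m hm => by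
      simpa using (hu m hm).map (Ideal.Quotient.mk J)
    choose D'' hD'' using fun i => exists_derivation_descend mkJ hsurj (D' i) (hker i)
    have h := ih (S ⧸ J) hu' D''
      (fun i => mkJ (g i.succ)) (fun i => hmax _ (hg _)) (by
        intro i j
        rw [hD'']
        have key : D' i (g j.succ) - (if i = j then 1 else 0) ∈ maximalIdeal S := by
          have h1 := hD i.succ j.succ
          simp only [Fin.succ_inj] at h1
          have h2 : D i.succ (g 0) ∈ maximalIdeal S := by
            simpa [Fin.succ_ne_zero] using hD i.succ 0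
          have := Ideal.sub_mem _ h1 (Ideal.mul_mem_right (E (g j.succ)) _ h2)
          convert this using 1
          simp [D']
          ring
        have := hmax _ key
        rw [map_sub] at this
        convert this using 2
        split_ifs <;> simp)
    calc ((r + 1 : ℕ) : WithBot ℕ∞) = (r : WithBot ℕ∞) + 1 := by push_cast; rfl
      _ ≤ ringKrullDim (S ⧸ J) + 1 := by gcongr
      _ ≤ ringKrullDim S := ringKrullDim_quotient_succ_le_of_nonZeroDivisor hnzd

/-- Version for an ideal preserved by the derivations. -/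
theorem natCast_le_ringKrullDim_quotient {S : Type u} [CommRing S] [IsLocalRing S]
    [IsNoetherianRing S] (hu : ∀ m : ℕ, m ≠ 0 → IsUnit (m : S)) {r : ℕ}
    (D : Fin r → Derivation ℤ S S) (g : Fin r → S) (hg : ∀ i, g i ∈ maximalIdeal S)
    (hD : ∀ i j, D i (g j) - (if i = j then 1 else 0) ∈ maximalIdeal S)
    (J : Ideal S) (hJ : J ≠ ⊤) (hJD : ∀ i, ∀ y ∈ J, D i y ∈ J) :
    (r : WithBot ℕ∞) ≤ ringKrullDim (S ⧸ J) := by
  let mkJ : S →+* S ⧸ J := Ideal.Quotient.mk J
  have hsurj : Function.Surjective mkJ := Ideal.Quotient.mk_surjective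
  haveI : Nontrivial (S ⧸ J) := Ideal.Quotient.nontrivial_iff.mpr hJ
  haveI : IsLocalRing (S ⧸ J) := IsLocalRing.of_surjective' (Ideal.Quotient.mk J) hsurj
  have hker : ∀ i, ∀ y, mkJ y = 0 → mkJ (D i y) = 0 := fun i y hy =>
    Ideal.Quotient.eq_zero_iff_mem.2 (hJD i y (Ideal.Quotient.eq_zero_iff_mem.1 hy))
  have hmax : ∀ y ∈ maximalIdeal S, mkJ y ∈ maximalIdeal (S ⧸ J) := by
    intro y hy hunit
    have hl : IsLocalHom (Ideal.Quotient.mk J) := IsLocalHom.of_surjective _ hsurj
    exact hy (hl.map_nonunit y hunit)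
  choose D' hD' using fun i => exists_derivation_descend mkJ hsurj (D i) (hker i)
  refine natCast_le_ringKrullDim_of_derivations r (S ⧸ J) (fun m hm => by
      simpa using (hu m hm).map (Ideal.Quotient.mk J))
    D' (fun i => mkJ (g i))
    (fun i => hmax _ (hg _)) ?_
  intro i j
  rw [hD']
  have := hmax _ (hD i j)
  rw [map_sub] at this
  convert this using 2
  split_ifs <;> simp

/-- A prime minimal over an ideal preserved by a derivation is preserved by it (char. zero). -/
theorem derivation_mem_of_mem_minimalPrimes {S : Type u} [CommRing S] [IsNoetherianRing S]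
    (hu : ∀ m : ℕ, m ≠ 0 → IsUnit (m : S)) (D : Derivation ℤ S S) {I : Ideal S}
    (hI : ∀ y ∈ I, D y ∈ I) {q : Ideal S} (hq : q ∈ I.minimalPrimes) :
    ∀ y ∈ q, D y ∈ q := by
  classical
  have hqp := hq.isPrime
  intro x hx
  have hfin := Ideal.finite_minimalPrimes_of_isNoetherianRing S I
  have hw : ∀ p ∈ hfin.toFinset.erase q, ∃ w, w ∈ p ∧ w ∉ q := by
    intro p hp
    simp only [Finset.mem_erase, Set.Finite.mem_toFinset] at hp
    by_contra! h
    exact hp.1 (le_antisymm h (hq.2 ⟨hp.2.isPrime, hp.2.le⟩ h))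
  choose w hwp hwq using hw
  let w' := ∏ p ∈ (hfin.toFinset.erase q).attach, w p.1 p.2
  have hw'q : w' ∉ q := by
    intro h
    obtain ⟨p, -, hp⟩ := hqp.prod_mem_iff.1 h
    exact hwq p.1 p.2 hp
  have hxw : x * w' ∈ I.radical := by
    rw [← Ideal.sInf_minimalPrimes, Ideal.mem_sInf]
    intro p hp
    by_cases hpq : p = q
    · subst hpq; exact Ideal.mul_mem_right _ _ hx
    · apply Ideal.mul_mem_left
      have hp' : p ∈ hfin.toFinset.erase q := by simp [hpq, hp]
      exact Ideal.mem_of_dvd _ (Finset.dvd_prod_of_mem _ (Finset.mem_attach _ ⟨p, hp'⟩))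
        (hwp p hp')
  obtain ⟨N, hN⟩ := hxw
  have key : ∀ N a : ℕ, ∀ s ∉ q, s * x ^ N * D x ^ a ∈ I → D x ∈ q := by
    intro N
    induction N with
    | zero =>
      intro a s hs h
      have h' : s * D x ^ a ∈ q := hq.le (by simpa using h)
      exact hqp.mem_of_pow_mem a ((hqp.mem_or_mem h').resolve_left hs)
    | succ N ih =>
      intro a s hs h
      obtain ⟨v, hv⟩ := hu (N + 1) (Nat.succ_ne_zero N)
      refine ih (a + 2) (s * s) (fun hss => hs ((hqp.mem_or_mem hss).elim id id)) ?_
      have h2 := Ideal.mul_mem_left _ (s * D x) (hI _ h)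
      have h3 : s * s * ((N + 1 : ℕ) : S) * x ^ N * D x ^ (a + 2) =
          s * D x * D (s * x ^ (N + 1) * D x ^ a)
          - (D s * D x + s * (a : S) * D (D x)) * (s * x ^ (N + 1) * D x ^ a) := by
        cases a with
        | zero =>
          simp only [Derivation.leibniz, Derivation.leibniz_pow, smul_eq_mul, nsmul_eq_mul,
            Nat.add_sub_cancel, pow_zero, mul_one, Derivation.map_one_eq_zero, Nat.cast_zero]
          ring
        | succ a =>
          simp only [Derivation.leibniz, Derivation.leibniz_pow, smul_eq_mul, nsmul_eq_mul,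
            Nat.add_sub_cancel]
          ring
      have h4 : (v : S) * (s * s * x ^ N * D x ^ (a + 2)) ∈ I := by
        have : (v : S) * (s * s * x ^ N * D x ^ (a + 2)) =
            s * s * ((N + 1 : ℕ) : S) * x ^ N * D x ^ (a + 2) := by rw [hv]; ring
        rw [this, h3]
        exact Ideal.sub_mem _ h2 (Ideal.mul_mem_left _ _ h)
      simpa using Ideal.mul_mem_left _ (↑v⁻¹ : S) h4
  refine key N 0 (w' ^ N) (fun h => hw'q (hqp.mem_of_pow_mem N h)) ?_
  simpa [mul_pow, mul_comm] using hN

/-- Height-one primes of a domain containing a given nonzero element exist below any prime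
containing it. -/
theorem exists_height_one_le {S : Type u} [CommRing S] [IsDomain S] [IsNoetherianRing S]
    {c : S} (hc : c ≠ 0) {P : Ideal S} [P.IsPrime] (hcP : c ∈ P) :
    ∃ Q ∈ (Ideal.span {c}).minimalPrimes, Q ≤ P ∧ Q.height = 1 := by
  obtain ⟨Q, hQ, hQP⟩ := Ideal.exists_minimalPrimes_le
    (show Ideal.span {c} ≤ P by simpa [Ideal.span_le] using hcP)
  refine ⟨Q, hQ, hQP, le_antisymm
    (Ideal.height_le_one_of_isPrincipal_of_mem_minimalPrimes _ _ hQ) ?_⟩
  rw [Order.one_le_iff_ne_zero, Ne, Ideal.height_eq_zero_iff_eq_bot]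
  intro h
  have : c ∈ Q := hQ.le (Ideal.mem_span_singleton_self c)
  simp [h, hc] at this

/-- An ideal contained in no height-one prime has coheight at most `dim - 2`. -/
theorem ringKrullDim_quotient_add_two_le {S : Type u} [CommRing S] [IsDomain S]
    [IsNoetherianRing S] {J : Ideal S} (hJ : J ≠ ⊥) (hJ' : J ≠ ⊤)
    (h : ∀ Q : Ideal S, Q.IsPrime → Q.height = 1 → ¬ J ≤ Q) :
    ringKrullDim (S ⧸ J) + 2 ≤ ringKrullDim S := by
  obtain ⟨M, hM, hJM⟩ := Ideal.exists_le_maximal J hJ'
  haveI : Nonempty (PrimeSpectrum.zeroLocus (R := S) J) := ⟨⟨⟨M, hM.isPrime⟩, hJM⟩⟩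
  rw [ringKrullDim_quotient, Order.krullDim_eq_iSup_length, ringKrullDim,
    Order.krullDim_eq_iSup_length, ← WithBot.coe_ofNat, ← WithBot.coe_add,
    ENat.iSup_add, WithBot.coe_le_coe, iSup_le_iff]
  intro l
  have hJP : J ≤ l.head.1.asIdeal := l.head.2
  obtain ⟨c, hcJ, hc⟩ := Submodule.exists_mem_ne_zero_of_ne_bot hJ
  obtain ⟨Q, hQ, hQP, hQ1⟩ := exists_height_one_le hc (hJP hcJ)
  haveI := hQ.isPrime
  let Q' : PrimeSpectrum S := ⟨Q, hQ.isPrime⟩
  let B : PrimeSpectrum S := ⟨⊥, Ideal.isPrime_bot⟩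
  have h1 : Q' < l.head.1 := lt_of_le_of_ne hQP (fun e => h Q hQ.isPrime hQ1 (by
    have : Q = l.head.1.asIdeal := congrArg PrimeSpectrum.asIdeal e
    rw [this]; exact hJP))
  have h2 : B < Q' := lt_of_le_of_ne (show (⊥ : Ideal S) ≤ Q from bot_le) (fun e => by
    have : (⊥ : Ideal S) = Q := congrArg PrimeSpectrum.asIdeal e
    exact Ideal.ne_bot_of_height_eq_one hQ1 this.symm)
  have hmono : StrictMono (Subtype.val : PrimeSpectrum.zeroLocus (R := S) J → PrimeSpectrum S) :=
    fun _ _ hh => hh
  let L : LTSeries (PrimeSpectrum S) := l.map Subtype.val hmono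
  have hL : L.head = l.head.1 := rfl
  let L1 : LTSeries (PrimeSpectrum S) := RelSeries.cons L Q' (show Q' < L.head by rw [hL]; exact h1)
  have hL1 : L1.head = Q' := RelSeries.head_cons _ _ _
  let L2 : LTSeries (PrimeSpectrum S) := RelSeries.cons L1 B (show B < L1.head by rw [hL1]; exact h2)
  refine le_trans ?_ (le_iSup _ L2)
  have hlen : L2.length = l.length + 2 := rfl.trans (by simp [L2, L1, L])
  rw [hlen]
  simp

/-- A Noetherian integrally closed domain is the intersection of its localizations at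
height-one primes (stated through divisibility). -/
theorem dvd_of_forall_height_one {S : Type u} [CommRing S] [IsDomain S] [IsNoetherianRing S]
    [IsIntegrallyClosed S] {a b : S} (hb : b ≠ 0)
    (h : ∀ p : Ideal S, p.IsPrime → p.height = 1 → ∃ t ∉ p, b ∣ t * a) : b ∣ a := by
  classical
  by_contra hba
  let colon : S → Ideal S := fun a' => Submodule.comap (LinearMap.mulLeft S a') (Ideal.span {b})
  have hcolon : ∀ a' c, c ∈ colon a' ↔ b ∣ a' * c := by
    intro a' c
    simp [colon, Ideal.mem_span_singleton]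
  let F : Set (Ideal S) := {I | colon a ≤ I ∧ ∃ a', ¬ b ∣ a' ∧ I = colon a'}
  obtain ⟨(P : Ideal S), ⟨haP, a', ha', hP⟩, hmax⟩ :=
    set_has_maximal_iff_noetherian.mpr (inferInstance : IsNoetherian S S) F
      ⟨colon a, le_rfl, a, hba, rfl⟩
  have hPne : P ≠ ⊤ := by
    intro ht
    have : (1 : S) ∈ colon a' := hP ▸ (ht ▸ Submodule.mem_top)
    exact ha' (by simpa [hcolon] using this)
  haveI hPp : P.IsPrime := by
    refine ⟨hPne, ?_⟩
    intro x y hxy
    rw [or_iff_not_imp_left]
    intro hx
    rw [hP, hcolon] at hx hxy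
    have hle : P ≤ colon (a' * x) := by
      intro z hz
      rw [hP, hcolon] at hz
      rw [hcolon, mul_right_comm]
      exact hz.mul_right x
    have heq : colon (a' * x) = P := by
      by_contra hne
      exact hmax _ ⟨haP.trans hle, a' * x, hx, rfl⟩ (lt_of_le_of_ne hle (Ne.symm hne))
    rw [← heq, hcolon, mul_assoc]
    exact hxy
  have hbP : b ∈ P := by rw [hP, hcolon]; exact dvd_mul_left b a'
  have hex : ∀ c ∈ P, ∃ z, a' * c = b * z := fun c hc => (hcolon a' c).1 (hP ▸ hc)
  choose φ hφ using hex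
  by_cases hcase : ∀ c (hc : c ∈ P), φ c hc ∈ P
  · let L := FractionRing S
    let y : L := algebraMap S L a' / algebraMap S L b
    have hb' : algebraMap S L b ≠ 0 := by simpa using hb
    have hint : IsIntegral S y := by
      refine isIntegral_of_smul_mem_submodule (Submodule.map (Algebra.linearMap S L) P) ?_ ?_ y ?_
      · intro hbot
        have : algebraMap S L b ∈ Submodule.map (Algebra.linearMap S L) P :=
          Submodule.mem_map_of_mem hbP
        rw [hbot] at this
        exact hb' (by simpa using this)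
      · exact Submodule.FG.map _ (IsNoetherian.noetherian P)
      · rintro _ ⟨c, hc, rfl⟩
        refine ⟨φ c hc, hcase c hc, ?_⟩
        have := congrArg (algebraMap S L) (hφ c hc)
        simp only [map_mul] at this
        simp only [Algebra.linearMap_apply, smul_eq_mul, y]
        rw [div_mul_eq_mul_div, eq_div_iff hb']
        linear_combination -this
    obtain ⟨z, hz⟩ := IsIntegrallyClosed.isIntegral_iff.1 hint
    apply ha'
    refine ⟨z, IsFractionRing.injective S L ?_⟩
    rw [map_mul, hz]
    simp only [y]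
    rw [mul_div_cancel₀ _ hb']
  · push Not at hcase
    obtain ⟨c₀, hc₀, hw⟩ := hcase
    have hc₀ne : c₀ ≠ 0 := by
      rintro rfl
      have h0 := hφ 0 hc₀
      rw [mul_zero] at h0
      exact hw (by rw [(mul_eq_zero.1 h0.symm).resolve_left hb]; exact P.zero_mem)
    obtain ⟨Q, hQ, hQP, hQ1⟩ := exists_height_one_le hc₀ne hc₀
    have hPQ : P ≤ Q := by
      intro c hc
      have hwc : φ c₀ hc₀ * c = c₀ * φ c hc := by
        apply mul_left_cancel₀ hb
        linear_combination c₀ * hφ c hc - c * hφ c₀ hc₀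
      have : φ c₀ hc₀ * c ∈ Q := by
        rw [hwc]
        exact Ideal.mul_mem_right _ _ (hQ.le (Ideal.mem_span_singleton_self c₀))
      exact (hQ.isPrime.mem_or_mem this).resolve_left (fun hh => hw (hQP hh))
    have hQeq : Q = P := le_antisymm hQP hPQ
    obtain ⟨t, ht, hta⟩ := h P hPp (hQeq ▸ hQ1)
    exact ht (haP ((hcolon a t).2 (by rwa [mul_comm])))

/-- Uniformizer at a height-one prime of a Noetherian integrally closed domain. -/
theorem exists_uniformizer {S : Type u} [CommRing S] [IsDomain S] [IsNoetherianRing S]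
    [IsIntegrallyClosed S] {p : Ideal S} [p.IsPrime] (hp : p.height = 1) :
    ∃ π ∈ p, π ≠ 0 ∧ (∀ y ∈ p, ∃ s ∉ p, ∃ z, s * y = π * z) ∧
      ∀ a : S, a ≠ 0 → ∃ (j : ℕ) (s t : S), s ∉ p ∧ t ∉ p ∧ s * a = π ^ j * t := by
  let L := Localization.AtPrime p
  haveI : IsDomain L := IsLocalization.isDomain_localization p.primeCompl_le_nonZeroDivisors
  haveI : IsNoetherianRing L := IsLocalization.isNoetherianRing p.primeCompl L inferInstance
  have hicl : IsIntegrallyClosed L :=
    isIntegrallyClosed_of_isLocalization L p.primeCompl p.primeCompl_le_nonZeroDivisors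
  have hdim : ringKrullDim L = 1 := by
    rw [IsLocalization.AtPrime.ringKrullDim_eq_height p L, hp]; rfl
  have hnf : ¬ IsField L := by
    intro hf
    rw [ringKrullDim_eq_zero_of_isField hf] at hdim
    exact zero_ne_one hdim
  haveI : Ring.KrullDimLE 1 L := Ring.krullDimLE_iff.mpr hdim.le
  haveI hdvr : IsDiscreteValuationRing L := by
    refine ((IsDiscreteValuationRing.TFAE L hnf).out 0 3 :
      IsDiscreteValuationRing L ↔ IsIntegrallyClosed L ∧ ∃! P : Ideal L, P ≠ ⊥ ∧ P.IsPrime).mpr ⟨hicl, maximalIdeal L,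
      ⟨(isField_iff_maximalIdeal_eq.not.mp hnf), inferInstance⟩, ?_⟩
    rintro P ⟨hP0, hPp⟩
    exact eq_maximalIdeal (Ring.krullDimLE_one_iff_of_isPrime_bot.mp inferInstance P hP0 hPp)
  obtain ⟨ϖ, hϖ⟩ := IsDiscreteValuationRing.exists_irreducible L
  obtain ⟨⟨π, s₀⟩, hπ⟩ := IsLocalization.surj p.primeCompl ϖ
  simp only at hπ
  have hs₀ : IsUnit (algebraMap S L s₀) := IsLocalization.map_units L s₀
  have hmax : maximalIdeal L = Ideal.span {algebraMap S L π} := by
    rw [← hπ, Ideal.span_singleton_mul_right_unit hs₀]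
    exact hϖ.maximalIdeal_eq
  have hπp : π ∈ p := by
    rw [← Localization.AtPrime.under_maximalIdeal (I := p)]
    exact Ideal.mem_comap.2 (hmax ▸ Ideal.mem_span_singleton_self _)
  have hπ0 : π ≠ 0 := by
    rintro rfl
    exact isField_iff_maximalIdeal_eq.not.mp hnf (by simpa using hmax)
  have hinj : Function.Injective (algebraMap S L) :=
    IsLocalization.injective L p.primeCompl_le_nonZeroDivisors
  refine ⟨π, hπp, hπ0, ?_, ?_⟩
  · intro y hy
    have : algebraMap S L y ∈ maximalIdeal L :=
      (IsLocalization.AtPrime.to_map_mem_maximal_iff L p y).2 hy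
    obtain ⟨c, hc⟩ := Ideal.mem_span_singleton'.1 (hmax ▸ this)
    obtain ⟨⟨z, s⟩, hz⟩ := IsLocalization.surj p.primeCompl c
    simp only at hz
    refine ⟨s, s.2, z, hinj ?_⟩
    rw [map_mul, map_mul, ← hz, ← hc]
    ring
  · intro a ha
    obtain ⟨j, u, hu⟩ := IsDiscreteValuationRing.eq_unit_mul_pow_irreducible
      (show algebraMap S L a ≠ 0 by simpa [map_eq_zero_iff _ hinj] using ha) hϖ
    obtain ⟨⟨t, s⟩, hts⟩ := IsLocalization.surj p.primeCompl (u : L)
    simp only at hts
    have htp : t ∉ p := by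
      intro ht
      have h1 : algebraMap S L t ∈ maximalIdeal L :=
        (IsLocalization.AtPrime.to_map_mem_maximal_iff L p t).2 ht
      rw [← hts] at h1
      exact h1 (u.isUnit.mul (IsLocalization.map_units L s))
    refine ⟨j, (s : S) * (s₀ : S) ^ j, t, ?_, htp, hinj ?_⟩
    · exact (p.primeCompl.mul_mem s.2 (p.primeCompl.pow_mem s₀.2 j))
    · simp only [map_mul, map_pow]
      rw [hu, ← hπ, ← hts]
      ring

end Vale.Agent.P266
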