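import Mathlib
import Vale.Agent.P266.CommAlg

/-! Abelian covers of a regular base with free derivation module, part 1: the frame. -/

open IsLocalRing

namespace Vale.Agent.P266

universe u v w

variable {k : Type u} [Field k] [CharZero k] {K : Type v} [Field K] [Algebra k K]
  {H : Type w} [CommGroup H] [Fintype H] [MulSemiringAction H K] [SMulCommClass H k K]

/-- `y` is an eigenvector with character `χ`. -/
def Eig (χ : H → k) (y : K) : Prop := ∀ h : H, h • y = algebraMap k K (χ h) * y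

/-- Data of a finite abelian cover with a free derivation module. -/
structure Cover (k : Type u) [Field k] (K : Type v) [Field K] [Algebra k K] (H : Type w)
    [CommGroup H] [MulSemiringAction H K] (d d' N : ℕ) where
  S : Subalgebra k K
  R : Subalgebra k K
  mem_R : ∀ y, y ∈ R ↔ y ∈ S ∧ ∀ h : H, h • y = y
  exists_frac : ∀ y : K, ∃ a ∈ S, ∃ b ∈ S, b ≠ 0 ∧ y * b = a
  root_mem : ∀ y : K, ∀ m : ℕ, 0 < m → y ^ m ∈ S → y ∈ S
  smul_mem : ∀ h : H, ∀ y ∈ S, h • y ∈ S
  localS : IsLocalRing S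
  res : ∀ a : S, ∃ c : k, a - algebraMap k S c ∈ @maximalIdeal S _ localS
  localR : IsLocalRing R
  noethR : IsNoetherianRing R
  icR : IsIntegrallyClosed R
  gen : Fin N → K
  gen_mem : ∀ j, gen j ∈ S
  gen_eig : ∀ j, ∃ χ : H → k, Eig χ (gen j)
  gen_span : ∀ y ∈ S, ∃ r : Fin N → R, y = ∑ j, (r j : K) * gen j
  dimR : ringKrullDim R = d
  x : Fin d → R
  x_span : @maximalIdeal R _ localR = Ideal.span (Set.range x)
  der : Fin d → Derivation k K K
  der_mem : ∀ l, ∀ y ∈ R, der l y ∈ R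
  der_x : ∀ l m, der l (x m : K) = if l = m then 1 else 0
  v : Fin d' → Derivation k K K
  v_mem : ∀ i, ∀ y ∈ S, v i y ∈ S
  chi : Fin d' → H → k
  v_eig : ∀ i h y, h • v i y = algebraMap k K (chi i h) * v i (h • y)
  v_span : ∀ D : Derivation k K K, (∀ y ∈ S, D y ∈ S) →
    ∃ c : Fin d' → K, (∀ i, c i ∈ S) ∧ ∀ y, D y = ∑ i, c i * v i y
  v_indep : ∀ c : Fin d' → K, (∀ i, c i ∈ S) → (∀ y, ∑ i, c i * v i y = 0) → ∀ i, c i = 0

attribute [instance] Cover.localS Cover.localR Cover.noethR Cover.icR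

namespace Cover

variable {d d' N : ℕ} (C : Cover k K H d d' N)

theorem R_le {y : K} (hy : y ∈ C.R) : y ∈ C.S := ((C.mem_R y).1 hy).1

theorem fix_R {y : K} (hy : y ∈ C.R) (h : H) : h • y = y := ((C.mem_R y).1 hy).2 h

theorem nat_isUnit (m : ℕ) (hm : m ≠ 0) : IsUnit (m : C.R) := by
  have h := (IsUnit.mk0 (m : k) (Nat.cast_ne_zero.2 hm)).map (algebraMap k C.R)
  simpa using h

theorem cardH_ne (_C : Cover k K H d d' N) : (Fintype.card H : K) ≠ 0 := by
  have : CharZero K := charZero_of_injective_algebraMap (algebraMap k K).injective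
  exact Nat.cast_ne_zero.2 Fintype.card_ne_zero


theorem inv_card_mem : (Fintype.card H : K)⁻¹ ∈ C.R := by
  have : (Fintype.card H : K)⁻¹ = algebraMap k K (Fintype.card H : k)⁻¹ := by simp
  rw [this]
  exact C.R.algebraMap_mem _

theorem exists_fixed_mul (b : K) (hb : b ∈ C.S) :
    ∃ B : C.R, ∃ b' ∈ C.S, (B : K) = b * b' ∧ (b ≠ 0 → B ≠ 0) := by
  classical
  have hmem : (∏ h : H, h • b) ∈ C.R := by
    refine (C.mem_R _).2 ⟨C.S.prod_mem (fun h _ => C.smul_mem h b hb), fun g => ?_⟩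
    rw [Finset.smul_prod']
    simp only [smul_smul]
    exact Fintype.prod_equiv (Equiv.mulLeft g) _ _ (fun _ => rfl)
  refine ⟨⟨_, hmem⟩, ∏ h ∈ Finset.univ.erase (1 : H), h • b,
    C.S.prod_mem (fun h _ => C.smul_mem h b hb), ?_, ?_⟩
  · change (∏ h : H, h • b) = _
    rw [← Finset.mul_prod_erase Finset.univ _ (Finset.mem_univ (1 : H)), one_smul]
  · intro hb0 h0
    have h1 : (∏ h : H, h • b) = 0 := congrArg Subtype.val h0
    obtain ⟨h, -, hh⟩ := Finset.prod_eq_zero_iff.1 h1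
    exact hb0 ((smul_eq_zero_iff_eq h).1 hh)

theorem exists_denom (y : K) : ∃ B : C.R, B ≠ 0 ∧ (B : K) * y ∈ C.S := by
  obtain ⟨a, ha, b, hb, hb0, hab⟩ := C.exists_frac y
  obtain ⟨B, b', hb', hB, hB0⟩ := C.exists_fixed_mul b hb
  refine ⟨B, hB0 hb0, ?_⟩
  have : (B : K) * y = a * b' := by rw [hB, ← hab]; ring
  rw [this]
  exact C.S.mul_mem ha hb'

theorem exists_denom_fun {ι : Type*} (s : Finset ι) (f : ι → K) :
    ∃ B : C.R, B ≠ 0 ∧ ∀ i ∈ s, (B : K) * f i ∈ C.S := by
  classical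
  induction s using Finset.induction_on with
  | empty => exact ⟨1, one_ne_zero, by simp⟩
  | @insert a s _ ih =>
    obtain ⟨B, hB, hB'⟩ := ih
    obtain ⟨B', hB0, hB''⟩ := C.exists_denom (f a)
    refine ⟨B * B', mul_ne_zero hB hB0, fun i hi => ?_⟩
    push_cast
    rcases Finset.mem_insert.1 hi with rfl | hi
    · rw [mul_assoc]; exact C.S.mul_mem (C.R_le B.2) hB''
    · rw [mul_right_comm]; exact C.S.mul_mem (hB' i hi) (C.R_le B'.2)

theorem fixed_frac (y : K) (hy : ∀ h : H, h • y = y) :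
    ∃ a b : C.R, b ≠ 0 ∧ y * (b : K) = a := by
  obtain ⟨B, hB, hBy⟩ := C.exists_denom y
  refine ⟨⟨(B : K) * y, (C.mem_R _).2 ⟨hBy, fun h => ?_⟩⟩, B, hB, mul_comm _ _⟩
  rw [smul_mul', C.fix_R B.2 h, hy]

/-! ### Eigenvectors -/

theorem eig_pow_smul {χ : H → k} {y : K} (hy : Eig χ y) (h : H) (m : ℕ) :
    h ^ m • y = algebraMap k K (χ h) ^ m * y := by
  induction m with
  | zero => simp
  | succ m ih =>
    rw [pow_succ', mul_smul, ih, smul_mul', smul_pow', smul_algebraMap, hy h]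
    ring

theorem eig_pow_card {χ : H → k} {y : K} (hy : Eig χ y) (h : H) :
    h • y ^ Fintype.card H = y ^ Fintype.card H := by
  rw [smul_pow', hy h, mul_pow]
  obtain ⟨m, hm⟩ : ∃ m, Fintype.card H = m + 1 :=
    ⟨_, (Nat.succ_pred_eq_of_pos Fintype.card_pos).symm⟩
  have h1 := eig_pow_smul hy h (Fintype.card H)
  rw [pow_card_eq_one, one_smul] at h1
  rw [hm] at h1 ⊢
  linear_combination -(y ^ m) * h1

theorem eig_pow_mem {χ : H → k} {y : K} (hyS : y ∈ C.S) (hy : Eig χ y) :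
    y ^ Fintype.card H ∈ C.R :=
  (C.mem_R _).2 ⟨C.S.pow_mem hyS _, eig_pow_card hy⟩

theorem derivation_eig (C : Cover k K H d d' N) (θ : Derivation k K K) {y : K} (hy : y ≠ 0) :
    θ y = y * θ (y ^ Fintype.card H) / ((Fintype.card H : K) * y ^ Fintype.card H) := by
  have h0 : (Fintype.card H : K) ≠ 0 := C.cardH_ne
  obtain ⟨m, hm⟩ : ∃ m, Fintype.card H = m + 1 :=
    ⟨_, (Nat.succ_pred_eq_of_pos Fintype.card_pos).symm⟩
  rw [hm] at h0 ⊢
  rw [Derivation.leibniz_pow, Nat.add_sub_cancel, eq_div_iff (mul_ne_zero h0 (pow_ne_zero _ hy))]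
  simp only [smul_eq_mul, nsmul_eq_mul]
  ring

/-! ### Uniqueness of derivations -/

theorem residueR (a : C.R) : ∃ c : k, a - algebraMap k C.R c ∈ maximalIdeal C.R := by
  obtain ⟨c, hc⟩ := C.res ⟨(a : K), C.R_le a.2⟩
  refine ⟨c, fun hu => hc ?_⟩
  obtain ⟨b, hb⟩ := hu.exists_left_inv
  refine IsUnit.of_mul_eq_one_right (⟨(b : K), C.R_le b.2⟩ : C.S) ?_
  ext
  have := congrArg Subtype.val hb
  simpa using this

theorem derivation_eq_zero (D : Derivation k K K) (hR : ∀ y ∈ C.R, D y ∈ C.S)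
    (hx : ∀ l, D (C.x l : K) = 0) : D = 0 := by
  classical
  let M : Submodule C.R K := Submodule.span C.R (Set.range C.gen)
  haveI : Module.Finite C.R M := Module.Finite.span_of_finite C.R (Set.finite_range _)
  have hM : ∀ y ∈ C.S, y ∈ M := by
    intro y hy
    obtain ⟨r, rfl⟩ := C.gen_span y hy
    exact Submodule.sum_mem _ (fun j _ =>
      M.smul_mem (r j) (Submodule.subset_span (Set.mem_range_self j)))
  have key : ∀ i : ℕ, ∀ a : C.R,
      (⟨D (a : K), hM _ (hR _ a.2)⟩ : M) ∈ (maximalIdeal C.R ^ i • ⊤ : Submodule C.R M) := by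
    intro i
    induction i with
    | zero => intro a; simp
    | succ i ih =>
      intro a
      obtain ⟨c, hc⟩ := C.residueR a
      rw [C.x_span, Ideal.mem_span_range_iff_exists_fun] at hc
      obtain ⟨q, hq⟩ := hc
      have h1 : (⟨D (a : K), hM _ (hR _ a.2)⟩ : M)
          = ∑ l, C.x l • (⟨D (q l : K), hM _ (hR _ (q l).2)⟩ : M) := by
        apply Subtype.ext
        have h2 := congrArg (fun z : C.R => D (z : K)) hq
        simp only [AddSubgroupClass.coe_sub, Subalgebra.coe_algebraMap, map_sub,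
          Derivation.map_algebraMap, sub_zero] at h2
        change D (a : K) = _
        refine h2.symm.trans ?_
        simp [hx, Algebra.smul_def, Derivation.leibniz]
      rw [h1]
      refine Submodule.sum_mem _ (fun l _ => ?_)
      rw [pow_succ', mul_smul]
      refine Submodule.smul_mem_smul ?_ (ih (q l))
      rw [C.x_span]
      exact Ideal.subset_span (Set.mem_range_self l)
  have hzero : ∀ y ∈ C.R, D y = 0 := by
    intro y hy
    have hmem : (⟨D y, hM _ (hR _ hy)⟩ : M) ∈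
        (⨅ i : ℕ, maximalIdeal C.R ^ i • ⊤ : Submodule C.R M) :=
      (Submodule.mem_iInf _).2 (fun i => key i ⟨y, hy⟩)
    rw [Ideal.iInf_pow_smul_eq_bot_of_isLocalRing _ (maximalIdeal.isMaximal C.R).ne_top,
      Submodule.mem_bot] at hmem
    exact congrArg Subtype.val hmem
  have hgen : ∀ j, D (C.gen j) = 0 := by
    intro j
    obtain ⟨χ, hχ⟩ := C.gen_eig j
    by_cases h0 : C.gen j = 0
    · simp [h0]
    · rw [C.derivation_eig D h0, hzero _ (C.eig_pow_mem (C.gen_mem j) hχ)]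
      simp
  have hS : ∀ y ∈ C.S, D y = 0 := by
    intro y hy
    obtain ⟨r, rfl⟩ := C.gen_span y hy
    simp [Derivation.leibniz, hzero _ (r _).2, hgen]
  ext y
  obtain ⟨a, ha, b, hb, hb0, hab⟩ := C.exists_frac y
  have := congrArg D hab
  simpa [Derivation.leibniz, hS _ ha, hS _ hb, hb0] using this

theorem derivation_ext (D D' : Derivation k K K) (hR : ∀ y ∈ C.R, D y ∈ C.S)
    (hR' : ∀ y ∈ C.R, D' y ∈ C.S) (hx : ∀ l, D (C.x l : K) = D' (C.x l : K)) (y : K) :
    D y = D' y := by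
  have h := C.derivation_eq_zero (D - D')
    (fun z hz => by simpa using C.S.sub_mem (hR z hz) (hR' z hz)) (fun l => by simp [hx l])
  exact sub_eq_zero.1 (by simpa using congrArg (fun E : Derivation k K K => E y) h)

/-! ### The matrix `M` and its inverse -/

/-- `M i l = v i (x l)`. -/
def M (i : Fin d') (l : Fin d) : K := C.v i (C.x l : K)

theorem M_mem (i : Fin d') (l : Fin d) : C.M i l ∈ C.S := C.v_mem i _ (C.R_le (C.x l).2)

theorem M_eig (i : Fin d') (l : Fin d) : Eig (C.chi i) (C.M i l) := fun h => by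
  simp only [M, C.v_eig i h, C.fix_R (C.x l).2 h]

theorem sum_der_apply (c : Fin d → K) (m : Fin d) :
    ∑ l, c l * C.der l (C.x m : K) = c m := by simp [C.der_x]

theorem v_eq_sum (i : Fin d') (y : K) : C.v i y = ∑ l, C.M i l * C.der l y := by
  have hsum : ∀ z, (∑ l, C.M i l • C.der l : Derivation k K K) z = ∑ l, C.M i l * C.der l z := by
    intro z
    rw [← Derivation.coeFnAddMonoidHom_apply, map_sum, Finset.sum_apply]
    simp [Derivation.coeFnAddMonoidHom]
  rw [← hsum]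
  refine C.derivation_ext _ _ (fun z hz => C.v_mem i z (C.R_le hz)) ?_ (fun m => ?_) y
  · intro z hz
    rw [hsum]
    exact C.S.sum_mem (fun l _ => C.S.mul_mem (C.M_mem i l) (C.R_le (C.der_mem l z hz)))
  · rw [hsum, C.sum_der_apply]; rfl

theorem exists_der_span (l : Fin d) :
    ∃ c : Fin d' → K, ∀ y, C.der l y = ∑ i, c i * C.v i y := by
  classical
  obtain ⟨B, hB, hBg⟩ := C.exists_denom_fun Finset.univ (fun j => C.der l (C.gen j))
  have hB' : (B : K) ≠ 0 := by simpa using hB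
  obtain ⟨c, -, hc⟩ := C.v_span ((B : K) • C.der l) (by
    intro y hy
    obtain ⟨r, rfl⟩ := C.gen_span y hy
    simp only [Derivation.smul_apply, smul_eq_mul, map_sum, Derivation.leibniz, Finset.mul_sum]
    refine C.S.sum_mem (fun j _ => ?_)
    exact C.S.add_mem (C.S.mul_mem (C.R_le (r j).2) (hBg j (Finset.mem_univ j)))
      (C.S.mul_mem (C.gen_mem j) (C.S.mul_mem (C.R_le B.2) (C.R_le (C.der_mem l _ (r j).2)))))
  refine ⟨fun i => c i / (B : K), fun y => ?_⟩
  have := hc y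
  simp only [Derivation.smul_apply, smul_eq_mul] at this
  simp only [div_mul_eq_mul_div, ← Finset.sum_div]
  rw [← this, mul_div_cancel_left₀ _ hB']

/-- The inverse of `M`. -/
noncomputable def Ninv (l : Fin d) (i : Fin d') : K := (C.exists_der_span l).choose i

theorem der_eq_sum (l : Fin d) (y : K) : C.der l y = ∑ i, C.Ninv l i * C.v i y :=
  (C.exists_der_span l).choose_spec y

theorem NM (l m : Fin d) : ∑ i, C.Ninv l i * C.M i m = if l = m then 1 else 0 := by
  rw [← C.der_x l m, C.der_eq_sum]; rfl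

theorem v_indep' (c : Fin d' → K) (h : ∀ y, ∑ i, c i * C.v i y = 0) : ∀ i, c i = 0 := by
  obtain ⟨B, hB, hBc⟩ := C.exists_denom_fun Finset.univ c
  intro i
  have := C.v_indep (fun i => (B : K) * c i) (fun i => hBc i (Finset.mem_univ i))
    (fun y => by simp only [mul_assoc, ← Finset.mul_sum, h y, mul_zero]) i
  exact (mul_eq_zero.1 this).resolve_left (by simpa using hB)

theorem MN (i j : Fin d') : ∑ l, C.M i l * C.Ninv l j = if i = j then 1 else 0 := by
  have h := C.v_indep' (fun j => (∑ l, C.M i l * C.Ninv l j) - if i = j then 1 else 0) (by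
    intro y
    simp only [sub_mul, Finset.sum_sub_distrib, ite_mul, one_mul, zero_mul, Finset.sum_ite_eq,
      Finset.mem_univ, if_true, Finset.sum_mul]
    rw [Finset.sum_comm, sub_eq_zero, C.v_eq_sum i y]
    simp only [mul_assoc, ← Finset.mul_sum, ← C.der_eq_sum]) j
  exact sub_eq_zero.1 h

theorem card_eq (C : Cover k K H d d' N) : d' = d := by
  classical
  let A : Matrix (Fin d') (Fin d) K := Matrix.of C.M
  let B : Matrix (Fin d) (Fin d') K := Matrix.of C.Ninv
  have h1 : A * B = 1 := by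
    ext i j; simp [A, B, Matrix.mul_apply, C.MN, Matrix.one_apply]
  have h2 : B * A = 1 := by
    ext i j; simp [A, B, Matrix.mul_apply, C.NM, Matrix.one_apply]
  let e : (Fin d → K) ≃ₗ[K] (Fin d' → K) :=
    LinearEquiv.ofLinearMap (Matrix.toLin' A) (Matrix.toLin' B)
      (by rw [← Matrix.toLin'_mul, h1, Matrix.toLin'_one])
      (by rw [← Matrix.toLin'_mul, h2, Matrix.toLin'_one])
  simpa using e.finrank_eq.symm

/-! ### Localisation at a prime of `R` -/

/-- `y` lies in the localisation of `S` at the prime `p` of `R`. -/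
def Sp (p : Ideal C.R) (y : K) : Prop := ∃ t : C.R, t ∉ p ∧ (t : K) * y ∈ C.S

/-- `π` is a uniformizer at `p`. -/
def Unif (p : Ideal C.R) (π : C.R) : Prop :=
  π ∈ p ∧ π ≠ 0 ∧ (∀ y ∈ p, ∃ s ∉ p, ∃ z, s * y = π * z) ∧
    ∀ a : C.R, a ≠ 0 → ∃ (j : ℕ) (s t : C.R), s ∉ p ∧ t ∉ p ∧ s * a = π ^ j * t

section
variable {C} {p : Ideal C.R} [p.IsPrime]

theorem Sp.of_mem {y : K} (hy : y ∈ C.S) : C.Sp p y :=
  ⟨1, (Ideal.ne_top_iff_one p).1 Ideal.IsPrime.ne_top', by simpa using hy⟩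

theorem Sp.add {y z : K} (hy : C.Sp p y) (hz : C.Sp p z) : C.Sp p (y + z) := by
  obtain ⟨t, ht, hty⟩ := hy
  obtain ⟨s, hs, hsz⟩ := hz
  refine ⟨t * s, fun h => ((‹p.IsPrime›.mem_or_mem h).elim ht hs), ?_⟩
  have : ((t * s : C.R) : K) * (y + z) = (s : K) * ((t : K) * y) + (t : K) * ((s : K) * z) := by
    push_cast; ring
  rw [this]
  exact C.S.add_mem (C.S.mul_mem (C.R_le s.2) hty) (C.S.mul_mem (C.R_le t.2) hsz)

theorem Sp.mul {y z : K} (hy : C.Sp p y) (hz : C.Sp p z) : C.Sp p (y * z) := by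
  obtain ⟨t, ht, hty⟩ := hy
  obtain ⟨s, hs, hsz⟩ := hz
  refine ⟨t * s, fun h => ((‹p.IsPrime›.mem_or_mem h).elim ht hs), ?_⟩
  have : ((t * s : C.R) : K) * (y * z) = ((t : K) * y) * ((s : K) * z) := by push_cast; ring
  rw [this]
  exact C.S.mul_mem hty hsz

theorem Sp.of_R (a : C.R) : C.Sp p (a : K) := Sp.of_mem (C.R_le a.2)

theorem Sp.neg {y : K} (hy : C.Sp p y) : C.Sp p (-y) := by
  obtain ⟨t, ht, hty⟩ := hy
  exact ⟨t, ht, by simpa using C.S.neg_mem hty⟩

theorem Sp.sub {y z : K} (hy : C.Sp p y) (hz : C.Sp p z) : C.Sp p (y - z) := by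
  rw [sub_eq_add_neg]; exact hy.add hz.neg

theorem Sp.div (a t : C.R) (ht : t ∉ p) : C.Sp p ((a : K) / (t : K)) := by
  refine ⟨t, ht, ?_⟩
  have : (t : K) ≠ 0 := by
    intro h
    exact ht (by rw [show t = 0 from Subtype.ext h]; exact p.zero_mem)
  rw [mul_div_cancel₀ _ this]
  exact C.R_le a.2

theorem Sp.root {y : K} {m : ℕ} (hm : 0 < m) (hy : C.Sp p (y ^ m)) : C.Sp p y := by
  obtain ⟨t, ht, hty⟩ := hy
  refine ⟨t, ht, C.root_mem _ m hm ?_⟩
  obtain ⟨m, rfl⟩ : ∃ i, m = i + 1 := ⟨m - 1, by omega⟩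
  have : ((t : K) * y) ^ (m + 1) = (t : K) ^ m * ((t : K) * y ^ (m + 1)) := by ring
  rw [this]
  exact C.S.mul_mem (C.S.pow_mem (C.R_le t.2) _) hty

theorem not_Sp_one_div {π : C.R} (hπ : C.Unif p π) : ¬ C.Sp p (1 / (π : K)) := by
  rintro ⟨t, ht, h⟩
  have hπ0 : (π : K) ≠ 0 := by simpa using hπ.2.1
  have hR : (t : K) * (1 / (π : K)) ∈ C.R := by
    refine (C.mem_R _).2 ⟨h, fun g => ?_⟩
    rw [smul_mul', smul_div₀', smul_one, C.fix_R t.2, C.fix_R π.2]
  apply ht
  have : t = π * ⟨_, hR⟩ := by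
    ext; push_cast; field_simp
  rw [this]
  exact Ideal.mul_mem_right _ _ hπ.1

theorem mem_of_Sp_div {π : C.R} (hπ : C.Unif p π) {a : C.R} (h : C.Sp p ((a : K) / (π : K))) :
    a ∈ p := by
  obtain ⟨t, ht, h⟩ := h
  have hπ0 : (π : K) ≠ 0 := by simpa using hπ.2.1
  have hR : (t : K) * ((a : K) / (π : K)) ∈ C.R := by
    refine (C.mem_R _).2 ⟨h, fun g => ?_⟩
    rw [smul_mul', smul_div₀', C.fix_R t.2, C.fix_R π.2, C.fix_R a.2]
  have h1 : t * a = π * ⟨_, hR⟩ := by
    ext; push_cast; field_simp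
  have : t * a ∈ p := by rw [h1]; exact Ideal.mul_mem_right _ _ hπ.1
  exact (‹p.IsPrime›.mem_or_mem this).resolve_left ht

theorem Sp_div_of_mem {π : C.R} (hπ : C.Unif p π) {a : C.R} (h : a ∈ p) :
    C.Sp p ((a : K) / (π : K)) := by
  obtain ⟨s, hs, z, hz⟩ := hπ.2.2.1 a h
  have hπ0 : (π : K) ≠ 0 := by simpa using hπ.2.1
  refine ⟨s, hs, ?_⟩
  have h1 := congrArg Subtype.val hz
  push_cast at h1
  rw [← mul_div_assoc, h1, mul_div_cancel_left₀ _ hπ0]
  exact C.R_le z.2

theorem logder {π : C.R} (hπ : C.Unif p π) (θ : Derivation k K K)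
    (hθ : ∀ y ∈ C.R, θ y ∈ C.R) {f : C.R} (hf : f ≠ 0) :
    C.Sp p ((π : K) * (θ (f : K) / (f : K))) ∧
      (f ∉ p ∨ C.Sp p (θ (π : K) / (π : K)) → C.Sp p (θ (f : K) / (f : K))) := by
  obtain ⟨j, s, t, hs, ht, hj⟩ := hπ.2.2.2 f hf
  have hπ0 : (π : K) ≠ 0 := by simpa using hπ.2.1
  have hf0 : (f : K) ≠ 0 := by simpa using hf
  have hs0 : (s : K) ≠ 0 := fun h => hs (by rw [show s = 0 from Subtype.ext h]; exact p.zero_mem)
  have ht0 : (t : K) ≠ 0 := fun h => ht (by rw [show t = 0 from Subtype.ext h]; exact p.zero_mem)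
  have heq : (s : K) * (f : K) = (π : K) ^ j * (t : K) := by
    have := congrArg Subtype.val hj
    simpa using this
  have hid : θ (f : K) / (f : K) =
      (j : K) * (θ (π : K) / (π : K)) + (θ (t : K) / (t : K) - θ (s : K) / (s : K)) := by
    have h := congrArg θ heq
    simp only [Derivation.leibniz, Derivation.leibniz_pow, smul_eq_mul, nsmul_eq_mul] at h
    cases j with
    | zero =>
      simp only [pow_zero, one_mul, Nat.cast_zero, zero_mul, mul_zero, add_zero, zero_add] at h heq ⊢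
      rw [div_sub_div _ _ ht0 hs0, div_eq_div_iff hf0 (mul_ne_zero ht0 hs0)]
      linear_combination (t : K) * h - θ (t : K) * heq
    | succ j =>
      simp only [Nat.add_sub_cancel, pow_succ] at h heq
      push_cast at h ⊢
      rw [mul_div_assoc', div_sub_div _ _ ht0 hs0, div_add_div _ _ hπ0 (mul_ne_zero ht0 hs0),
        div_eq_div_iff hf0 (mul_ne_zero hπ0 (mul_ne_zero ht0 hs0))]
      linear_combination (π : K) * (t : K) * h
        - (((j : K) + 1) * θ (π : K) * (t : K) + (π : K) * θ (t : K)) * heq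
  have hts : C.Sp p (θ (t : K) / (t : K) - θ (s : K) / (s : K)) :=
    (Sp.div ⟨_, hθ _ t.2⟩ t ht).sub (Sp.div ⟨_, hθ _ s.2⟩ s hs)
  have hjS : C.Sp p (j : K) := Sp.of_mem (natCast_mem C.S j)
  refine ⟨?_, fun h => ?_⟩
  · rw [hid, mul_add]
    refine Sp.add ?_ ((Sp.of_R π).mul hts)
    have : (π : K) * ((j : K) * (θ (π : K) / (π : K))) = (j : K) * θ (π : K) := by field_simp
    rw [this]
    exact hjS.mul (Sp.of_R ⟨_, hθ _ π.2⟩)
  · rcases h with h | h
    · exact Sp.div ⟨_, hθ _ f.2⟩ f h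
    · rw [hid]
      exact (hjS.mul h).add hts

theorem exists_preserving (θ : Derivation k K K) (hθ : ∀ y ∈ C.R, θ y ∈ C.S)
    (hg : ∀ j, C.Sp p (θ (C.gen j))) :
    ∃ t : C.R, t ∉ p ∧ ∀ y ∈ C.S, (t : K) * θ y ∈ C.S := by
  classical
  have key : ∀ s : Finset (Fin N), ∃ t : C.R, t ∉ p ∧ ∀ j ∈ s, (t : K) * θ (C.gen j) ∈ C.S := by
    intro s
    induction s using Finset.induction_on with
    | empty => exact ⟨1, (Ideal.ne_top_iff_one p).1 Ideal.IsPrime.ne_top', by simp⟩
    | @insert a s _ ih =>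
      obtain ⟨t, ht, ht'⟩ := ih
      obtain ⟨t', ht0, ht''⟩ := hg a
      refine ⟨t * t', fun h => ((‹p.IsPrime›.mem_or_mem h).elim ht ht0), fun i hi => ?_⟩
      push_cast
      rcases Finset.mem_insert.1 hi with rfl | hi
      · rw [mul_assoc]; exact C.S.mul_mem (C.R_le t.2) ht''
      · rw [mul_right_comm]; exact C.S.mul_mem (ht' i hi) (C.R_le t'.2)
  obtain ⟨t, ht, ht'⟩ := key Finset.univ
  refine ⟨t, ht, fun y hy => ?_⟩
  obtain ⟨r, rfl⟩ := C.gen_span y hy
  simp only [map_sum, Derivation.leibniz, smul_eq_mul, Finset.mul_sum]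
  refine C.S.sum_mem (fun j _ => ?_)
  have h1 : (t : K) * ((r j : K) * θ (C.gen j) + C.gen j * θ (r j : K)) =
      (r j : K) * ((t : K) * θ (C.gen j)) + (t : K) * C.gen j * θ (r j : K) := by ring
  rw [h1]
  exact C.S.add_mem (C.S.mul_mem (C.R_le (r j).2) (ht' j (Finset.mem_univ j)))
    (C.S.mul_mem (C.S.mul_mem (C.R_le t.2) (C.gen_mem j)) (hθ _ (r j).2))

theorem exists_z {π : C.R} (hπ : C.Unif p π) :
    ∃ z : K, C.Sp p z ∧ ¬ C.Sp p (z / (π : K)) ∧ ∀ j,
      (∃ a ∈ p, (a : K) = C.gen j ^ Fintype.card H) → C.Sp p (z * C.gen j / (π : K)) := by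
  classical
  have key : ∀ s : Finset (Fin N), ∃ z : K, C.Sp p z ∧ ¬ C.Sp p (z / (π : K)) ∧ ∀ j ∈ s,
      (∃ a ∈ p, (a : K) = C.gen j ^ Fintype.card H) → C.Sp p (z * C.gen j / (π : K)) := by
    intro s
    induction s using Finset.induction_on with
    | empty => exact ⟨1, Sp.of_mem C.S.one_mem, not_Sp_one_div hπ, by simp⟩
    | @insert a s _ ih =>
      obtain ⟨z, hz, hz', hzs⟩ := ih
      by_cases hb : ∃ q ∈ p, (q : K) = C.gen a ^ Fintype.card H
      · have hbS : C.Sp p (C.gen a) := Sp.of_mem (C.gen_mem a)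
        have hpow : C.Sp p (z * C.gen a ^ Fintype.card H / (π : K)) := by
          obtain ⟨q, hq, hqa⟩ := hb
          rw [← hqa, mul_div_assoc]
          exact hz.mul (Sp_div_of_mem hπ hq)
        let P : ℕ → Prop := fun m => C.Sp p (z * C.gen a ^ m / (π : K))
        have hex : ∃ m, P m := ⟨_, hpow⟩
        have hm := Nat.find_spec hex
        have hm0 : Nat.find hex ≠ 0 := fun h => hz' (by simpa [P, h] using hm)
        obtain ⟨m, hm'⟩ := Nat.exists_eq_succ_of_ne_zero hm0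
        refine ⟨z * C.gen a ^ m, hz.mul (Sp.of_mem (C.S.pow_mem (C.gen_mem a) m)),
          Nat.find_min hex (by omega), fun j hj hja => ?_⟩
        rcases Finset.mem_insert.1 hj with rfl | hj
        · rw [hm'] at hm
          convert hm using 1
          simp only [Nat.succ_eq_add_one, pow_succ]; ring
        · have := (hzs j hj hja).mul (Sp.of_mem (C.S.pow_mem (C.gen_mem a) m) (p := p))
          convert this using 1
          ring
      · refine ⟨z, hz, hz', fun j hj hja => ?_⟩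
        rcases Finset.mem_insert.1 hj with rfl | hj
        · exact absurd hja hb
        · exact hzs j hj hja
  obtain ⟨z, h1, h2, h3⟩ := key Finset.univ
  exact ⟨z, h1, h2, fun j => h3 j (Finset.mem_univ j)⟩

theorem Sp_z_der {π : C.R} (hπ : C.Unif p π) {z : K} (hz : C.Sp p z)
    (hzg : ∀ j, (∃ a ∈ p, (a : K) = C.gen j ^ Fintype.card H) →
      C.Sp p (z * C.gen j / (π : K)))
    (θ : Derivation k K K) (hθ : ∀ y ∈ C.R, θ y ∈ C.R) (j : Fin N) :
    C.Sp p (z * θ (C.gen j)) := by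
  by_cases h0 : C.gen j = 0
  · simpa [h0] using Sp.of_mem C.S.zero_mem
  obtain ⟨χ, hχ⟩ := C.gen_eig j
  have hπ0 : (π : K) ≠ 0 := by simpa using hπ.2.1
  let f : C.R := ⟨_, C.eig_pow_mem (C.gen_mem j) hχ⟩
  have hf : f ≠ 0 := fun h => pow_ne_zero _ h0 (congrArg Subtype.val h)
  have hni : C.Sp p (Fintype.card H : K)⁻¹ := Sp.of_R ⟨_, C.inv_card_mem⟩
  have hl := logder hπ θ hθ hf
  rw [C.derivation_eig θ h0]
  by_cases hfp : f ∈ p
  · have := ((hzg j ⟨f, hfp, rfl⟩).mul hni).mul hl.1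
    convert this using 1
    simp only [f]
    field_simp
  · have := ((hz.mul (Sp.of_mem (C.gen_mem j))).mul hni).mul (hl.2 (Or.inl hfp))
    convert this using 1
    simp only [f]
    field_simp

end

theorem exists_unif (p : Ideal C.R) [p.IsPrime] (hp : p.height = 1) : ∃ π, C.Unif p π := by
  obtain ⟨π, h1, h2, h3, h4⟩ := exists_uniformizer hp
  exact ⟨π, h1, h2, h3, h4⟩

theorem mem_R_of_forall (y : K) (hy : ∀ h : H, h • y = y)
    (hp : ∀ p : Ideal C.R, p.IsPrime → p.height = 1 → C.Sp p y) : y ∈ C.R := by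
  obtain ⟨a, b, hb, hab⟩ := C.fixed_frac y hy
  obtain ⟨c, hc⟩ := dvd_of_forall_height_one hb (a := a) (by
    intro p hp1 hp2
    obtain ⟨t, ht, hty⟩ := hp p hp1 hp2
    have hR : (t : K) * y ∈ C.R :=
      (C.mem_R _).2 ⟨hty, fun g => by rw [smul_mul', C.fix_R t.2, hy]⟩
    refine ⟨t, ht, ⟨_, hR⟩, ?_⟩
    ext
    push_cast
    rw [← hab]; ring)
  have hb' : (b : K) ≠ 0 := by simpa using hb
  have : y = (c : K) := by
    have h := congrArg Subtype.val hc
    push_cast at h
    rw [← hab] at h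
    exact mul_right_cancel₀ hb' (h.trans (mul_comm _ _))
  rw [this]; exact c.2

theorem Ninv_mul_mem {i : Fin d'} {a : K} (haS : a ∈ C.S) (hae : Eig (C.chi i) a) (l : Fin d) :
    C.Ninv l i * a ∈ C.R := by
  classical
  let r : Fin d → K := fun l => C.Ninv l i * a
  have hMr : ∀ j, ∑ l, C.M j l * r l = if j = i then a else 0 := by
    intro j
    simp only [r, ← mul_assoc, ← Finset.sum_mul, C.MN, ite_mul, one_mul, zero_mul]
  have hfix : ∀ (h : H) (l : Fin d), h • r l = r l := by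
    intro h l
    have hMr' : ∀ j, ∑ m, C.M j m * (h • r m) = if j = i then a else 0 := by
      intro j
      have h1 := congrArg (h • ·) (hMr j)
      simp only [Finset.smul_sum, smul_mul', C.M_eig j _ h] at h1
      have h2 : algebraMap k K (C.chi j h) * ∑ m, C.M j m * (h • r m) =
          algebraMap k K (C.chi j h) * if j = i then a else 0 := by
        rw [Finset.mul_sum]
        simp only [← mul_assoc]
        rw [h1]
        split_ifs with hji
        · subst hji; exact hae h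
        · simp
      refine mul_left_cancel₀ ?_ h2
      intro hz
      have hM0 : ∀ m, C.M j m = 0 := fun m => by
        have := C.M_eig j m h
        rw [hz, zero_mul] at this
        exact (smul_eq_zero_iff_eq h).1 this
      have := C.MN j j
      simp [hM0] at this
    calc h • r l = ∑ m, (if l = m then 1 else 0) * (h • r m) := by simp
      _ = ∑ j, C.Ninv l j * ∑ m, C.M j m * (h • r m) := by
          simp only [← C.NM, Finset.sum_mul, Finset.mul_sum, mul_assoc]
          rw [Finset.sum_comm]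
      _ = r l := by
          simp only [hMr']
          simp [r]
  have hDr : ∀ D : Derivation k K K, (∀ y ∈ C.S, D y ∈ C.S) →
      ∑ m, D (C.x m : K) * r m ∈ C.S := by
    intro D hD
    obtain ⟨c, hc, hDc⟩ := C.v_span D hD
    have : ∑ m, D (C.x m : K) * r m = c i * a := by
      simp only [hDc, Finset.sum_mul]
      rw [Finset.sum_comm]
      simp only [mul_assoc, ← Finset.mul_sum]
      simp [show ∀ j, ∑ m, C.v j (C.x m : K) * r m = if j = i then a else 0 from hMr]
    rw [this]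
    exact C.S.mul_mem (hc i) haS
  refine C.mem_R_of_forall _ (fun h => hfix h l) (fun p hp hp1 => ?_)
  obtain ⟨π, hπ⟩ := C.exists_unif p hp1
  obtain ⟨z, hz, hz', hzg⟩ := exists_z hπ
  have hπ0 : (π : K) ≠ 0 := by simpa using hπ.2.1
  have hzr : C.Sp p (z * r l) := by
    obtain ⟨t₀, ht₀, hzt⟩ := hz
    have hθR : ∀ y ∈ C.R, (((t₀ : K) * z) • C.der l) y ∈ C.S := fun y hy =>
      C.S.mul_mem hzt (C.R_le (C.der_mem l y hy))
    obtain ⟨t, ht, htS⟩ := exists_preserving (p := p) (((t₀ : K) * z) • C.der l) hθR (by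
      intro j
      have := (Sp.of_R t₀ (p := p)).mul (Sp_z_der hπ ⟨t₀, ht₀, hzt⟩ hzg (C.der l) (C.der_mem l) j)
      simpa [mul_assoc] using this)
    have h1 := hDr ((t : K) • (((t₀ : K) * z) • C.der l)) (fun y hy => by simpa using htS y hy)
    refine ⟨t * t₀, fun h => ((hp.mem_or_mem h).elim ht ht₀), ?_⟩
    have h2 : ∑ m, ((t : K) • (((t₀ : K) * z) • C.der l)) (C.x m : K) * r m
        = ((t * t₀ : C.R) : K) * (z * r l) := by
      simp [C.der_x]
      ring
    rwa [h2] at h1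
  obtain ⟨a', b', hb', hab⟩ := C.fixed_frac _ (fun h => hfix h l)
  have hb0 : (b' : K) ≠ 0 := by simpa using hb'
  by_cases hra : a' = 0
  · have : r l = 0 := by
      have : r l * (b' : K) = 0 := by rw [hab, hra]; rfl
      exact (mul_eq_zero.1 this).resolve_right hb0
    change C.Sp p (r l)
    rw [this]; exact Sp.of_mem C.S.zero_mem
  obtain ⟨i', s, t, hs, ht, hi'⟩ := hπ.2.2.2 a' hra
  obtain ⟨j', s', t', hs', ht', hj'⟩ := hπ.2.2.2 b' hb'
  have hi : (s : K) * (a' : K) = (π : K) ^ i' * (t : K) := by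
    simpa using congrArg Subtype.val hi'
  have hj : (s' : K) * (b' : K) = (π : K) ^ j' * (t' : K) := by
    simpa using congrArg Subtype.val hj'
  have hs0 : (s : K) ≠ 0 := fun h => hs (by rw [show s = 0 from Subtype.ext h]; exact p.zero_mem)
  have hs0' : (s' : K) ≠ 0 := fun h => hs' (by rw [show s' = 0 from Subtype.ext h]; exact p.zero_mem)
  have ht0 : (t : K) ≠ 0 := fun h => ht (by rw [show t = 0 from Subtype.ext h]; exact p.zero_mem)
  have ht0' : (t' : K) ≠ 0 := fun h => ht' (by rw [show t' = 0 from Subtype.ext h]; exact p.zero_mem)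
  have hr : r l * ((π : K) ^ j' * ((s : K) * (t' : K))) = (π : K) ^ i' * ((t : K) * (s' : K)) := by
    linear_combination ((s : K) * (s' : K)) * hab + (s' : K) * hi - (r l * (s : K)) * hj
  have hst : s * t' ∉ p := fun h => (hp.mem_or_mem h).elim hs ht'
  have hts : t * s' ∉ p := fun h => (hp.mem_or_mem h).elim ht hs'
  rcases le_or_gt j' i' with hle | hlt
  · change C.Sp p (r l)
    obtain ⟨e, rfl⟩ := Nat.exists_eq_add_of_le hle
    have h := Sp.div (p := p) (π ^ e * (t * s')) (s * t') hst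
    convert h using 1
    push_cast
    rw [eq_div_iff (mul_ne_zero hs0 ht0')]
    refine mul_left_cancel₀ (pow_ne_zero j' hπ0) ?_
    rw [pow_add] at hr
    linear_combination hr
  · exfalso
    obtain ⟨e, rfl⟩ := Nat.exists_eq_add_of_le hlt
    apply hz'
    have h := (hzr.mul (Sp.of_R (π ^ e) (p := p))).mul (Sp.div (p := p) (s * t') (t * s') hts)
    convert h using 1
    push_cast
    rw [← mul_div_assoc, div_eq_div_iff hπ0 (mul_ne_zero ht0 hs0')]
    refine mul_left_cancel₀ (pow_ne_zero i' hπ0) ?_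
    rw [show i'.succ + e = i' + 1 + e from rfl, pow_add, pow_succ] at hr
    linear_combination -z * hr

theorem exists_e (i : Fin d') : ∃ l, C.M i l ≠ 0 ∧
    IsUnit (⟨C.Ninv l i * C.M i l, C.Ninv_mul_mem (C.M_mem i l) (C.M_eig i l) l⟩ : C.R) := by
  classical
  have hsum : (∑ l, (⟨C.Ninv l i * C.M i l,
      C.Ninv_mul_mem (C.M_mem i l) (C.M_eig i l) l⟩ : C.R)) = 1 := by
    ext
    push_cast
    have := C.MN i i
    simpa [mul_comm] using this
  obtain ⟨l, hl⟩ : ∃ l, IsUnit (⟨C.Ninv l i * C.M i l,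
      C.Ninv_mul_mem (C.M_mem i l) (C.M_eig i l) l⟩ : C.R) := by
    by_contra! h
    have h1 : (1 : C.R) ∈ maximalIdeal C.R := by
      rw [← hsum]; exact Ideal.sum_mem _ (fun l _ => h l)
    exact h1 isUnit_one
  refine ⟨l, fun h0 => ?_, hl⟩
  exact hl.ne_zero (Subtype.ext (by simp [h0]))

/-- Generator of the eigenspace with character `chi i`. -/
noncomputable def e (i : Fin d') : K := C.M i (C.exists_e i).choose

theorem e_mem (i : Fin d') : C.e i ∈ C.S := C.M_mem i _

theorem e_eig (i : Fin d') : Eig (C.chi i) (C.e i) := C.M_eig i _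

theorem e_ne (i : Fin d') : C.e i ≠ 0 := (C.exists_e i).choose_spec.1

theorem exists_mul_e {i : Fin d'} {y : K} (hy : y ∈ C.S) (hye : Eig (C.chi i) y) :
    ∃ r : C.R, y = (r : K) * C.e i := by
  obtain ⟨h0, hu⟩ := (C.exists_e i).choose_spec
  obtain ⟨b, hb⟩ := hu.exists_left_inv
  refine ⟨b * ⟨_, C.Ninv_mul_mem hy hye (C.exists_e i).choose⟩, ?_⟩
  have h := congrArg Subtype.val hb
  push_cast at h ⊢
  simp only [e]
  linear_combination -y * h

theorem M_div_mem (i : Fin d') (l : Fin d) : C.M i l / C.e i ∈ C.R := by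
  obtain ⟨r, hr⟩ := C.exists_mul_e (C.M_mem i l) (C.M_eig i l)
  rw [hr, mul_div_cancel_right₀ _ (C.e_ne i)]
  exact r.2

/-- Frame coefficients. -/
noncomputable def F (i : Fin d') (l : Fin d) : C.R := ⟨C.M i l / C.e i, C.M_div_mem i l⟩

/-- Inverse frame coefficients. -/
noncomputable def Finv (l : Fin d) (i : Fin d') : C.R :=
  ⟨C.Ninv l i * C.e i, C.Ninv_mul_mem (C.e_mem i) (C.e_eig i) l⟩

/-- The frame of derivations. -/
noncomputable def θ (i : Fin d') : Derivation k K K := (C.e i)⁻¹ • C.v i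

theorem θ_apply (i : Fin d') (y : K) : C.θ i y = ∑ l, (C.F i l : K) * C.der l y := by
  simp only [θ, Derivation.smul_apply, smul_eq_mul, F, C.v_eq_sum, Finset.mul_sum]
  refine Finset.sum_congr rfl (fun l _ => ?_)
  ring

theorem v_eq_e_mul (i : Fin d') (y : K) : C.v i y = C.e i * C.θ i y := by
  simp [θ, C.e_ne i]

theorem θ_mem (i : Fin d') : ∀ y ∈ C.R, C.θ i y ∈ C.R := fun y hy => by
  rw [θ_apply]
  exact C.R.sum_mem (fun l _ => C.R.mul_mem (C.F i l).2 (C.der_mem l y hy))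

theorem der_eq_sum_θ (l : Fin d) (y : K) : C.der l y = ∑ i, (C.Finv l i : K) * C.θ i y := by
  rw [C.der_eq_sum]
  refine Finset.sum_congr rfl (fun i _ => ?_)
  simp only [Finv, v_eq_e_mul]
  ring

end Cover

end Vale.Agent.P266
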