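import Mathlib

/-! Auxiliary facts: eigenvectors of finite abelian groups, dimension of integral extensions,
Kähler differentials of function fields, extension of derivations. -/

open IsLocalRing

namespace Vale.Agent.P266

universe u v w

/-- A finite abelian group acting linearly over an algebraically closed field of characteristic
zero: every vector of an invariant subspace is a combination of eigenvectors in it. -/
theorem mem_span_eigen {k : Type u} [Field k] [CharZero k] [IsAlgClosed k] {V : Type v}
    [AddCommGroup V] [Module k V] {H : Type w} [CommGroup H] [Fintype H]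
    (ρ : H →* Module.End k V) (P : Submodule k V) (hP : ∀ h, ∀ z ∈ P, ρ h z ∈ P) :
    ∀ z ∈ P, z ∈ Submodule.span k {y | y ∈ P ∧ ∃ χ : H → k, ∀ h, ρ h y = χ h • y} := by
  classical
  suffices key : ∀ s : Finset H, ∀ z ∈ P,
      z ∈ Submodule.span k {y | y ∈ P ∧ ∀ h ∈ s, ∃ c : k, ρ h y = c • y} by
    intro z hz
    refine Submodule.span_mono ?_ (key Finset.univ z hz)
    rintro y ⟨hy, hc⟩
    choose c hc using fun h => hc h (Finset.mem_univ h)
    exact ⟨hy, c, hc⟩
  intro s
  induction s using Finset.induction_on with
  | empty => intro z hz; exact Submodule.subset_span ⟨hz, by simp⟩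
  | @insert g s _ ih =>
    intro z hz
    have h := ih z hz
    refine Submodule.span_le.2 ?_ h
    rintro y ⟨hy, hs⟩
    haveI : NeZero (Fintype.card H : k) := ⟨Nat.cast_ne_zero.2 Fintype.card_ne_zero⟩
    obtain ⟨ζ, hζ⟩ := HasEnoughRootsOfUnity.exists_primitiveRoot k (Fintype.card H)
    have hn : 0 < Fintype.card H := Fintype.card_pos
    let n := Fintype.card H
    have hζ0 : ζ ≠ 0 := hζ.ne_zero hn.ne'
    let Z : Fin n → V := fun i => ∑ j : Fin n, (ζ⁻¹) ^ ((i : ℕ) * j) • ρ (g ^ (j : ℕ)) y
    have hZ : ∀ i, Z i ∈ P := fun i => P.sum_mem (fun j _ => P.smul_mem _ (hP _ y hy))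
    have hsum : ∑ i, Z i = (n : k) • y := by
      rw [Finset.sum_comm]
      simp only [← Finset.sum_smul]
      have h0 : ∀ j : Fin n, (∑ i : Fin n, (ζ⁻¹) ^ ((i : ℕ) * j))
          = if (j : ℕ) = 0 then (n : k) else 0 := by
        intro j
        rw [Fin.sum_univ_eq_sum_range (fun i : ℕ => (ζ⁻¹) ^ (i * (j : ℕ)))]
        simp only [mul_comm _ (j : ℕ), pow_mul]
        split_ifs with hj
        · simp [hj]
        · have hne : (ζ⁻¹) ^ (j : ℕ) ≠ 1 := hζ.inv.pow_ne_one_of_pos_of_lt hj j.2
          rw [geom_sum_eq hne, ← pow_mul, mul_comm, pow_mul, hζ.inv.pow_eq_one, one_pow, sub_self,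
            zero_div]
      simp only [h0, ite_smul, zero_smul]
      rw [Finset.sum_eq_single (⟨0, hn⟩ : Fin n)]
      · simp
      · intro j _ hj
        rw [if_neg]
        exact fun h => hj (Fin.ext h)
      · simp
    have hZs : ∀ i, ∀ h ∈ insert g s, ∃ c : k, ρ h (Z i) = c • Z i := by
      intro i h hh
      rcases Finset.mem_insert.1 hh with rfl | hh
      · refine ⟨ζ ^ (i : ℕ), ?_⟩
        simp only [Z, map_sum, map_smul, Finset.smul_sum, smul_smul]
        rw [← Equiv.sum_comp (finRotate n) (fun j : Fin n =>
          (ζ ^ (i : ℕ) * (ζ⁻¹) ^ ((i : ℕ) * j)) • ρ (h ^ (j : ℕ)) y)]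
        refine Finset.sum_congr rfl (fun j _ => ?_)
        have hmod : ((finRotate n j : Fin n) : ℕ) = ((j : ℕ) + 1) % n := by
          haveI : NeZero n := ⟨hn.ne'⟩
          simp [finRotate_apply, Fin.val_add]
        have hmz : ∀ m, (ζ⁻¹) ^ ((i : ℕ) * (m % n)) = (ζ⁻¹) ^ ((i : ℕ) * m) := by
          intro m
          conv_rhs => rw [← Nat.mod_add_div m n]
          simp [mul_add, pow_add, ← mul_assoc, mul_comm _ n, pow_mul, hζ.inv.pow_eq_one, n]
        have hmg : h ^ (((j : ℕ) + 1) % n) = h ^ ((j : ℕ) + 1) := by
          conv_rhs => rw [← Nat.mod_add_div ((j : ℕ) + 1) n]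
          simp [pow_add, pow_mul, n, pow_card_eq_one]
        rw [hmod, hmz, hmg, pow_succ', map_mul, Module.End.mul_apply, mul_add, mul_one, pow_add]
        congr 1
        rw [inv_pow ζ (i : ℕ)]
        field_simp
      · obtain ⟨c, hc⟩ := hs h hh
        refine ⟨c, ?_⟩
        simp only [Z, map_sum, map_smul, Finset.smul_sum]
        refine Finset.sum_congr rfl (fun j _ => ?_)
        rw [← Module.End.mul_apply, ← map_mul, mul_comm h, map_mul, Module.End.mul_apply, hc,
          map_smul, smul_comm]
    have hy' : y = (n : k)⁻¹ • ∑ i, Z i := by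
      rw [hsum, smul_smul, inv_mul_cancel₀ (Nat.cast_ne_zero.2 hn.ne'), one_smul]
    rw [SetLike.mem_coe, hy']
    exact Submodule.smul_mem _ _ (Submodule.sum_mem _ (fun i _ =>
      Submodule.subset_span ⟨hZ i, hZs i⟩))

/-- Integral extensions do not decrease the dimension. -/
theorem ringKrullDim_le_of_integral {R : Type u} {S : Type v} [CommRing R] [CommRing S]
    [Algebra R S] [Algebra.IsIntegral R S] (hinj : Function.Injective (algebraMap R S)) :
    ringKrullDim R ≤ ringKrullDim S := by
  have key : ∀ l : LTSeries (PrimeSpectrum R), ∃ L : LTSeries (PrimeSpectrum S),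
      L.length = l.length ∧ PrimeSpectrum.comap (algebraMap R S) L.last = l.last := by
    intro l
    induction l using RelSeries.inductionOn' with
    | singleton x =>
      obtain ⟨Q, -, hQ, hQx⟩ := Ideal.exists_ideal_over_prime_of_isIntegral x.asIdeal (⊥ : Ideal S)
        (by rw [← RingHom.ker_eq_comap_bot, (RingHom.injective_iff_ker_eq_bot _).1 hinj]
            exact bot_le)
      exact ⟨RelSeries.singleton _ ⟨Q, hQ⟩, rfl, PrimeSpectrum.ext (by simpa using hQx)⟩
    | snoc p x hx ih =>
      obtain ⟨L, hL, hLl⟩ := ih
      have hle : L.last.asIdeal.comap (algebraMap R S) ≤ x.asIdeal := by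
        have : (p.last : PrimeSpectrum R) < x := hx
        rw [← hLl] at this
        exact this.le
      obtain ⟨Q, hQle, hQ, hQx⟩ :=
        Ideal.exists_ideal_over_prime_of_isIntegral x.asIdeal L.last.asIdeal hle
      have hne : (p.last : PrimeSpectrum R) < x := hx
      refine ⟨L.snoc ⟨Q, hQ⟩ (show L.last < ⟨Q, hQ⟩ from lt_of_le_of_ne hQle ?_),
        by simp [hL], PrimeSpectrum.ext (by simpa using hQx)⟩
      intro he
      apply hne.ne
      rw [← hLl, he]
      exact PrimeSpectrum.ext (by simpa using hQx)
  rw [ringKrullDim, Order.krullDim]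
  refine iSup_le (fun l => ?_)
  obtain ⟨L, hL, -⟩ := key l
  rw [← hL]
  exact le_iSup_of_le L le_rfl

/-- Integral extensions do not increase the dimension. -/
theorem ringKrullDim_ge_of_integral {R : Type u} {S : Type v} [CommRing R] [CommRing S]
    [Algebra R S] [Algebra.IsIntegral R S] : ringKrullDim S ≤ ringKrullDim R := by
  refine Order.krullDim_le_of_strictMono (PrimeSpectrum.comap (algebraMap R S)) ?_
  intro P Q hPQ
  have hPQ' : P.asIdeal < Q.asIdeal := hPQ
  obtain ⟨y, hyQ, hyP⟩ := Set.exists_of_ssubset hPQ'
  exact Ideal.comap_lt_comap_of_integral_mem_sdiff hPQ'.le ⟨hyQ, hyP⟩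
    (Algebra.IsIntegral.isIntegral y)

/-- The module of differentials of the function field of an affine variety has rank at least the
dimension. -/
theorem exists_finrank_kaehler (k : Type u) [Field k] [CharZero k] (A : Type v) [CommRing A]
    [IsDomain A] [Algebra k A] [Algebra.FiniteType k A] :
    ∃ s : ℕ, ringKrullDim A ≤ (s : WithBot ℕ∞) ∧
      Module.finrank (FractionRing A) (Ω[FractionRing A⁄k]) = s := by
  obtain ⟨s, g, hinj, hfin⟩ := exists_finite_inj_algHom_of_fg k A
  let P := MvPolynomial (Fin s) k
  letI : Algebra P A := g.toRingHom.toAlgebra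
  haveI : IsScalarTower k P A := IsScalarTower.of_algebraMap_eq (fun x => (g.commutes x).symm)
  haveI : Module.Finite P A := hfin
  haveI : FaithfulSMul P A := (faithfulSMul_iff_algebraMap_injective P A).2 hinj
  refine ⟨s, ?_, ?_⟩
  · calc ringKrullDim A ≤ ringKrullDim P := ringKrullDim_ge_of_integral
      _ = s := by simp [P, MvPolynomial.ringKrullDim_of_isNoetherianRing, ringKrullDim_eq_zero_of_field]
  · let L := FractionRing P
    let K := FractionRing A
    haveI : FaithfulSMul P K := (faithfulSMul_iff_algebraMap_injective P K).2 (by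
      rw [IsScalarTower.algebraMap_eq P A K]
      exact (IsFractionRing.injective A K).comp hinj)
    letI : Algebra L K := FractionRing.liftAlgebra P K
    haveI : IsScalarTower P L K := FractionRing.isScalarTower_liftAlgebra P K
    haveI : IsScalarTower k L K := IsScalarTower.of_algebraMap_eq (fun x => by
      rw [IsScalarTower.algebraMap_apply k P L, ← IsScalarTower.algebraMap_apply P L K,
        IsScalarTower.algebraMap_apply P A K, ← IsScalarTower.algebraMap_apply k P A,
        ← IsScalarTower.algebraMap_apply k A K])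
    haveI : Algebra.IsAlgebraic L K :=
      (IsFractionRing.comap_isAlgebraic_iff (A := P) (K := L)).1
        ((IsFractionRing.isAlgebraic_iff' P A K).1 inferInstance)
    haveI : CharZero L := charZero_of_injective_algebraMap (algebraMap k L).injective
    haveI : Algebra.IsSeparable L K := inferInstance
    haveI : Algebra.FormallyEtale L K := Algebra.FormallyEtale.of_isSeparable L K
    have e := KaehlerDifferential.tensorKaehlerEquivOfFormallyEtale k L K
    haveI : IsLocalizedModule (nonZeroDivisors P) (KaehlerDifferential.map k k P L) :=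
      KaehlerDifferential.isLocalizedModule_map k P L (nonZeroDivisors P)
    let b := Module.Basis.ofIsLocalizedModule L (nonZeroDivisors P)
      (KaehlerDifferential.map k k P L) (KaehlerDifferential.mvPolynomialBasis k (Fin s))
    rw [← e.finrank_eq, Module.finrank_baseChange, Module.finrank_eq_card_basis b]
    simp

/-- Derivations extend to the fraction field. -/
theorem exists_derivation_extend {k : Type u} [Field k] {A : Type v} [CommRing A] [IsDomain A]
    [Algebra k A] (D : Derivation k A A) :
    ∃ D' : Derivation k (FractionRing A) (FractionRing A),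
      ∀ a, D' (algebraMap A (FractionRing A) a) = algebraMap A (FractionRing A) (D a) := by
  let K := FractionRing A
  haveI : IsLocalizedModule (nonZeroDivisors A) (KaehlerDifferential.map k k A K) :=
    KaehlerDifferential.isLocalizedModule_map k A K (nonZeroDivisors A)
  have hb : IsBaseChange K (KaehlerDifferential.map k k A K) :=
    (isLocalizedModule_iff_isBaseChange (nonZeroDivisors A) K _).1 inferInstance
  let φ : Ω[K⁄k] →ₗ[K] K := hb.lift ((Algebra.linearMap A K).comp D.liftKaehlerDifferential)
  refine ⟨φ.compDer (KaehlerDifferential.D k K), fun a => ?_⟩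
  change φ (KaehlerDifferential.D k K (algebraMap A K a)) = _
  rw [← KaehlerDifferential.map_D k k A K a, hb.lift_eq]
  simp
  rfl

end Vale.Agent.P266
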