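import Mathlib
import Vale.Agent.P266.Extras

/-! Basic constructions: the local subalgebra of the fraction field and its invariants. -/

open IsLocalRing

namespace Vale.Agent.P266

universe u v w

section
variable {k : Type u} [Field k] {A : Type v} [CommRing A] [IsDomain A] [Algebra k A]

local instance : CoeOut (Ideal A) (Set A) := ⟨fun I => I⟩

/-- The localisation of `A` at the prime `n` inside the fraction field. -/
def locS (n : Ideal A) [hn : n.IsPrime] : Subalgebra k (FractionRing A) where
  carrier := {y | ∃ a b, b ∉ n ∧ y * algebraMap A (FractionRing A) b = algebraMap A (FractionRing A) a}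
  mul_mem' := by
    rintro y z ⟨a, b, hb, h⟩ ⟨a', b', hb', h'⟩
    refine ⟨a * a', b * b', fun hbb => (hn.mem_or_mem hbb).elim hb hb', ?_⟩
    rw [map_mul, map_mul, ← h, ← h']; ring
  one_mem' := ⟨1, 1, (Ideal.ne_top_iff_one n).1 hn.ne_top, by simp⟩
  add_mem' := by
    rintro y z ⟨a, b, hb, h⟩ ⟨a', b', hb', h'⟩
    refine ⟨a * b' + a' * b, b * b', fun hbb => (hn.mem_or_mem hbb).elim hb hb', ?_⟩
    rw [map_mul, map_add, map_mul, map_mul, ← h, ← h']; ring
  zero_mem' := ⟨0, 1, (Ideal.ne_top_iff_one n).1 hn.ne_top, by simp⟩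
  algebraMap_mem' c := ⟨algebraMap k A c, 1, (Ideal.ne_top_iff_one n).1 hn.ne_top, by
    rw [map_one, mul_one, ← IsScalarTower.algebraMap_apply]⟩

variable {n : Ideal A} [n.IsPrime]

theorem algebraMap_mem_locS (a : A) : algebraMap A (FractionRing A) a ∈ locS (k := k) n :=
  ⟨a, 1, (Ideal.ne_top_iff_one n).1 Ideal.IsPrime.ne_top', by simp⟩

theorem algebraMap_ne_zero_of_notMem {b : A} (hb : b ∉ n) :
    algebraMap A (FractionRing A) b ≠ 0 :=
  (map_ne_zero_iff _ (IsFractionRing.injective A _)).2 (fun h => hb (h ▸ n.zero_mem))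

theorem inv_mem_locS {b : A} (hb : b ∉ n) :
    (algebraMap A (FractionRing A) b)⁻¹ ∈ locS (k := k) n :=
  ⟨1, b, hb, by rw [inv_mul_cancel₀ (algebraMap_ne_zero_of_notMem hb), map_one]⟩

instance : Algebra A (locS (k := k) n) :=
  RingHom.toAlgebra
    { toFun := fun a => ⟨algebraMap A (FractionRing A) a, algebraMap_mem_locS a⟩
      map_one' := Subtype.ext (map_one _)
      map_mul' := fun _ _ => Subtype.ext (map_mul _ _ _)
      map_zero' := Subtype.ext (map_zero _)
      map_add' := fun _ _ => Subtype.ext (map_add _ _ _) }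

theorem coe_algebraMap_locS (a : A) :
    ((algebraMap A (locS (k := k) n) a : locS (k := k) n) : FractionRing A)
      = algebraMap A (FractionRing A) a := rfl

instance isLocalization_locS : IsLocalization.AtPrime (locS (k := k) n) n := by
  refine ⟨fun b => ?_, fun y => ?_, fun {a a'} h => ?_⟩
  · exact IsUnit.of_mul_eq_one_right ⟨_, inv_mem_locS b.2⟩
      (Subtype.ext (inv_mul_cancel₀ (algebraMap_ne_zero_of_notMem b.2)))
  · obtain ⟨a, b, hb, h⟩ := y.2
    exact ⟨⟨a, ⟨b, hb⟩⟩, Subtype.ext h⟩
  · exact ⟨1, by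
      have := IsFractionRing.injective A (FractionRing A) (congrArg Subtype.val h)
      rw [this]⟩

instance isLocalRing_locS : IsLocalRing (locS (k := k) n) :=
  IsLocalization.AtPrime.isLocalRing (locS (k := k) n) n

theorem algebraMap_mem_max_iff (a : A) :
    algebraMap A (locS (k := k) n) a ∈ maximalIdeal (locS (k := k) n) ↔ a ∈ n :=
  IsLocalization.AtPrime.to_map_mem_maximal_iff _ n a

theorem locS_root [IsIntegrallyClosed A] (y : FractionRing A) (m : ℕ) (hm : 0 < m)
    (hy : y ^ m ∈ locS (k := k) n) : y ∈ locS (k := k) n := by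
  obtain ⟨c, s, hs, h⟩ := hy
  obtain ⟨i, rfl⟩ : ∃ i, m = i + 1 := ⟨m - 1, by omega⟩
  have h1 : IsIntegral A (y * algebraMap A (FractionRing A) s) := by
    refine IsIntegral.of_pow (Nat.succ_pos i) ?_
    have h2 : (y * algebraMap A (FractionRing A) s) ^ (i + 1)
        = algebraMap A (FractionRing A) (c * s ^ i) := by
      rw [map_mul, map_pow, ← h]; ring
    rw [h2]
    exact isIntegral_algebraMap
  obtain ⟨a, ha⟩ := IsIntegrallyClosed.isIntegral_iff.1 h1
  exact ⟨a, s, hs, ha.symm⟩

theorem locS_frac (y : FractionRing A) :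
    ∃ a ∈ locS (k := k) n, ∃ b ∈ locS (k := k) n, b ≠ 0 ∧ y * b = a := by
  obtain ⟨⟨a, b⟩, h⟩ := IsLocalization.surj (nonZeroDivisors A) y
  exact ⟨_, algebraMap_mem_locS a, _, algebraMap_mem_locS (b : A),
    (map_ne_zero_iff _ (IsFractionRing.injective A _)).2 (nonZeroDivisors.coe_ne_zero b), h⟩

instance locS_noetherian [Algebra.FiniteType k A] : IsNoetherianRing (locS (k := k) n) := by
  haveI : IsNoetherianRing A := Algebra.FiniteType.isNoetherianRing k A
  exact IsLocalization.isNoetherianRing n.primeCompl _ inferInstance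

instance locS_integrallyClosed [IsIntegrallyClosed A] : IsIntegrallyClosed (locS (k := k) n) :=
  isIntegrallyClosed_of_isLocalization _ n.primeCompl n.primeCompl_le_nonZeroDivisors

end

section
variable {k : Type u} [Field k] [IsAlgClosed k] {A : Type v} [CommRing A] [IsDomain A] [Algebra k A]
  [Algebra.FiniteType k A]

theorem exists_residue (n : Ideal A) [n.IsMaximal] (a : A) :
    ∃ c : k, a - algebraMap k A c ∈ n := by
  letI : Field (A ⧸ n) := Ideal.Quotient.field n
  haveI : Algebra.FiniteType k (A ⧸ n) :=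
    Algebra.FiniteType.of_surjective (Ideal.Quotient.mkₐ k n) Ideal.Quotient.mk_surjective
  haveI : Module.Finite k (A ⧸ n) := finite_of_finite_type_of_isJacobsonRing k _
  obtain ⟨c, hc⟩ := (IsAlgClosed.algebraMap_bijective_of_isIntegral (k := k)).2
    (Ideal.Quotient.mk n a)
  refine ⟨c, ?_⟩
  rw [← Ideal.Quotient.eq_zero_iff_mem, map_sub, ← hc, sub_eq_zero]
  rfl

theorem locS_residue (n : Ideal A) [n.IsMaximal] (y : locS (k := k) n) :
    ∃ c : k, y - algebraMap k (locS (k := k) n) c ∈ maximalIdeal (locS (k := k) n) := by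
  obtain ⟨⟨a, b⟩, h⟩ := IsLocalization.surj n.primeCompl y
  obtain ⟨ca, hca⟩ := exists_residue (k := k) n a
  obtain ⟨cb, hcb⟩ := exists_residue (k := k) n b
  have hcb0 : cb ≠ 0 := fun h0 => b.2 (by simpa [h0] using hcb)
  refine ⟨ca / cb, ?_⟩
  have hu : IsUnit (algebraMap A (locS (k := k) n) b) := IsLocalization.map_units _ b
  rw [← Ideal.mul_unit_mem_iff_mem _ hu, sub_mul, h]
  have h1 : algebraMap k (locS (k := k) n) (ca / cb) * algebraMap A (locS (k := k) n) b
      = algebraMap A (locS (k := k) n) (algebraMap k A (ca / cb) * b) := by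
    apply Subtype.ext
    change algebraMap k (FractionRing A) (ca / cb) * algebraMap A (FractionRing A) b
      = algebraMap A (FractionRing A) (algebraMap k A (ca / cb) * b)
    rw [map_mul, ← IsScalarTower.algebraMap_apply]
  rw [h1, ← map_sub, algebraMap_mem_max_iff]
  have h2 : algebraMap k A (ca / cb) * algebraMap k A cb = algebraMap k A ca := by
    rw [← map_mul, div_mul_cancel₀ _ hcb0]
  have h3 : a - algebraMap k A (ca / cb) * (b : A) = (a - algebraMap k A ca)
      - algebraMap k A (ca / cb) * ((b : A) - algebraMap k A cb) := by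
    rw [mul_sub, h2]; ring
  rw [h3]
  exact n.sub_mem hca (n.mul_mem_left _ hcb)

end

section
variable {G : Type w} [Group G] {A : Type v} [CommRing A] [MulSemiringAction G A]

/-- The stabiliser of an ideal. -/
def stab [Finite G] (n : Ideal A) : Subgroup G where
  carrier := {g | ∀ a ∈ n, g • a ∈ n}
  one_mem' := fun a ha => by simpa using ha
  mul_mem' := fun {g h} hg hh a ha => by rw [mul_smul]; exact hg _ (hh _ ha)
  inv_mem' := fun {g} hg a ha => by
    haveI := Fintype.ofFinite G
    have hpow : ∀ m : ℕ, g ^ m • a ∈ n := by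
      intro m
      induction m with
      | zero => simpa using ha
      | succ m ih => rw [pow_succ', mul_smul]; exact hg _ ih
    have : g⁻¹ = g ^ (Fintype.card G - 1) := by
      apply inv_eq_of_mul_eq_one_right
      rw [← pow_succ', Nat.sub_add_cancel Fintype.card_pos, pow_card_eq_one]
    rw [this]
    exact hpow _

theorem smul_mem_iff_of_mem_stab [Finite G] {n : Ideal A} {g : G} (hg : g ∈ stab n) (a : A) :
    g • a ∈ n ↔ a ∈ n :=
  ⟨fun h => by simpa using (inv_mem hg) _ h, hg a⟩

end

end Vale.Agent.P266
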