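import Mathlib
import Vale.Agent.P266.SetupBase
import Vale.Agent.P266.Core1

/-! The invariant ring of an abelian group fixing a closed point, inside the function field. -/

open IsLocalRing

namespace Vale.Agent.P266

universe u v w

variable (k : Type u) [Field k] {A : Type v} [CommRing A] [IsDomain A] [Algebra k A]
  (H : Type w) [CommGroup H] [Fintype H] [MulSemiringAction H A] [SMulCommClass H k A]
  [MulSemiringAction H (FractionRing A)] [SMulCommClass H k (FractionRing A)]
  (n : Ideal A)

/-- The compatibility and stability hypotheses. -/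
structure Fixes : Prop where
  mem : ∀ (h : H) (a : A), a ∈ n → h • a ∈ n
  compat : ∀ (h : H) (a : A),
    h • algebraMap A (FractionRing A) a = algebraMap A (FractionRing A) (h • a)

/-- Invariants of the local subalgebra. -/
def invR [n.IsPrime] : Subalgebra k (FractionRing A) :=
  locS (k := k) n ⊓ FixedPoints.subalgebra k (FractionRing A) H

variable {k H n}

theorem mem_invR [n.IsPrime] (y : FractionRing A) :
    y ∈ invR k H n ↔ y ∈ locS (k := k) n ∧ ∀ h : H, h • y = y := Iff.rfl

section
variable (hF : Fixes H n)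
include hF

theorem Fixes.notMem (h : H) {b : A} (hb : b ∉ n) : h • b ∉ n := fun hh => hb (by
  simpa using hF.mem h⁻¹ _ hh)

theorem Fixes.smul_mem_locS [n.IsPrime] (h : H) (y : FractionRing A)
    (hy : y ∈ locS (k := k) n) : h • y ∈ locS (k := k) n := by
  obtain ⟨a, b, hb, heq⟩ := hy
  exact ⟨h • a, h • b, hF.notMem h hb, by rw [← hF.compat, ← hF.compat, ← heq, smul_mul']⟩

end

/-- Inclusion of the invariants. -/
def inclR [n.IsPrime] : invR k H n →+* locS (k := k) n :=
  (Subalgebra.inclusion (show invR k H n ≤ locS (k := k) n from inf_le_left)).toRingHom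

theorem coe_inclR [n.IsPrime] (a : invR k H n) :
    ((inclR a : locS (k := k) n) : FractionRing A) = a := rfl

theorem isUnit_inclR_iff [n.IsPrime] (a : invR k H n) : IsUnit (inclR a) ↔ IsUnit a := by
  refine ⟨fun h => ?_, fun h => h.map inclR⟩
  obtain ⟨b, hb⟩ := h.exists_left_inv
  have h1 : (b : FractionRing A) * (a : FractionRing A) = 1 := congrArg Subtype.val hb
  have hbR : (b : FractionRing A) ∈ invR k H n := by
    refine ⟨b.2, fun g => ?_⟩
    change g • (b : FractionRing A) = b
    rw [eq_inv_of_mul_eq_one_left h1, smul_inv'', (mem_invR _).1 a.2 |>.2 g]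
  exact IsUnit.of_mul_eq_one_right (⟨(b : FractionRing A), hbR⟩ : invR k H n) (Subtype.ext h1)

instance isLocalRing_invR [n.IsPrime] : IsLocalRing (invR k H n) := by
  refine IsLocalRing.of_nonunits_add (fun a b ha hb hab => ?_)
  have hab' : IsUnit (inclR a + inclR b) := by rw [← map_add]; exact hab.map inclR
  rcases IsLocalRing.isUnit_or_isUnit_of_isUnit_add hab' with h | h
  · exact ha ((isUnit_inclR_iff a).1 h)
  · exact hb ((isUnit_inclR_iff b).1 h)

theorem inclR_mem_max [n.IsPrime] {a : invR k H n} :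
    inclR a ∈ maximalIdeal (locS (k := k) n) ↔ a ∈ maximalIdeal (invR k H n) :=
  not_congr (isUnit_inclR_iff a)

section
variable [CharZero k] (hF : Fixes H n)
include hF

theorem exists_avg [n.IsPrime] : ∃ avg : locS (k := k) n → invR k H n,
    (∀ a : invR k H n, avg (inclR a) = a) ∧
    (∀ z z', avg (z + z') = avg z + avg z') ∧
    (∀ (a : invR k H n) z, avg (inclR a * z) = a * avg z) := by
  have hcH : (Fintype.card H : FractionRing A) ≠ 0 := by
    haveI : CharZero (FractionRing A) :=
      charZero_of_injective_algebraMap (algebraMap k (FractionRing A)).injective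
    exact Nat.cast_ne_zero.2 Fintype.card_ne_zero
  have hc : (Fintype.card H : FractionRing A)⁻¹
      = algebraMap k (FractionRing A) (Fintype.card H : k)⁻¹ := by simp
  have hmem : ∀ z : locS (k := k) n,
      (Fintype.card H : FractionRing A)⁻¹ * ∑ h : H, h • (z : FractionRing A) ∈ invR k H n := by
    intro z
    refine ⟨?_, fun g => ?_⟩
    · rw [hc]
      exact mul_mem ((locS (k := k) n).algebraMap_mem _)
        (Subalgebra.sum_mem _ (fun h _ => hF.smul_mem_locS h _ z.2))
    · change g • ((Fintype.card H : FractionRing A)⁻¹ * ∑ h : H, h • (z : FractionRing A)) = _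
      rw [smul_mul', hc, smul_algebraMap, Finset.smul_sum]
      simp only [smul_smul]
      congr 1
      exact Fintype.sum_equiv (Equiv.mulLeft g) _ _ (fun _ => rfl)
  refine ⟨fun z => ⟨_, hmem z⟩, fun a => ?_, fun z z' => ?_, fun a z => ?_⟩
  · apply Subtype.ext
    change (Fintype.card H : FractionRing A)⁻¹ * ∑ h : H, h • ((inclR a : locS (k := k) n) : FractionRing A) = a
    simp only [coe_inclR, ((mem_invR _).1 a.2).2, Finset.sum_const, Finset.card_univ, nsmul_eq_mul]
    rw [inv_mul_cancel_left₀ hcH]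
  · apply Subtype.ext
    push_cast
    simp only [smul_add, Finset.sum_add_distrib, mul_add]
  · apply Subtype.ext
    push_cast
    simp only [smul_mul', coe_inclR, ((mem_invR _).1 a.2).2, ← Finset.mul_sum]
    ring

theorem mem_of_inclR_mem_map [n.IsPrime] {I : Ideal (invR k H n)} {a : invR k H n}
    (ha : inclR a ∈ I.map inclR) : a ∈ I := by
  obtain ⟨avg, h1, h2, h3⟩ := exists_avg (k := k) hF
  have key : ∀ z ∈ I.map inclR, ∀ s, avg (s * z) ∈ I := by
    intro z hz
    induction hz using Submodule.span_induction with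
    | mem z hz =>
      obtain ⟨i, hi, rfl⟩ := hz
      intro s
      rw [mul_comm, h3]
      exact I.mul_mem_right _ hi
    | zero =>
      intro s
      rw [mul_zero, ← map_zero (inclR (k := k) (H := H) (n := n)), h1]
      exact I.zero_mem
    | add z z' _ _ hz hz' => intro s; rw [mul_add, h2]; exact I.add_mem (hz s) (hz' s)
    | smul c z _ hz => intro s; rw [smul_eq_mul, ← mul_assoc]; exact hz (s * c)
  have := key _ ha 1
  rwa [one_mul, h1] at this

theorem noetherian_invR [n.IsPrime] [Algebra.FiniteType k A] : IsNoetherianRing (invR k H n) := by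
  rw [isNoetherianRing_iff, isNoetherian_iff']
  have hmono : StrictMono (fun I : Ideal (invR k H n) => I.map inclR) := by
    intro I J hIJ
    refine lt_of_le_of_ne (Ideal.map_mono hIJ.le) (fun he => hIJ.ne (le_antisymm hIJ.le ?_))
    intro a ha
    have h := Ideal.mem_map_of_mem inclR ha
    simp only at he
    rw [← he] at h
    exact mem_of_inclR_mem_map hF h
  exact hmono.wellFoundedGT

theorem integrallyClosed_invR [n.IsPrime] [IsIntegrallyClosed A] :
    IsIntegrallyClosed (invR k H n) := by
  rw [isIntegrallyClosed_iff (FractionRing (invR k H n))]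
  intro q hq
  let K := FractionRing A
  haveI : IsFractionRing (locS (k := k) n) K := by
    refine ⟨fun y => ?_, fun y => ?_, fun {a b} h => ?_⟩
    · exact IsUnit.mk0 _ (fun h => nonZeroDivisors.coe_ne_zero y (Subtype.ext h))
    · obtain ⟨a, ha, b, hb, hb0, h⟩ := locS_frac (k := k) (n := n) y
      exact ⟨⟨⟨a, ha⟩, ⟨⟨b, hb⟩, mem_nonZeroDivisors_of_ne_zero
        (fun h' => hb0 (congrArg Subtype.val h'))⟩⟩, h⟩
    · exact ⟨1, by rw [Subtype.ext h]⟩
  let φ : FractionRing (invR k H n) →ₐ[invR k H n] K :=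
    IsFractionRing.liftAlgHom (g := Algebra.ofId (invR k H n) K) (fun a b h => Subtype.ext h)
  have hint : IsIntegral (invR k H n) (φ q) := hq.map φ
  letI : Algebra (invR k H n) (locS (k := k) n) := inclR.toAlgebra
  haveI : IsScalarTower (invR k H n) (locS (k := k) n) K :=
    IsScalarTower.of_algebraMap_eq (fun _ => rfl)
  obtain ⟨y, hy⟩ := IsIntegrallyClosed.isIntegral_iff.1
    (hint.tower_top (A := locS (k := k) n))
  obtain ⟨⟨a, b⟩, hab⟩ := IsLocalization.surj (nonZeroDivisors (invR k H n)) q
  have hb : ((b : invR k H n) : K) ≠ 0 := fun h =>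
    nonZeroDivisors.coe_ne_zero b (Subtype.ext h)
  have h1 : φ q * ((b : invR k H n) : K) = (a : K) := by
    have := congrArg φ hab
    rwa [map_mul, AlgHom.commutes, AlgHom.commutes] at this
  have hfix : ∀ h : H, h • (φ q) = φ q := by
    intro h
    rw [← mul_div_cancel_right₀ (φ q) hb, h1, smul_div₀', ((mem_invR _).1 a.2).2,
      ((mem_invR _).1 (b : invR k H n).2).2]
  have hmem : φ q ∈ invR k H n := ⟨hy ▸ y.2, hfix⟩
  refine ⟨⟨φ q, hmem⟩, ?_⟩
  apply φ.toRingHom.injective
  change φ (algebraMap _ _ _) = φ q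
  rw [AlgHom.commutes]
  rfl

theorem exists_gens [IsAlgClosed k] [n.IsMaximal] [Algebra.FiniteType k A] :
    ∃ (N : ℕ) (gen : Fin N → FractionRing A), (∀ j, gen j ∈ locS (k := k) n) ∧
      (∀ j, ∃ χ : H → k, Eig χ (gen j)) ∧
      ∀ y ∈ locS (k := k) n, ∃ r : Fin N → invR k H n,
        y = ∑ j, (r j : FractionRing A) * gen j := by
  classical
  let K := FractionRing A
  let A₀ := FixedPoints.subalgebra k A H
  haveI : Algebra.IsInvariant A₀ A H := ⟨fun a ha => ⟨⟨a, ha⟩, rfl⟩⟩
  haveI : Algebra.IsIntegral A₀ A := Algebra.IsInvariant.isIntegral A₀ A H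
  haveI : Algebra.FiniteType A₀ A := Algebra.FiniteType.of_restrictScalars_finiteType k A₀ A
  haveI : Module.Finite A₀ A := Algebra.IsIntegral.finite
  obtain ⟨s, hs⟩ := Module.Finite.fg_top (R := A₀) (M := A)
  let ρ : H →* Module.End k K :=
    { toFun := fun h => DistribSMul.toLinearMap k K h
      map_one' := LinearMap.ext (fun z => one_smul H z)
      map_mul' := fun g h => LinearMap.ext (fun z => mul_smul g h z) }
  have hsp : ∀ c : A, ∃ T : Finset K,
      (↑T : Set K) ⊆ {y | y ∈ (locS (k := k) n).toSubmodule ∧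
        ∃ χ : H → k, ∀ h, ρ h y = χ h • y} ∧
      algebraMap A K c ∈ Submodule.span k (↑T : Set K) := fun c =>
    Submodule.mem_span_finite_of_mem_span (mem_span_eigen ρ (locS (k := k) n).toSubmodule
      (fun h z hz => hF.smul_mem_locS (k := k) h z hz) (algebraMap A K c) (algebraMap_mem_locS (k := k) c))
  choose T hT hTm using hsp
  let G0 : Finset K := s.biUnion T
  let gen : Fin G0.card → K := fun j => (G0.equivFin.symm j : K)
  have hgen : Set.range gen = (↑G0 : Set K) := by
    ext z
    exact ⟨fun ⟨j, hj⟩ => hj ▸ (G0.equivFin.symm j).2,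
      fun hz => ⟨G0.equivFin ⟨z, hz⟩, by simp [gen]⟩⟩
  have hG0 : ∀ z ∈ G0, z ∈ locS (k := k) n ∧ ∃ χ : H → k, Eig χ z := by
    intro z hz
    obtain ⟨c, -, hzc⟩ := Finset.mem_biUnion.1 hz
    obtain ⟨h1, χ, h2⟩ := hT c hzc
    exact ⟨h1, χ, fun h => by have := h2 h; rwa [Algebra.smul_def] at this⟩
  refine ⟨G0.card, gen, fun j => (hG0 _ (G0.equivFin.symm j).2).1,
    fun j => (hG0 _ (G0.equivFin.symm j).2).2, fun y hy => ?_⟩
  let W : Submodule (invR k H n) K := Submodule.span (invR k H n) (↑G0 : Set K)
  suffices hW : y ∈ W by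
    rw [show W = Submodule.span (invR k H n) (Set.range gen) by rw [hgen],
      Submodule.mem_span_range_iff_exists_fun] at hW
    obtain ⟨r, hr⟩ := hW
    exact ⟨r, hr.symm⟩
  have hφA : ∀ a : A, algebraMap A K a ∈ W := by
    intro a
    have : a ∈ Submodule.span A₀ (↑s : Set A) := hs ▸ Submodule.mem_top
    induction this using Submodule.span_induction with
    | mem c hc =>
      have h1 := Submodule.span_mono (show (↑(T c) : Set K) ⊆ (↑G0 : Set K) by
        exact_mod_cast Finset.subset_biUnion_of_mem T hc) (hTm c)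
      exact Submodule.span_le_restrictScalars k (invR k H n) _ h1
    | zero => simp
    | add a b _ _ ha hb => rw [map_add]; exact W.add_mem ha hb
    | smul c a _ ha =>
      have hc : algebraMap A K (c : A) ∈ invR k H n :=
        ⟨algebraMap_mem_locS _, fun h => by
          change h • algebraMap A K (c : A) = _
          rw [hF.compat, c.2 h]⟩
      rw [Algebra.smul_def, map_mul]
      exact W.smul_mem (⟨_, hc⟩ : invR k H n) ha
  obtain ⟨a, b, hb, hab⟩ := hy
  let B : A := ∏ h : H, h • b
  let b' : A := ∏ h ∈ Finset.univ.erase (1 : H), h • b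
  have hB : B = b * b' := by
    simp only [B, b']
    rw [← Finset.mul_prod_erase Finset.univ _ (Finset.mem_univ (1 : H)), one_smul]
  have hBn : B ∉ n := fun hh => by
    obtain ⟨h, -, hh⟩ := (Ideal.IsMaximal.isPrime ‹_›).prod_mem_iff.1 hh
    exact hF.notMem h hb hh
  have hBR : (algebraMap A K B)⁻¹ ∈ invR k H n := ⟨inv_mem_locS hBn, fun g => by
    change g • (algebraMap A K B)⁻¹ = _
    rw [smul_inv'', hF.compat]
    congr 2
    simp only [B, Finset.smul_prod', smul_smul]
    exact Fintype.prod_equiv (Equiv.mulLeft g) _ _ (fun _ => rfl)⟩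
  have hy' : y = (algebraMap A K B)⁻¹ * algebraMap A K (a * b') := by
    rw [eq_inv_mul_iff_mul_eq₀ (algebraMap_ne_zero_of_notMem hBn), hB, map_mul, map_mul, ← hab]
    ring
  rw [hy']
  exact W.smul_mem (⟨_, hBR⟩ : invR k H n) (hφA _)

theorem exists_pow_le_map [IsAlgClosed k] [n.IsMaximal] [Algebra.FiniteType k A] :
    ∃ N : ℕ, maximalIdeal (locS (k := k) n) ^ N ≤ (maximalIdeal (invR k H n)).map inclR := by
  obtain ⟨N, gen, hg, -, hspan⟩ := exists_gens (k := k) hF
  letI : Algebra (invR k H n) (locS (k := k) n) := inclR.toAlgebra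
  haveI : Module.Finite (invR k H n) (locS (k := k) n) := by
    refine Module.Finite.of_surjective
      (Fintype.linearCombination (invR k H n)
        (fun j => (⟨gen j, hg j⟩ : locS (k := k) n))) ?_
    intro y
    obtain ⟨r, hr⟩ := hspan (y : FractionRing A) y.2
    refine ⟨r, Subtype.ext ?_⟩
    rw [Fintype.linearCombination_apply, AddSubmonoidClass.coe_finsetSum, hr]
    rfl
  refine Ideal.exists_pow_le_of_le_radical_of_fg ?_ (IsNoetherian.noetherian _)
  rw [Ideal.radical_eq_sInf]
  refine le_sInf ?_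
  rintro Q ⟨hQle, hQ⟩
  have hcomap : Q.comap (algebraMap (invR k H n) (locS (k := k) n)) = maximalIdeal (invR k H n) := by
    refine ((maximalIdeal.isMaximal _).eq_of_le ?_ (by intro a ha; exact hQle (Ideal.mem_map_of_mem inclR ha))).symm
    exact fun h => hQ.ne_top (by
      rw [Ideal.eq_top_iff_one] at h ⊢
      simpa using h)
  haveI := hQ
  haveI : Algebra.IsIntegral (invR k H n) (locS (k := k) n) := Algebra.IsIntegral.of_finite _ _
  have hQm := Ideal.isMaximal_of_isIntegral_of_isMaximal_comap (R := invR k H n) Q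
    (by rw [hcomap]; exact maximalIdeal.isMaximal _)
  rw [IsLocalRing.eq_maximalIdeal hQm]

end

end Vale.Agent.P266
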