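import Mathlib
import Vale.Agent.P266.Invariants
import Vale.Agent.P266.CommAlg

/-! Coordinate derivations on the function field, adapted to a regular system of parameters of the
invariant ring. -/

open IsLocalRing

namespace Vale.Agent.P266

universe u v w

variable {k : Type u} [Field k] [CharZero k] [IsAlgClosed k] {A : Type v} [CommRing A] [IsDomain A]
  [Algebra k A] [Algebra.FiniteType k A]
  {H : Type w} [CommGroup H] [Fintype H] [MulSemiringAction H A] [SMulCommClass H k A]
  [MulSemiringAction H (FractionRing A)] [SMulCommClass H k (FractionRing A)]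
  {n : Ideal A} [n.IsMaximal]

omit [CharZero k] [IsAlgClosed k] [Algebra.FiniteType k A] in
/-- Two derivations of the fraction field agreeing on `A` are equal. -/
theorem derivation_ext_of_base (D D' : Derivation k (FractionRing A) (FractionRing A))
    (h : ∀ a, D (algebraMap A _ a) = D' (algebraMap A _ a)) : D = D' := by
  ext y
  obtain ⟨⟨a, b⟩, hy⟩ := IsLocalization.surj (nonZeroDivisors A) y
  have hb : algebraMap A (FractionRing A) b ≠ 0 :=
    (map_ne_zero_iff _ (IsFractionRing.injective A _)).2 (nonZeroDivisors.coe_ne_zero b)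
  have h1 := congrArg D hy
  have h2 := congrArg D' hy
  simp only [Derivation.leibniz, smul_eq_mul, h] at h1 h2
  apply mul_left_cancel₀ hb
  linear_combination h1 - h2

omit [CharZero k] [IsAlgClosed k] in
/-- A common denominator for a derivation on the local ring. -/
theorem exists_denom_derivation (D : Derivation k (FractionRing A) (FractionRing A)) :
    ∃ B : A, B ≠ 0 ∧ ∀ a, ∃ a', algebraMap A _ B * D (algebraMap A _ a)
      = algebraMap A (FractionRing A) a' := by
  classical
  obtain ⟨s, hs⟩ := Algebra.FiniteType.out (R := k) (A := A)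
  let T : Finset (FractionRing A) := s.image (fun a => D (algebraMap A _ a))
  obtain ⟨⟨B, hB⟩, hBT⟩ := IsLocalization.exist_integer_multiples_of_finset (nonZeroDivisors A) T
  refine ⟨B, nonZeroDivisors.ne_zero hB, fun a => ?_⟩
  have ha : a ∈ Algebra.adjoin k (↑s : Set A) := hs ▸ Algebra.mem_top
  induction ha using Algebra.adjoin_induction with
  | mem a ha =>
    obtain ⟨a', ha'⟩ := hBT (D (algebraMap A _ a)) (Finset.mem_image.2 ⟨a, ha, rfl⟩)
    exact ⟨a', by rw [ha', Algebra.smul_def]⟩
  | algebraMap c =>
    exact ⟨0, by rw [← IsScalarTower.algebraMap_apply, Derivation.map_algebraMap, mul_zero, map_zero]⟩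
  | add a b _ _ ha hb =>
    obtain ⟨a', ha'⟩ := ha
    obtain ⟨b', hb'⟩ := hb
    exact ⟨a' + b', by rw [map_add, map_add, map_add, mul_add, ha', hb']⟩
  | mul a b _ _ ha hb =>
    obtain ⟨a', ha'⟩ := ha
    obtain ⟨b', hb'⟩ := hb
    refine ⟨a * b' + b * a', ?_⟩
    rw [map_mul, Derivation.leibniz, map_add, map_mul, map_mul, ← ha', ← hb', smul_eq_mul,
      smul_eq_mul]
    ring

theorem exists_residueR (hF : Fixes H n) {d : ℕ} (x : Fin d → invR k H n)
    (hx : maximalIdeal (invR k H n) = Ideal.span (Set.range x)) (a : invR k H n) :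
    ∃ (c : k) (q : Fin d → invR k H n),
      a = algebraMap k (invR k H n) c + ∑ l, q l * x l := by
  obtain ⟨c, hc⟩ := locS_residue (k := k) n (inclR a)
  have h : a - algebraMap k (invR k H n) c ∈ maximalIdeal (invR k H n) := by
    rw [← inclR_mem_max, map_sub]
    exact hc
  rw [hx, Ideal.mem_span_range_iff_exists_fun] at h
  obtain ⟨q, hq⟩ := h
  exact ⟨c, q, by rw [hq]; ring⟩

/-- Krull intersection for a recursively defined family. -/
theorem eq_zero_of_recursion {S : Type*} [CommRing S] [IsLocalRing S] [IsNoetherianRing S]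
    {V : Type*} [AddCommGroup V] [Module S V] (M : Submodule S V) (hM : M.FG) {ι : Type*}
    (f : ι → V) (hf : ∀ a, f a ∈ M)
    (hrec : ∀ a, ∃ (m : ℕ) (c : Fin m → S) (q : Fin m → ι),
      (∀ l, c l ∈ maximalIdeal S) ∧ f a = ∑ l, c l • f (q l)) (a : ι) : f a = 0 := by
  haveI : Module.Finite S M := Module.Finite.iff_fg.2 hM
  have key : ∀ i : ℕ, ∀ a, (⟨f a, hf a⟩ : M) ∈
      (maximalIdeal S ^ i • ⊤ : Submodule S M) := by
    intro i
    induction i with
    | zero => intro a; simp
    | succ i ih =>
      intro a
      obtain ⟨m, c, q, hc, hsum⟩ := hrec a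
      have h1 : (⟨f a, hf a⟩ : M) = ∑ l, c l • (⟨f (q l), hf (q l)⟩ : M) :=
        Subtype.ext (by simp [hsum])
      rw [h1, pow_succ', mul_smul]
      exact Submodule.sum_mem _ (fun l _ => Submodule.smul_mem_smul (hc l) (ih (q l)))
  have hmem : (⟨f a, hf a⟩ : M) ∈ (⨅ i : ℕ, maximalIdeal S ^ i • ⊤ : Submodule S M) :=
    (Submodule.mem_iInf _).2 (fun i => key i a)
  rw [Ideal.iInf_pow_smul_eq_bot_of_isLocalRing _ (maximalIdeal.isMaximal S).ne_top,
    Submodule.mem_bot] at hmem
  exact congrArg Subtype.val hmem

/-- Krull intersection modulo a cyclic submodule. -/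
theorem exists_smul_of_recursion {R : Type*} [CommRing R] [IsLocalRing R] [IsNoetherianRing R]
    {V : Type*} [AddCommGroup V] [Module R V] [Module.Finite R V] (b : V) {ι : Type*} (f : ι → V)
    (hrec : ∀ a, ∃ (m : ℕ) (c : Fin m → R) (q : Fin m → ι) (r : R),
      (∀ l, c l ∈ maximalIdeal R) ∧ f a = ∑ l, c l • f (q l) + r • b) (a : ι) :
    ∃ r : R, f a = r • b := by
  let P : Submodule R V := Submodule.span R {b}
  have h0 : P.mkQ (f a) = 0 := by
    refine eq_zero_of_recursion (⊤ : Submodule R (V ⧸ P)) (Module.Finite.fg_top)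
      (fun a => P.mkQ (f a)) (fun _ => Submodule.mem_top) (fun a => ?_) a
    obtain ⟨m, c, q, r, hc, hsum⟩ := hrec a
    refine ⟨m, c, q, hc, ?_⟩
    have hb : P.mkQ (r • b) = 0 :=
      (Submodule.Quotient.mk_eq_zero P).2 (P.smul_mem r (Submodule.mem_span_singleton_self b))
    change P.mkQ (f a) = _
    simp [hsum, map_add, map_sum, hb]
  obtain ⟨r, hr⟩ := Submodule.mem_span_singleton.1 ((Submodule.Quotient.mk_eq_zero P).1 h0)
  exact ⟨r, hr.symm⟩

theorem span_kaehler (hF : Fixes H n) {d : ℕ} (x : Fin d → invR k H n)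
    (hx : maximalIdeal (invR k H n) = Ideal.span (Set.range x)) :
    ⊤ ≤ Submodule.span (FractionRing A)
      (Set.range (fun l => KaehlerDifferential.D k (FractionRing A) (x l : FractionRing A))) := by
  classical
  let K := FractionRing A
  let U : Submodule K (Ω[K⁄k]) := Submodule.span K
    (Set.range (fun l => KaehlerDifferential.D k K (x l : K)))
  let δ : Derivation k K (Ω[K⁄k] ⧸ U) := U.mkQ.compDer (KaehlerDifferential.D k K)
  have hδx : ∀ l, δ (x l : K) = 0 := fun l =>
    (Submodule.Quotient.mk_eq_zero U).2 (Submodule.subset_span ⟨l, rfl⟩)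
  let S := locS (k := k) n
  obtain ⟨s, hs⟩ := Algebra.FiniteType.out (R := k) (A := A)
  let M : Submodule S (Ω[K⁄k] ⧸ U) :=
    Submodule.span S (↑(s.image (fun a => δ (algebraMap A K a))) : Set (Ω[K⁄k] ⧸ U))
  have hMA : ∀ a : A, δ (algebraMap A K a) ∈ M := by
    intro a
    have ha : a ∈ Algebra.adjoin k (↑s : Set A) := hs ▸ Algebra.mem_top
    induction ha using Algebra.adjoin_induction with
    | mem a ha => exact Submodule.subset_span (Finset.mem_image.2 ⟨a, ha, rfl⟩)
    | algebraMap c =>
      rw [← IsScalarTower.algebraMap_apply, Derivation.map_algebraMap]; exact M.zero_mem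
    | add a b _ _ ha hb => rw [map_add, map_add]; exact M.add_mem ha hb
    | mul a b _ _ ha hb =>
      rw [map_mul, Derivation.leibniz]
      exact M.add_mem (M.smul_mem (⟨_, algebraMap_mem_locS a⟩ : S) hb)
        (M.smul_mem (⟨_, algebraMap_mem_locS b⟩ : S) ha)
  have hMS : ∀ y ∈ S, δ y ∈ M := by
    rintro y ⟨a, b, hb, hy⟩
    have hb0 := algebraMap_ne_zero_of_notMem (A := A) hb
    have h1 : δ y = (algebraMap A K b)⁻¹ • (δ (algebraMap A K a) - y • δ (algebraMap A K b)) := by
      rw [← hy, Derivation.leibniz, add_sub_cancel_left, smul_smul, inv_mul_cancel₀ hb0, one_smul]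
    rw [h1]
    exact M.smul_mem (⟨_, inv_mem_locS hb⟩ : S)
      (M.sub_mem (hMA a) (M.smul_mem (⟨y, a, b, hb, hy⟩ : S) (hMA b)))
  have hR : ∀ a : invR k H n, δ (a : K) = 0 := by
    refine fun a => eq_zero_of_recursion M ⟨_, rfl⟩ (fun a : invR k H n => δ (a : K))
      (fun a => hMS _ a.2.1) (fun a => ?_) a
    obtain ⟨c, q, hq⟩ := exists_residueR hF x hx a
    refine ⟨d, fun l => inclR (x l), q, fun l => ?_, ?_⟩
    · rw [inclR_mem_max, hx]
      exact Ideal.subset_span (Set.mem_range_self l)
    · change δ (a : K) = _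
      rw [hq]
      push_cast
      rw [map_add, map_sum]
      erw [Derivation.map_algebraMap]
      rw [zero_add]
      refine Finset.sum_congr rfl (fun l _ => ?_)
      rw [Derivation.leibniz, hδx, smul_zero, zero_add]
      rfl
  obtain ⟨N, gen, hg, heig, hspan⟩ := exists_gens (k := k) hF
  have hgen : ∀ j, δ (gen j) = 0 := by
    intro j
    obtain ⟨χ, hχ⟩ := heig j
    by_cases h0 : gen j = 0
    · rw [h0, map_zero]
    have hpow : gen j ^ Fintype.card H ∈ invR k H n :=
      ⟨(locS (k := k) n).pow_mem (hg j) _, fun h => Cover.eig_pow_card hχ h⟩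
    have h := hR ⟨_, hpow⟩
    simp only [Derivation.leibniz_pow] at h
    rw [← Nat.cast_smul_eq_nsmul K, smul_smul] at h
    haveI : CharZero K := charZero_of_injective_algebraMap (algebraMap k K).injective
    exact (smul_eq_zero.1 h).resolve_left
      (mul_ne_zero (Nat.cast_ne_zero.2 Fintype.card_ne_zero) (pow_ne_zero _ h0))
  have hS : ∀ y ∈ S, δ y = 0 := by
    intro y hy
    obtain ⟨r, rfl⟩ := hspan y hy
    simp [Derivation.leibniz, hR, hgen]
  rw [← KaehlerDifferential.span_range_derivation k K, Submodule.span_le]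
  rintro _ ⟨y, rfl⟩
  rw [SetLike.mem_coe, ← Submodule.Quotient.mk_eq_zero U]
  change δ y = 0
  obtain ⟨a, ha, b, hb, hb0, hab⟩ := locS_frac (k := k) (n := n) y
  have := congrArg δ hab
  rw [Derivation.leibniz, hS a ha, hS b hb, smul_zero, zero_add] at this
  exact (smul_eq_zero.1 this).resolve_left hb0

/-- A `ℤ`-derivation from an additive map satisfying the Leibniz rule. -/
def toIntDerivation {R : Type*} [CommRing R] (f : R → R) (hadd : ∀ a b, f (a + b) = f a + f b)
    (hmul : ∀ a b, f (a * b) = a * f b + b * f a) : Derivation ℤ R R :=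
  Derivation.mk' (AddMonoidHom.toIntLinearMap (AddMonoidHom.mk' f hadd)) hmul

theorem exists_coords (hF : Fixes H n) {d : ℕ} (x : Fin d → invR k H n)
    (hx : maximalIdeal (invR k H n) = Ideal.span (Set.range x))
    (hdim : (d : WithBot ℕ∞) ≤ ringKrullDim A) :
    ∃ der : Fin d → Derivation k (FractionRing A) (FractionRing A),
      (∀ l, ∀ y ∈ invR k H n, der l y ∈ invR k H n) ∧
      (∀ l m, der l (x m : FractionRing A) = if l = m then 1 else 0) ∧
      ringKrullDim (invR k H n) = d := by
  classical
  let K := FractionRing A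
  obtain ⟨s, hs, hrank⟩ := exists_finrank_kaehler k A
  have hds : d ≤ s := by exact_mod_cast hdim.trans hs
  have hsp := span_kaehler hF x hx
  have hle : s ≤ d := by
    have h := finrank_range_le_card (R := K)
      (fun l => KaehlerDifferential.D k K (x l : K))
    rw [Set.finrank, top_le_iff.1 hsp, finrank_top, hrank, Fintype.card_fin] at h
    exact h
  have hli := linearIndependent_of_top_le_span_of_card_eq_finrank hsp
    (by rw [hrank, Fintype.card_fin]; omega)
  let bb := Module.Basis.mk hli hsp
  let der : Fin d → Derivation k K K := fun l => (bb.coord l).compDer (KaehlerDifferential.D k K)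
  have hderx : ∀ l m, der l (x m : K) = if l = m then 1 else 0 := by
    intro l m
    change bb.coord l (KaehlerDifferential.D k K (x m : K)) = _
    rw [show KaehlerDifferential.D k K (x m : K) = bb m from
      (Module.Basis.mk_apply hli hsp m).symm, Module.Basis.coord_apply, Module.Basis.repr_self,
      Finsupp.single_apply]
    simp [eq_comm]
  have hmem : ∀ l, ∀ y ∈ invR k H n, der l y ∈ invR k H n := by
    intro l
    obtain ⟨B₀, hB₀, hB⟩ := exists_denom_derivation (der l)
    -- a fixed denominator
    let B : A := ∏ h : H, h • B₀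
    have hBfix : ∀ h : H, h • algebraMap A K B = algebraMap A K B := by
      intro g
      rw [hF.compat]
      congr 1
      simp only [B, Finset.smul_prod', smul_smul]
      exact Fintype.prod_equiv (Equiv.mulLeft g) _ _ (fun _ => rfl)
    have hBeq : B = B₀ * ∏ h ∈ Finset.univ.erase (1 : H), h • B₀ := by
      simp only [B]
      rw [← Finset.mul_prod_erase Finset.univ _ (Finset.mem_univ (1 : H)), one_smul]
    have hB0 : algebraMap A K B ≠ 0 := by
      rw [map_ne_zero_iff _ (IsFractionRing.injective A K)]
      exact Finset.prod_ne_zero_iff.2 (fun h _ => fun h0 => hB₀ ((smul_eq_zero_iff_eq h).1 h0))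
    have hBS : ∀ y ∈ locS (k := k) n, algebraMap A K B * der l y ∈ locS (k := k) n := by
      rintro y ⟨a, b, hb, hy⟩
      obtain ⟨a', ha'⟩ := hB a
      obtain ⟨b', hb'⟩ := hB b
      have hb0 := algebraMap_ne_zero_of_notMem (A := A) hb
      have h1 := congrArg (der l) hy
      simp only [Derivation.leibniz, smul_eq_mul] at h1
      have h2 : algebraMap A K B * der l y = algebraMap A K (∏ h ∈ Finset.univ.erase (1 : H), h • B₀)
          * ((algebraMap A K b)⁻¹ * (algebraMap A K a' - y * algebraMap A K b')) := by
        have h3 : der l y = (algebraMap A K b)⁻¹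
            * (der l (algebraMap A K a) - y * der l (algebraMap A K b)) := by
          rw [← h1, add_sub_cancel_left, inv_mul_cancel_left₀ hb0]
        rw [← ha', ← hb', h3, hBeq, map_mul]
        ring
      rw [h2]
      exact mul_mem (algebraMap_mem_locS _) (mul_mem (inv_mem_locS hb)
        (sub_mem (algebraMap_mem_locS _) (mul_mem ⟨a, b, hb, hy⟩ (algebraMap_mem_locS _))))
    let Bs : locS (k := k) n := ⟨algebraMap A K B, algebraMap_mem_locS B⟩
    letI : Algebra (invR k H n) (locS (k := k) n) := inclR.toAlgebra
    obtain ⟨N, gen, hg, -, hspan⟩ := exists_gens (k := k) hF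
    haveI : Module.Finite (invR k H n) (locS (k := k) n) := by
      refine Module.Finite.of_surjective
        (Fintype.linearCombination (invR k H n)
          (fun j => (⟨gen j, hg j⟩ : locS (k := k) n))) ?_
      intro y
      obtain ⟨r, hr⟩ := hspan (y : K) y.2
      refine ⟨r, Subtype.ext ?_⟩
      rw [Fintype.linearCombination_apply, AddSubmonoidClass.coe_finsetSum, hr]
      rfl
    haveI : IsNoetherianRing (invR k H n) := noetherian_invR hF
    let z : invR k H n → locS (k := k) n := fun a => ⟨_, hBS _ a.2.1⟩
    intro y hy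
    obtain ⟨r, hr⟩ := exists_smul_of_recursion (R := invR k H n) Bs z (fun a => by
      obtain ⟨c, q, hq⟩ := exists_residueR hF x hx a
      refine ⟨d, x, q, q l, fun m => by rw [hx]; exact Ideal.subset_span (Set.mem_range_self m), ?_⟩
      apply Subtype.ext
      rw [AddMemClass.coe_add, AddSubmonoidClass.coe_finsetSum]
      change algebraMap A K B * der l (a : K)
        = ∑ m, (x m : K) * (algebraMap A K B * der l (q m : K)) + (q l : K) * algebraMap A K B
      rw [hq]
      push_cast
      rw [map_add, map_sum]
      erw [Derivation.map_algebraMap]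
      simp only [zero_add, Derivation.leibniz, smul_eq_mul, hderx, mul_ite, mul_one, mul_zero,
        Finset.sum_add_distrib, Finset.sum_ite_eq, Finset.mem_univ, if_true, mul_add,
        Finset.mul_sum]
      rw [add_comm, Finset.mul_sum]
      congr 1
      · exact Finset.sum_congr rfl (fun m _ => by ring)
      · ring) ⟨y, hy⟩
    have h1 : algebraMap A K B * der l y = (r : K) * algebraMap A K B := congrArg Subtype.val hr
    have : der l y = (r : K) := mul_left_cancel₀ hB0 (h1.trans (mul_comm _ _))
    rw [this]
    exact r.2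
  refine ⟨der, hmem, hderx, le_antisymm ?_ ?_⟩
  · haveI : IsNoetherianRing (invR k H n) := noetherian_invR hF
    refine (ringKrullDim_le_spanFinrank_maximalIdeal _).trans ?_
    rw [hx]
    have h2 : (Set.range x).ncard ≤ d := by
      rw [← Set.image_univ]
      refine (Set.ncard_image_le Set.finite_univ).trans ?_
      simp [Set.ncard_univ]
    have h1 := (Submodule.spanFinrank_span_le_ncard_of_finite (R := invR k H n)
      (Set.finite_range x)).trans h2
    exact_mod_cast h1
  · haveI : IsNoetherianRing (invR k H n) := noetherian_invR hF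
    let D := fun l : Fin d => toIntDerivation
      (fun a : invR k H n => (⟨der l (a : K), hmem l _ a.2⟩ : invR k H n))
      (fun a b => Subtype.ext (by simp))
      (fun a b => Subtype.ext (by simp [Derivation.leibniz]))
    refine natCast_le_ringKrullDim_of_derivations d (invR k H n) (fun m hm => ?_) D x
      (fun i => by rw [hx]; exact Ideal.subset_span (Set.mem_range_self i)) (fun i j => ?_)
    · simpa using (IsUnit.mk0 (m : k) (Nat.cast_ne_zero.2 hm)).map (algebraMap k (invR k H n))
    · have : D i (x j) = if i = j then 1 else 0 := by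
        apply Subtype.ext
        change der i (x j : K) = _
        rw [hderx]
        split_ifs <;> simp
      rw [this, sub_self]
      exact Ideal.zero_mem _

end Vale.Agent.P266
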