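import Mathlib
import Vale.Agent.P266.Core1

/-! Abelian covers of a regular base with free derivation module, part 2: regularity. -/

open IsLocalRing

namespace Vale.Agent.P266

universe u v w

namespace Cover

variable {k : Type u} [Field k] [CharZero k] {K : Type v} [Field K] [Algebra k K]
  {H : Type w} [CommGroup H] [Fintype H] [MulSemiringAction H K] [SMulCommClass H k K]
  {d N : ℕ} (C : Cover k K H d d N)

theorem FFinv (i j : Fin d) : ∑ l, C.F i l * C.Finv l j = if i = j then 1 else 0 := by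
  apply Subtype.ext
  push_cast
  simp only [F, Finv]
  have h : ∀ l, C.M i l / C.e i * (C.Ninv l j * C.e j) =
      C.e j / C.e i * (C.M i l * C.Ninv l j) := fun l => by ring
  simp only [h, ← Finset.mul_sum, C.MN]
  split_ifs with hij
  · subst hij; simp [C.e_ne i]
  · simp

theorem FinvF (l m : Fin d) : ∑ i, C.Finv l i * C.F i m = if l = m then 1 else 0 := by
  apply Subtype.ext
  push_cast
  simp only [F, Finv]
  have h : ∀ i, C.Ninv l i * C.e i * (C.M i m / C.e i) = C.Ninv l i * C.M i m := fun i => by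
    have := C.e_ne i
    field_simp
  simp only [h, C.NM]
  split_ifs <;> simp

/-- `f i = e i ^ n`, an element of `R`. -/
noncomputable def f (i : Fin d) : C.R :=
  ⟨C.e i ^ Fintype.card H, C.eig_pow_mem (C.e_mem i) (C.e_eig i)⟩

theorem f_coe (i : Fin d) : (C.f i : K) = C.e i ^ Fintype.card H := rfl

theorem f_ne (i : Fin d) : C.f i ≠ 0 := fun h =>
  pow_ne_zero _ (C.e_ne i) (congrArg Subtype.val h)

theorem exists_pred : ∃ m, Fintype.card H = m + 1 :=
  ⟨_, (Nat.succ_pred_eq_of_pos Fintype.card_pos).symm⟩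

/-- The derivation of `R` induced by a derivation of `K` preserving `R`. -/
noncomputable def resR (θ : Derivation k K K) (hθ : ∀ y ∈ C.R, θ y ∈ C.R) :
    Derivation ℤ C.R C.R :=
  Derivation.mk'
    (AddMonoidHom.toIntLinearMap
      { toFun := fun a => (⟨θ (a : K), hθ _ a.2⟩ : C.R)
        map_zero' := Subtype.ext (by simp)
        map_add' := fun a b => Subtype.ext (by simp) })
    (fun a b => Subtype.ext (by simp [Derivation.leibniz]))

theorem resR_coe (θ : Derivation k K K) (hθ : ∀ y ∈ C.R, θ y ∈ C.R) (a : C.R) :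
    ((C.resR θ hθ a : C.R) : K) = θ (a : K) := rfl

/-- The frame on `R`. -/
noncomputable def T (i : Fin d) : Derivation ℤ C.R C.R := C.resR (C.θ i) (C.θ_mem i)

/-- The coordinate derivations on `R`. -/
noncomputable def P (l : Fin d) : Derivation ℤ C.R C.R := C.resR (C.der l) (C.der_mem l)

theorem T_coe (i : Fin d) (a : C.R) : ((C.T i a : C.R) : K) = C.θ i (a : K) := rfl

theorem P_x (l m : Fin d) : C.P l (C.x m) = if l = m then 1 else 0 := by
  apply Subtype.ext
  rw [P, resR_coe, C.der_x]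
  split_ifs <;> simp

theorem T_apply (i : Fin d) (a : C.R) : C.T i a = ∑ l, C.F i l * C.P l a := by
  apply Subtype.ext
  rw [T_coe, C.θ_apply]
  push_cast
  rfl

theorem P_apply (l : Fin d) (a : C.R) : C.P l a = ∑ i, C.Finv l i * C.T i a := by
  apply Subtype.ext
  rw [P, resR_coe, C.der_eq_sum_θ]
  push_cast
  rfl

theorem x_mem (l : Fin d) : C.x l ∈ maximalIdeal C.R := by
  rw [C.x_span]; exact Ideal.subset_span (Set.mem_range_self l)

/-- Elements dual to the frame modulo the maximal ideal. -/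
noncomputable def g0 (j : Fin d) : C.R := ∑ l, C.Finv l j * C.x l

theorem g0_mem (j : Fin d) : C.g0 j ∈ maximalIdeal C.R :=
  Ideal.sum_mem _ (fun l _ => Ideal.mul_mem_left _ _ (C.x_mem l))

theorem T_g0 (i j : Fin d) :
    C.T i (C.g0 j) - (if i = j then 1 else 0) ∈ maximalIdeal C.R := by
  have h : C.T i (C.g0 j) - (if i = j then 1 else 0) = ∑ l, C.x l * C.T i (C.Finv l j) := by
    have hx : ∀ l, C.T i (C.x l) = C.F i l := fun l => by simp [C.T_apply, C.P_x]
    simp only [g0, map_sum, Derivation.leibniz, smul_eq_mul, hx, Finset.sum_add_distrib]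
    rw [← C.FFinv i j]
    simp only [mul_comm (C.Finv _ j)]
    ring
  rw [h]
  exact Ideal.sum_mem _ (fun l _ => Ideal.mul_mem_right _ _ (C.x_mem l))

theorem bracket_T (l i : Fin d) (a : C.R) : ∃ c : Fin d → C.R,
    ∀ a : C.R, C.T l (C.T i a) - C.T i (C.T l a) = ∑ j, c j * C.T j a := by
  let D : Derivation k K K := ⁅C.θ l, C.θ i⁆
  have hD : ∀ y ∈ C.R, D y ∈ C.R := fun y hy => by
    simp only [D, Derivation.commutator_apply]
    exact C.R.sub_mem (C.θ_mem l _ (C.θ_mem i y hy)) (C.θ_mem i _ (C.θ_mem l y hy))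
  refine ⟨fun j => ∑ m, (⟨D (C.x m : K), hD _ (C.x m).2⟩ : C.R) * C.Finv m j, fun a => ?_⟩
  apply Subtype.ext
  have hsum : ∀ z, (∑ m, D (C.x m : K) • C.der m : Derivation k K K) z
      = ∑ m, D (C.x m : K) * C.der m z := by
    intro z
    rw [← Derivation.coeFnAddMonoidHom_apply, map_sum, Finset.sum_apply]
    simp [Derivation.coeFnAddMonoidHom]
  have h1 := C.derivation_ext D (∑ m, D (C.x m : K) • C.der m)
    (fun y hy => C.R_le (hD y hy))
    (fun y hy => by
      rw [hsum]
      exact C.R_le (C.R.sum_mem (fun m _ => C.R.mul_mem (hD _ (C.x m).2) (C.der_mem m y hy))))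
    (fun m => by rw [hsum, C.sum_der_apply (fun m => D (C.x m : K))]) (a : K)
  rw [hsum] at h1
  push_cast
  simp only [T_coe]
  rw [← Derivation.commutator_apply, h1, Finset.sum_congr rfl (fun m _ => by rw [C.der_eq_sum_θ m])]
  simp only [Finset.mul_sum, Finset.sum_mul]
  rw [Finset.sum_comm]
  exact Finset.sum_congr rfl (fun m _ => Finset.sum_congr rfl (fun j _ => by ring))

theorem eq_of_invariant {m : ℕ} (hm : d = m + 1) (D : Fin m → Derivation ℤ C.R C.R)
    (g : Fin m → C.R) (hg : ∀ i, g i ∈ maximalIdeal C.R)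
    (hD : ∀ i j, D i (g j) - (if i = j then 1 else 0) ∈ maximalIdeal C.R)
    (J : Ideal C.R) (hJ0 : J ≠ ⊥) (hJ : J ≠ ⊤) (hJD : ∀ i, ∀ y ∈ J, D i y ∈ J) :
    ∃ Q : Ideal C.R, Q.IsPrime ∧ Q.height = 1 ∧ J ≤ Q := by
  by_contra! h
  have h1 := natCast_le_ringKrullDim_quotient C.nat_isUnit D g hg hD J hJ hJD
  have h2 := ringKrullDim_quotient_add_two_le hJ0 hJ (fun Q hQ hQ1 => h Q hQ hQ1)
  rw [C.dimR] at h2
  subst hm
  have h3 : ((m + 2 : ℕ) : WithBot ℕ∞) ≤ ((m + 1 : ℕ) : WithBot ℕ∞) := by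
    calc ((m + 2 : ℕ) : WithBot ℕ∞) = (m : WithBot ℕ∞) + 2 := by push_cast; rfl
      _ ≤ ringKrullDim (C.R ⧸ J) + 2 := by gcongr
      _ ≤ _ := h2
  have : m + 2 ≤ m + 1 := by exact_mod_cast h3
  omega

theorem height_one_eq {p q : Ideal C.R} [p.IsPrime] [q.IsPrime] (hp : p.height = 1)
    (hq : q.height = 1) (h : p ≤ q) : p = q := by
  by_contra hne
  have : p.FiniteHeight := ⟨Or.inr (by rw [hp]; exact ENat.one_ne_top)⟩
  have := Ideal.height_strict_mono_of_isPrime (lt_of_le_of_ne h hne)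
  rw [hp, hq] at this
  exact lt_irrefl _ this

theorem prime_unique {m : ℕ} (hm : d = m + 1) (D : Fin m → Derivation ℤ C.R C.R)
    (g : Fin m → C.R) (hg : ∀ i, g i ∈ maximalIdeal C.R)
    (hD : ∀ i j, D i (g j) - (if i = j then 1 else 0) ∈ maximalIdeal C.R)
    {p q : Ideal C.R} [hp : p.IsPrime] [hq : q.IsPrime] (hp1 : p.height = 1) (hq1 : q.height = 1)
    (hpD : ∀ i, ∀ y ∈ p, D i y ∈ p) (hqD : ∀ i, ∀ y ∈ q, D i y ∈ q) : p = q := by
  have hlt : p ⊔ q ≤ maximalIdeal C.R :=
    sup_le (le_maximalIdeal hp.ne_top) (le_maximalIdeal hq.ne_top)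
  obtain ⟨Q, hQ, hQ1, hle⟩ := C.eq_of_invariant hm D g hg hD (p ⊔ q)
    (fun h => Ideal.ne_bot_of_height_eq_one hp1 (le_bot_iff.1 (h ▸ le_sup_left)))
    (fun h => (maximalIdeal.isMaximal C.R).ne_top (top_le_iff.1 (h ▸ hlt)))
    (fun i y hy => by
      obtain ⟨a, ha, b, hb, rfl⟩ := Submodule.mem_sup.1 hy
      rw [map_add]
      exact Submodule.add_mem_sup (hpD i a ha) (hqD i b hb))
  exact (C.height_one_eq hp1 hQ1 (le_sup_left.trans hle)).trans
    (C.height_one_eq hq1 hQ1 (le_sup_right.trans hle)).symm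

section
variable {C} {p : Ideal C.R} [p.IsPrime] {π : C.R}

theorem Sp.pow {y : K} (hy : C.Sp p y) : ∀ m : ℕ, C.Sp p (y ^ m)
  | 0 => by simpa using Sp.of_mem C.S.one_mem
  | m + 1 => by rw [pow_succ]; exact (Sp.pow hy m).mul hy

theorem mem_of_derivation_uniformizer (hπ : C.Unif p π) (D : Derivation ℤ C.R C.R)
    (hD : D π ∈ p) : ∀ y ∈ p, D y ∈ p := by
  intro y hy
  obtain ⟨s, hs, z, hz⟩ := hπ.2.2.1 y hy
  have h := congrArg D hz
  simp only [Derivation.leibniz, smul_eq_mul] at h
  have : s * D y ∈ p := by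
    have h1 : s * D y = π * D z + z * D π - y * D s := by rw [← h]; ring
    rw [h1]
    exact p.sub_mem (p.add_mem (p.mul_mem_right _ hπ.1) (p.mul_mem_left _ hD))
      (p.mul_mem_right _ hy)
  exact (‹p.IsPrime›.mem_or_mem this).resolve_left hs

theorem exists_T_not_mem (hπ : C.Unif p π) : ∃ j, C.T j π ∉ p := by
  by_contra! h
  have h1 := natCast_le_ringKrullDim_quotient C.nat_isUnit C.T C.g0 C.g0_mem C.T_g0 p
    Ideal.IsPrime.ne_top' (fun j => mem_of_derivation_uniformizer hπ _ (h j))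
  have h2 := ringKrullDim_succ_le_of_surjective (Ideal.Quotient.mk p)
    Ideal.Quotient.mk_surjective (mem_nonZeroDivisors_of_ne_zero hπ.2.1)
    (Ideal.Quotient.eq_zero_iff_mem.2 hπ.1)
  rw [C.dimR] at h2
  have h3 : ((d + 1 : ℕ) : WithBot ℕ∞) ≤ (d : WithBot ℕ∞) := by
    calc ((d + 1 : ℕ) : WithBot ℕ∞) = (d : WithBot ℕ∞) + 1 := by push_cast; rfl
      _ ≤ ringKrullDim (C.R ⧸ p) + 1 := by gcongr
      _ ≤ _ := h2
  have : d + 1 ≤ d := by exact_mod_cast h3
  omega

/-- Coefficients of derivations preserving the localisation are divisible by the `e`'s. -/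
theorem coef_Sp (a : Fin d → K) (D : Derivation k K K)
    (hDa : ∀ y, D y = ∑ j, a j * C.θ j y) (hR : ∀ y ∈ C.R, D y ∈ C.S)
    (hg : ∀ j, C.Sp p (D (C.gen j))) (i : Fin d) : C.Sp p (a i / C.e i) := by
  obtain ⟨t, ht, htS⟩ := exists_preserving D hR hg
  obtain ⟨c, hc, hDc⟩ := C.v_span ((t : K) • D) (fun y hy => by simpa using htS y hy)
  have h := C.v_indep' (fun j => c j - (t : K) * (a j / C.e j)) (fun y => by
    simp only [sub_mul, Finset.sum_sub_distrib, ← hDc y, Derivation.smul_apply, smul_eq_mul, hDa y,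
      Finset.mul_sum, sub_eq_zero]
    refine Finset.sum_congr rfl (fun j _ => ?_)
    rw [C.v_eq_e_mul]
    have := C.e_ne j
    field_simp) i
  exact ⟨t, ht, by rw [← sub_eq_zero.1 h]; exact hc i⟩

theorem gen_Sp_of_tangent (hπ : C.Unif p π) (D : Derivation k K K)
    (hD : ∀ y ∈ C.R, D y ∈ C.R) (hDπ : C.resR D hD π ∈ p) (j : Fin N) :
    C.Sp p (D (C.gen j)) := by
  by_cases h0 : C.gen j = 0
  · simpa [h0] using Sp.of_mem C.S.zero_mem
  obtain ⟨χ, hχ⟩ := C.gen_eig j
  let F' : C.R := ⟨_, C.eig_pow_mem (C.gen_mem j) hχ⟩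
  have hF : F' ≠ 0 := fun h => pow_ne_zero _ h0 (congrArg Subtype.val h)
  have h1 := (logder hπ D hD hF).2 (Or.inr (by
    have := Sp_div_of_mem hπ hDπ; rwa [resR_coe] at this))
  have := ((Sp.of_mem (C.gen_mem j) (p := p)).mul (Sp.of_R ⟨_, C.inv_card_mem⟩)).mul h1
  rw [C.derivation_eig D h0]
  convert this using 1
  simp only [F']
  field_simp

theorem branched (hπ : C.Unif p π) {i : Fin d} (hi : C.f i ∈ p) :
    C.T i π ∉ p ∧ ∀ l, l ≠ i → C.T l π ∈ p ∧ C.f l ∉ p := by
  classical
  have key : ∀ i l, l ≠ i → C.f i ∈ p → C.T l π ∈ p := by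
    intro i l hli hi
    let a : Fin d → K := fun j => (if j = i then (C.T l π : K) else 0)
      - (if j = l then (C.T i π : K) else 0)
    let D : Derivation k K K := (C.T l π : K) • C.θ i - (C.T i π : K) • C.θ l
    have hDa : ∀ y, D y = ∑ j, a j * C.θ j y := fun y => by
      simp [D, a, sub_mul, Finset.sum_sub_distrib, ite_mul]
    have hD : ∀ y ∈ C.R, D y ∈ C.R := fun y hy => by
      simp only [D, Derivation.sub_apply, Derivation.smul_apply, smul_eq_mul]
      exact C.R.sub_mem (C.R.mul_mem (C.T l π).2 (C.θ_mem i y hy))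
        (C.R.mul_mem (C.T i π).2 (C.θ_mem l y hy))
    have hDπ : C.resR D hD π ∈ p := by
      have : C.resR D hD π = 0 := by
        apply Subtype.ext
        simp only [resR_coe, D, Derivation.sub_apply, Derivation.smul_apply, smul_eq_mul, T_coe]
        push_cast; ring
      rw [this]; exact p.zero_mem
    have h := coef_Sp a D hDa (fun y hy => C.R_le (hD y hy)) (gen_Sp_of_tangent hπ D hD hDπ) i
    have ha : a i = (C.T l π : K) := by simp [a, hli.symm]
    rw [ha] at h
    have h2 := (h.pow (Fintype.card H)).mul (Sp_div_of_mem hπ hi)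
    have h3 : C.Sp p (((C.T l π ^ Fintype.card H : C.R) : K) / (π : K)) := by
      convert h2 using 1
      have := C.e_ne i
      push_cast
      rw [f_coe, div_pow]
      field_simp
    exact ‹p.IsPrime›.mem_of_pow_mem _ (mem_of_Sp_div hπ h3)
  obtain ⟨j, hj⟩ := exists_T_not_mem hπ
  have hji : j = i := by
    by_contra h; exact hj (key i j h hi)
  subst hji
  exact ⟨hj, fun l hl => ⟨key j l hl hi, fun hfl => hj (key l j hl.symm hfl)⟩⟩

theorem pi_div_e (hπ : C.Unif p π) (i : Fin d) : C.Sp p ((π : K) / C.e i) := by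
  classical
  have h := coef_Sp (fun j => if j = i then (π : K) else 0) ((π : K) • C.θ i)
    (fun y => by simp [ite_mul]) (fun y hy => C.R_le (C.R.mul_mem π.2 (C.θ_mem i y hy)))
    (fun j => by
      refine gen_Sp_of_tangent hπ _ (fun y hy => C.R.mul_mem π.2 (C.θ_mem i y hy)) ?_ j
      have : C.resR ((π : K) • C.θ i) (fun y hy => C.R.mul_mem π.2 (C.θ_mem i y hy)) π
          = π * C.T i π := Subtype.ext rfl
      rw [this]; exact Ideal.mul_mem_right _ _ hπ.1) i
  simpa using h

theorem not_e_div_pi (hπ : C.Unif p π) (i : Fin d) : ¬ C.Sp p (C.e i / (π : K)) := by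
  classical
  intro he
  obtain ⟨z, ⟨t₀, ht₀, hz⟩, hz', hzg⟩ := exists_z hπ
  have hg : ∀ j, C.Sp p ((((t₀ : K) * z) • C.θ i) (C.gen j)) := fun j => by
    have := (Sp.of_R t₀ (p := p)).mul (Sp_z_der hπ ⟨t₀, ht₀, hz⟩ hzg (C.θ i) (C.θ_mem i) j)
    simpa [mul_assoc] using this
  have h := coef_Sp (fun j => if j = i then (t₀ : K) * z else 0) (((t₀ : K) * z) • C.θ i)
    (fun y => by simp [ite_mul]) (fun y hy => C.S.mul_mem hz (C.R_le (C.θ_mem i y hy))) hg i
  simp only [if_pos] at h
  apply hz'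
  have ht0 : (t₀ : K) ≠ 0 := fun h => ht₀ (by rw [show t₀ = 0 from Subtype.ext h]; exact p.zero_mem)
  have := (h.mul he).mul (Sp.div (1 : C.R) t₀ ht₀ (p := p))
  convert this using 1
  have := C.e_ne i
  push_cast
  field_simp

theorem e_mul_div_pi (hπ : C.Unif p π) {i : Fin d} (hi : C.f i ∈ p) {χ : H → k} {y : K}
    (hy : y ∈ C.S) (hye : Eig χ y) (hy0 : y ≠ 0) (Y : C.R) (hY : (Y : K) = y ^ Fintype.card H)
    (hYp : Y ∈ p) : C.Sp p (C.e i * y / (π : K)) := by
  have hY0 : Y ≠ 0 := fun h => pow_ne_zero (Fintype.card H) hy0 (by rw [← hY, h]; rfl)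
  obtain ⟨j, s, t, hs, ht, hj⟩ := hπ.2.2.2 Y hY0
  have hj0 : j ≠ 0 := by
    rintro rfl
    rw [pow_zero, one_mul] at hj
    exact ht (hj ▸ p.mul_mem_left s hYp)
  have hθπ := (branched hπ hi).1
  have hπ0 : (π : K) ≠ 0 := by simpa using hπ.2.1
  have hs0 : (s : K) ≠ 0 := fun h => hs (by rw [show s = 0 from Subtype.ext h]; exact p.zero_mem)
  have ht0 : (t : K) ≠ 0 := fun h => ht (by rw [show t = 0 from Subtype.ext h]; exact p.zero_mem)
  have heq : (s : K) * (Y : K) = (π : K) ^ j * (t : K) := by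
    simpa using congrArg Subtype.val hj
  obtain ⟨j, rfl⟩ := Nat.exists_eq_succ_of_ne_zero hj0
  have h := congrArg (C.θ i) heq
  simp only [Derivation.leibniz, Derivation.leibniz_pow, smul_eq_mul, nsmul_eq_mul,
    Nat.succ_eq_add_one, Nat.add_sub_cancel] at h heq
  simp only [pow_succ] at h heq
  push_cast at h
  have hv : C.Sp p (C.v i y) := Sp.of_mem (C.v_mem i y hy)
  have hA : C.Sp p (C.θ i (t : K) / (t : K) - C.θ i (s : K) / (s : K)) :=
    (Sp.div (C.T i t) t ht).sub (Sp.div (C.T i s) s hs)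
  have hne : ((j + 1 : ℕ) : C.R) * C.T i π ∉ p := by
    intro hm
    rcases ‹p.IsPrime›.mem_or_mem hm with hm | hm
    · exact Ideal.IsPrime.ne_top' (p.eq_top_of_isUnit_mem hm (C.nat_isUnit _ (Nat.succ_ne_zero j)))
    · exact hθπ hm
  have hn : C.Sp p (Fintype.card H : K) := Sp.of_mem (natCast_mem C.S _)
  have hey : C.Sp p (C.e i * y) := Sp.of_mem (C.S.mul_mem (C.e_mem i) hy)
  have := ((hn.mul hv).sub (hey.mul hA)).mul (Sp.div (1 : C.R) _ hne (p := p))
  convert this using 1
  rw [C.v_eq_e_mul, C.derivation_eig (C.θ i) hy0, ← hY]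
  have hY' : (Y : K) ≠ 0 := by simpa using hY0
  have hn0 : (Fintype.card H : K) ≠ 0 := C.cardH_ne
  have hne0 : ((j : K) + 1) * C.θ i (π : K) ≠ 0 := by
    intro h0
    apply hne
    have : ((j + 1 : ℕ) : C.R) * C.T i π = 0 := Subtype.ext (by push_cast; rw [T_coe]; exact h0)
    rw [this]; exact p.zero_mem
  have hθY : C.θ i (Y : K) / (Y : K) = ((j : K) + 1) * (C.θ i (π : K) / (π : K))
      + (C.θ i (t : K) / (t : K) - C.θ i (s : K) / (s : K)) := by
    rw [mul_div_assoc', div_sub_div _ _ ht0 hs0, div_add_div _ _ hπ0 (mul_ne_zero ht0 hs0),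
      div_eq_div_iff hY' (mul_ne_zero hπ0 (mul_ne_zero ht0 hs0))]
    linear_combination (π : K) * (t : K) * h
      - (((j : K) + 1) * C.θ i (π : K) * (t : K) + (π : K) * C.θ i (t : K)) * heq
  have h4 : (Fintype.card H : K) * (C.e i * (y * C.θ i (Y : K) / ((Fintype.card H : K) * Y)))
      = C.e i * y * (C.θ i (Y : K) / (Y : K)) := by field_simp
  push_cast
  rw [h4, hθY, T_coe]
  rw [mul_ne_zero_iff] at hne0
  have := hne0.1
  have := hne0.2
  field_simp
  ring

end

/-! ### The new coordinates -/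

theorem exists_g (i : Fin d) : ∃ g : C.R, g ∈ maximalIdeal C.R ∧ IsUnit (C.T i g) ∧
    (∀ l, l ≠ i → C.T l g ∈ maximalIdeal C.R) ∧ (g : K) / C.e i ∈ C.S ∧
    (∀ hm : (g : K) / C.e i ∈ C.S, (⟨_, hm⟩ : C.S) ∈ maximalIdeal C.S) ∧
    ∀ (χ : H → k) (y : K), y ∈ C.S → Eig χ y → y ≠ 0 →
      ∀ (q : Ideal C.R) (Y : C.R), q.IsPrime → q.height = 1 → C.f i ∈ q → Y ∈ q →
        (Y : K) = y ^ Fintype.card H → y * C.e i / (g : K) ∈ C.S := by
  classical
  have hn : 0 < Fintype.card H := Fintype.card_pos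
  obtain ⟨n', hn'⟩ := exists_pred (H := H)
  by_cases hf : IsUnit (C.f i)
  · obtain ⟨w, hw⟩ := hf.exists_left_inv
    have hwK : (w : K) * C.e i ^ Fintype.card H = 1 := by
      simpa [f_coe] using congrArg Subtype.val hw
    have hinv : (C.e i)⁻¹ ∈ C.S := by
      have : (C.e i)⁻¹ = (w : K) * C.e i ^ n' := by
        refine inv_eq_of_mul_eq_one_left ?_
        rw [mul_assoc, ← pow_succ, ← hn', hwK]
      rw [this]
      exact C.S.mul_mem (C.R_le w.2) (C.S.pow_mem (C.e_mem i) _)
    refine ⟨C.g0 i, C.g0_mem i, ?_, fun l hl => ?_, ?_, ?_, ?_⟩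
    · by_contra h
      have h2 := Ideal.sub_mem _ (show C.T i (C.g0 i) ∈ maximalIdeal C.R from h) (C.T_g0 i i)
      simp at h2
    · simpa [hl] using C.T_g0 l i
    · rw [div_eq_mul_inv]; exact C.S.mul_mem (C.R_le (C.g0 i).2) hinv
    · intro hm hu
      obtain ⟨b, hb⟩ := hu.exists_left_inv
      apply C.g0_mem i
      have h1 : (b : K) * (C.e i)⁻¹ * (C.g0 i : K) = 1 := by
        have := congrArg Subtype.val hb
        push_cast at this
        rw [← this]; ring
      have h2 : (b : K) * (C.e i)⁻¹ ∈ C.R := by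
        refine (C.mem_R _).2 ⟨C.S.mul_mem b.2 hinv, fun h => ?_⟩
        rw [eq_inv_of_mul_eq_one_left h1, smul_inv'', C.fix_R (C.g0 i).2]
      exact IsUnit.of_mul_eq_one_right (⟨_, h2⟩ : C.R) (Subtype.ext h1)
    · intro χ y _ _ _ q Y hq _ hfq _ _
      exact absurd (Ideal.eq_top_of_isUnit_mem _ hfq hf) hq.ne_top
  · obtain ⟨p, -, -, hp1⟩ := exists_height_one_le (C.f_ne i)
      (show C.f i ∈ maximalIdeal C.R from hf)
    obtain ⟨p, hpmin, -, hp1⟩ := exists_height_one_le (C.f_ne i)
      (show C.f i ∈ maximalIdeal C.R from hf)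
    haveI hpp := hpmin.isPrime
    have hfp : C.f i ∈ p := hpmin.le (Ideal.mem_span_singleton_self _)
    have hd : d ≠ 0 := fun h => by subst h; exact i.elim0
    obtain ⟨m, hm⟩ := Nat.exists_eq_succ_of_ne_zero hd
    subst hm
    have hinvar : ∀ (q : Ideal C.R), q.IsPrime → q.height = 1 → C.f i ∈ q →
        ∀ l, l ≠ i → ∀ y ∈ q, C.T l y ∈ q := by
      intro q hq hq1 hfq l hl
      obtain ⟨π, hπ⟩ := C.exists_unif q hq1
      exact mem_of_derivation_uniformizer hπ _ ((branched hπ hfq).2 l hl).1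
    have hgg : ∀ a b : Fin m, C.T (i.succAbove a) (C.g0 (i.succAbove b))
        - (if a = b then 1 else 0) ∈ maximalIdeal C.R := fun a b => by
      simpa [Fin.succAbove_right_injective.eq_iff] using C.T_g0 (i.succAbove a) (i.succAbove b)
    have huniq : ∀ (q : Ideal C.R), q.IsPrime → q.height = 1 → C.f i ∈ q → q = p := by
      intro q hq hq1 hfq
      exact C.prime_unique rfl (fun a => C.T (i.succAbove a)) _ (fun a => C.g0_mem _) hgg hq1 hp1
        (fun a => hinvar q hq hq1 hfq _ (Fin.succAbove_ne i a))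
        (fun a => hinvar p hpp hp1 hfp _ (Fin.succAbove_ne i a))
    obtain ⟨π, hπ⟩ := C.exists_unif p hp1
    obtain ⟨hθπ, hothers⟩ := branched hπ hfp
    have hex : ∃ g ∈ p, IsUnit (C.T i g) := by
      by_contra! h
      let J : Ideal C.R := Ideal.span ((p : Set C.R) ∪ C.T i '' p)
      have hpJ : p ≤ J := fun y hy => Ideal.subset_span (Or.inl hy)
      have hTJ : ∀ y ∈ p, C.T i y ∈ J := fun y hy => Ideal.subset_span (Or.inr ⟨y, hy, rfl⟩)
      have hJm : J ≤ maximalIdeal C.R := by
        rw [Ideal.span_le]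
        rintro y (hy | ⟨z, hz, rfl⟩)
        · exact le_maximalIdeal hpp.ne_top hy
        · exact h z hz
      have hJinv : ∀ a : Fin m, ∀ y ∈ J, C.T (i.succAbove a) y ∈ J := by
        intro a y hy
        induction hy using Submodule.span_induction with
        | mem y hy =>
          rcases hy with hy | ⟨z, hz, rfl⟩
          · exact hpJ (hinvar p hpp hp1 hfp _ (Fin.succAbove_ne i a) y hy)
          · obtain ⟨c, hc⟩ := C.bracket_T (i.succAbove a) i z
            rw [sub_eq_iff_eq_add.1 (hc z)]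
            refine J.add_mem (J.sum_mem (fun j _ => J.mul_mem_left _ ?_))
              (hTJ _ (hinvar p hpp hp1 hfp _ (Fin.succAbove_ne i a) z hz))
            by_cases hj : j = i
            · subst hj; exact hTJ z hz
            · exact hpJ (hinvar p hpp hp1 hfp _ hj z hz)
        | zero => simp
        | add y z _ _ hy hz => rw [map_add]; exact J.add_mem hy hz
        | smul b y hy' hy =>
          rw [smul_eq_mul, Derivation.leibniz]
          exact J.add_mem (J.mul_mem_left _ hy) (J.mul_mem_right _ hy')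
      obtain ⟨Q, hQ, hQ1, hle⟩ := C.eq_of_invariant rfl (fun a => C.T (i.succAbove a)) _
        (fun a => C.g0_mem _) hgg J
        (fun e => Ideal.ne_bot_of_height_eq_one hp1 (le_bot_iff.1 (e ▸ hpJ)))
        (fun e => (maximalIdeal.isMaximal C.R).ne_top (top_le_iff.1 (e ▸ hJm))) hJinv
      have := C.height_one_eq hp1 hQ1 (hpJ.trans hle)
      subst this
      exact hθπ (hle (hTJ π hπ.1))
    obtain ⟨g, hgp, hgu⟩ := hex
    have hg0 : g ≠ 0 := by rintro rfl; simp at hgu
    have hgK : (g : K) ≠ 0 := by simpa using hg0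
    have hTg : ∀ l, l ≠ i → C.T l g ∈ p := fun l hl => hinvar p hpp hp1 hfp l hl g hgp
    have hgonly : ∀ (q : Ideal C.R), q.IsPrime → q.height = 1 → g ∈ q → q = p := by
      intro q hq hq1 hgq
      obtain ⟨w, hw⟩ := hgu
      let D : Fin m → Derivation ℤ C.R C.R := fun a =>
        C.T (i.succAbove a) - (C.T (i.succAbove a) g * (↑w⁻¹ : C.R)) • C.T i
      have hDg : ∀ a, D a g = 0 := fun a => by
        simp [D, ← hw, mul_assoc]
      have hDI : ∀ a, ∀ y ∈ Ideal.span {g}, D a y ∈ Ideal.span {g} := by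
        intro a y hy
        obtain ⟨b, rfl⟩ := Ideal.mem_span_singleton'.1 hy
        rw [Derivation.leibniz, hDg, smul_zero, zero_add]
        exact Ideal.mul_mem_right _ _ (Ideal.mem_span_singleton_self g)
      have hDgg : ∀ a b, D a (C.g0 (i.succAbove b)) - (if a = b then 1 else 0)
          ∈ maximalIdeal C.R := by
        intro a b
        have h1 := Ideal.sub_mem _ (hgg a b) (Ideal.mul_mem_right
          ((↑w⁻¹ : C.R) * C.T i (C.g0 (i.succAbove b))) _
            (le_maximalIdeal hpp.ne_top (hTg _ (Fin.succAbove_ne i a))))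
        convert h1 using 1
        simp [D]; ring
      have hmin : ∀ (q : Ideal C.R), q.IsPrime → q.height = 1 → g ∈ q →
          q ∈ (Ideal.span {g}).minimalPrimes := by
        intro q hq hq1 hgq
        obtain ⟨Q, hQ, hQle, hQ1⟩ := exists_height_one_le hg0 hgq
        haveI := hQ.isPrime
        exact C.height_one_eq hQ1 hq1 hQle ▸ hQ
      exact C.prime_unique rfl D _ (fun a => C.g0_mem _) hDgg hq1 hp1
        (fun a => derivation_mem_of_mem_minimalPrimes C.nat_isUnit (D a) (hDI a)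
          (hmin q hq hq1 hgq))
        (fun a => derivation_mem_of_mem_minimalPrimes C.nat_isUnit (D a) (hDI a)
          (hmin p hpp hp1 hgp))
    have hπg : C.Sp p ((π : K) / (g : K)) := by
      obtain ⟨s, hs, z, hz⟩ := hπ.2.2.1 g hgp
      have hz' : z ∉ p := by
        intro hzp
        have h := congrArg (C.T i) hz
        simp only [Derivation.leibniz, smul_eq_mul] at h
        have : s * C.T i g ∈ p := by
          have h1 : s * C.T i g = π * C.T i z + z * C.T i π - g * C.T i s := by rw [← h]; ring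
          rw [h1]
          exact p.sub_mem (p.add_mem (p.mul_mem_right _ hπ.1) (p.mul_mem_right _ hzp))
            (p.mul_mem_right _ hgp)
        rcases hpp.mem_or_mem this with h' | h'
        · exact hs h'
        · exact hpp.ne_top (Ideal.eq_top_of_isUnit_mem _ h' hgu)
      have := Sp.div (p := p) s z hz'
      convert this using 1
      have hz0 : (z : K) ≠ 0 := fun h => hz' (by rw [show z = 0 from Subtype.ext h]; exact p.zero_mem)
      have h1 := congrArg Subtype.val hz
      push_cast at h1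
      rw [div_eq_div_iff hgK hz0]
      linear_combination -h1
    have he := C.e_ne i
    have hue : (g : K) / C.e i ∈ C.S := by
      refine C.root_mem _ _ hn (C.R_le (C.mem_R_of_forall _ (fun h => ?_) (fun q hq hq1 => ?_)))
      · rw [div_pow, smul_div₀', smul_pow', C.fix_R g.2, ← f_coe, C.fix_R (C.f i).2]
      · refine Sp.pow ?_ _
        by_cases hfq : C.f i ∈ q
        · obtain rfl := huniq q hq hq1 hfq
          have := (Sp_div_of_mem hπ hgp).mul (pi_div_e hπ i)
          convert this using 1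
          have hπ0 : (π : K) ≠ 0 := by simpa using hπ.2.1
          field_simp
        · have := ((Sp.of_R g (p := q)).mul (Sp.of_mem (C.S.pow_mem (C.e_mem i) n'))).mul
            (Sp.div (1 : C.R) (C.f i) hfq)
          convert this using 1
          rw [f_coe, hn', pow_succ]
          push_cast
          field_simp
    refine ⟨g, le_maximalIdeal hpp.ne_top hgp, hgu,
      fun l hl => le_maximalIdeal hpp.ne_top (hTg l hl), hue, ?_, ?_⟩
    · intro hm' hu
      obtain ⟨b, hb⟩ := hu.exists_left_inv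
      apply not_e_div_pi hπ i
      have h1 := congrArg Subtype.val hb
      push_cast at h1
      have := (Sp.of_mem b.2 (p := p)).mul (Sp_div_of_mem hπ hgp)
      convert this using 1
      have hπ0 : (π : K) ≠ 0 := by simpa using hπ.2.1
      field_simp at h1 ⊢
      linear_combination -h1
    · intro χ y hy hye hy0 q Y hq hq1 hfq hYq hY
      refine C.root_mem _ _ hn (C.R_le (C.mem_R_of_forall _ (fun h => ?_) (fun q' hq' hq'1 => ?_)))
      · rw [div_pow, mul_pow, smul_div₀', smul_mul', eig_pow_card hye h,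
          eig_pow_card (C.e_eig i) h, smul_pow', C.fix_R g.2]
      · refine Sp.pow ?_ _
        by_cases hgq : g ∈ q'
        · obtain rfl := hgonly q' hq' hq'1 hgq
          obtain rfl := huniq q hq hq1 hfq
          have := (e_mul_div_pi hπ hfp hy hye hy0 Y hY hYq).mul hπg
          convert this using 1
          have hπ0 : (π : K) ≠ 0 := by simpa using hπ.2.1
          field_simp
        · have := (Sp.of_mem (C.S.mul_mem hy (C.e_mem i)) (p := q')).mul (Sp.div (1 : C.R) g hgq)
          convert this using 1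
          push_cast
          field_simp

end Cover

end Vale.Agent.P266
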