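import Mathlib
import Vale.Agent.P266.Core2

/-! Abelian covers of a regular base with free derivation module, part 3: generators of the
maximal ideal. -/

open IsLocalRing

namespace Vale.Agent.P266

universe u v w

namespace Cover

variable {k : Type u} [Field k] [CharZero k] {K : Type v} [Field K] [Algebra k K]
  {H : Type w} [CommGroup H] [Fintype H] [MulSemiringAction H K] [SMulCommClass H k K]
  {d N : ℕ} (C : Cover k K H d d N)

/-- Inclusion of `R` in `S`. -/
def incl : C.R →+* C.S where
  toFun a := ⟨(a : K), C.R_le a.2⟩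
  map_one' := rfl
  map_mul' _ _ := rfl
  map_zero' := rfl
  map_add' _ _ := rfl

theorem isUnit_of_incl {a : C.R} (h : IsUnit (C.incl a)) : IsUnit a := by
  obtain ⟨b, hb⟩ := h.exists_left_inv
  have h1 : (b : K) * (a : K) = 1 := congrArg Subtype.val hb
  have hbR : (b : K) ∈ C.R := by
    refine (C.mem_R _).2 ⟨b.2, fun g => ?_⟩
    rw [eq_inv_of_mul_eq_one_left h1, smul_inv'', C.fix_R a.2]
  exact IsUnit.of_mul_eq_one_right (⟨(b : K), hbR⟩ : C.R) (Subtype.ext h1)

theorem mem_max_of_eig {χ : H → k} {y : C.S} (hy : Eig χ (y : K)) (hχ : ∃ h, χ h ≠ 1) :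
    y ∈ maximalIdeal C.S := by
  obtain ⟨h, hh⟩ := hχ
  obtain ⟨c, hc⟩ := C.res y
  by_contra hy'
  have hu : IsUnit y := not_not.1 hy'
  have hc0 : c ≠ 0 := by
    rintro rfl
    exact hy' (by simpa using hc)
  let σ : C.S →+* C.S :=
    { toFun := fun a => ⟨h • (a : K), C.smul_mem h _ a.2⟩
      map_one' := Subtype.ext (smul_one h)
      map_mul' := fun a b => Subtype.ext (smul_mul' h _ _)
      map_zero' := Subtype.ext (smul_zero h)
      map_add' := fun a b => Subtype.ext (smul_add h _ _) }
  have hσ : σ (y - algebraMap k C.S c) ∈ maximalIdeal C.S := by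
    intro hunit
    obtain ⟨b, hb⟩ := hunit.exists_left_inv
    apply hc
    refine IsUnit.of_mul_eq_one_right
      (⟨h⁻¹ • (b : K), C.smul_mem _ _ b.2⟩ : C.S) (Subtype.ext ?_)
    have := congrArg (fun z : K => h⁻¹ • z) (congrArg Subtype.val hb)
    simpa [σ, smul_mul'] using this
  have h1 : σ (y - algebraMap k C.S c) = algebraMap k C.S (χ h) * (y - algebraMap k C.S c)
      + algebraMap k C.S ((χ h - 1) * c) := by
    apply Subtype.ext
    have := hy h
    change h • ((y : K) - algebraMap k K c) = _
    push_cast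
    rw [smul_sub, smul_algebraMap, this]
    ring
  have h2 : algebraMap k C.S ((χ h - 1) * c) ∈ maximalIdeal C.S := by
    have := Ideal.sub_mem _ hσ (Ideal.mul_mem_left _ (algebraMap k C.S (χ h)) hc)
    rwa [h1, add_sub_cancel_left] at this
  exact h2 ((IsUnit.mk0 _ (mul_ne_zero (sub_ne_zero.2 hh) hc0)).map (algebraMap k C.S))

theorem P_mem_of_mem_pow {s : ℕ} {a : C.R} (ha : a ∈ maximalIdeal C.R ^ s) :
    ∑ l, C.x l * C.P l a - (s : C.R) * a ∈ maximalIdeal C.R ^ (s + 1) := by
  have h1 : ∀ a ∈ maximalIdeal C.R, ∑ l, C.x l * C.P l a - a ∈ maximalIdeal C.R ^ 2 := by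
    intro a ha
    rw [C.x_span, Ideal.mem_span_range_iff_exists_fun] at ha
    obtain ⟨q, rfl⟩ := ha
    have h : ∑ l, C.x l * C.P l (∑ m, q m * C.x m) - ∑ m, q m * C.x m
        = ∑ m, C.x m * ∑ l, C.x l * C.P l (q m) := by
      simp only [map_sum, Derivation.leibniz, smul_eq_mul, C.P_x, mul_ite, mul_one, mul_zero,
        Finset.mul_sum, mul_add, Finset.sum_add_distrib]
      rw [sub_eq_iff_eq_add, add_comm, Finset.sum_comm]
      congr 1
      · refine Finset.sum_congr rfl (fun m _ => Finset.sum_congr rfl (fun l _ => ?_))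
        ring
      · simp [mul_comm]
    rw [h]
    refine Ideal.sum_mem _ (fun m _ => ?_)
    rw [pow_two]
    exact Ideal.mul_mem_mul (C.x_mem m)
      (Ideal.sum_mem _ (fun l _ => Ideal.mul_mem_right _ _ (C.x_mem l)))
  induction s generalizing a with
  | zero =>
    simpa using Ideal.sum_mem _ (fun l _ => Ideal.mul_mem_right (C.P l a) _ (C.x_mem l))
  | succ s ih =>
    rw [pow_succ] at ha
    refine Submodule.mul_induction_on ha (fun b hb c hc => ?_) (fun b c hb hc => ?_)
    · have h : ∑ l, C.x l * C.P l (b * c) - ((s + 1 : ℕ) : C.R) * (b * c)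
          = (∑ l, C.x l * C.P l b - (s : C.R) * b) * c
            + b * (∑ l, C.x l * C.P l c - c) := by
        simp only [Derivation.leibniz, smul_eq_mul, sub_mul, mul_sub, Finset.sum_mul,
          Finset.mul_sum, mul_add, Finset.sum_add_distrib]
        have : ∀ l, C.x l * (b * C.P l c) = b * (C.x l * C.P l c) := fun l => by ring
        simp only [this, mul_comm c, mul_assoc]
        push_cast
        ring
      rw [h]
      refine Ideal.add_mem _ ?_ ?_
      · rw [pow_succ]; exact Ideal.mul_mem_mul (ih hb) hc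
      · rw [show s + 1 + 1 = s + 2 from rfl, pow_add]
        exact Ideal.mul_mem_mul hb (h1 c hc)
    · have h : ∑ l, C.x l * C.P l (b + c) - ((s + 1 : ℕ) : C.R) * (b + c)
          = (∑ l, C.x l * C.P l b - ((s + 1 : ℕ) : C.R) * b)
            + (∑ l, C.x l * C.P l c - ((s + 1 : ℕ) : C.R) * c) := by
        simp only [map_add, mul_add, Finset.sum_add_distrib]; ring
      rw [h]
      exact Ideal.add_mem _ hb hc

theorem pow_succ_of_P_mem {s : ℕ} (hs : s ≠ 0) {a : C.R} (ha : a ∈ maximalIdeal C.R ^ s)
    (hP : ∀ l, C.P l a ∈ maximalIdeal C.R ^ s) : a ∈ maximalIdeal C.R ^ (s + 1) := by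
  have h1 : ∑ l, C.x l * C.P l a ∈ maximalIdeal C.R ^ (s + 1) :=
    Ideal.sum_mem _ (fun l _ => by rw [pow_succ']; exact Ideal.mul_mem_mul (C.x_mem l) (hP l))
  have h2 := Ideal.sub_mem _ h1 (C.P_mem_of_mem_pow ha)
  rw [sub_sub_cancel] at h2
  obtain ⟨v, hv⟩ := C.nat_isUnit s hs
  simpa [← hv] using Ideal.mul_mem_left _ (↑v⁻¹ : C.R) h2

theorem case_B {χ : H → k} (hχ : ∃ h, χ h ≠ 1) {y : K} (hy : y ∈ C.S) (hye : Eig χ y) (hy0 : y ≠ 0)
    (hB : ∀ (q : Ideal C.R) (i : Fin d), q.IsPrime → q.height = 1 → C.f i ∈ q →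
      ∀ Y : C.R, (Y : K) = y ^ Fintype.card H → Y ∉ q) : False := by
  classical
  have hn : 0 < Fintype.card H := Fintype.card_pos
  obtain ⟨n', hn'⟩ := exists_pred (H := H)
  let Y : C.R := ⟨_, C.eig_pow_mem hy hye⟩
  -- the eigenspace
  let W : Submodule C.R K :=
    { carrier := {w | w ∈ C.S ∧ Eig χ w}
      add_mem' := fun {a b} ha hb => ⟨C.S.add_mem ha.1 hb.1, fun h => by
        rw [smul_add, ha.2 h, hb.2 h, mul_add]⟩
      zero_mem' := ⟨C.S.zero_mem, fun h => by simp⟩
      smul_mem' := fun r a ha => ⟨C.S.mul_mem (C.R_le r.2) ha.1, fun h => by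
        change h • ((r : K) * a) = algebraMap k K (χ h) * ((r : K) * a)
        rw [smul_mul', C.fix_R r.2, ha.2 h]; ring⟩ }
  have hWder : ∀ l, ∀ w ∈ W, C.der l w ∈ W := by
    intro l w hw
    by_cases hw0 : w = 0
    · subst hw0; simp
    obtain ⟨hwS, hwe⟩ := hw
    let Y' : C.R := ⟨_, C.eig_pow_mem hwS hwe⟩
    have heig : Eig χ (C.der l w) := fun h => by
      rw [C.derivation_eig (C.der l) hw0, smul_div₀', smul_mul', smul_mul', hwe h,
        eig_pow_card hwe h, C.fix_R (C.der_mem l _ Y'.2) h]
      have : h • (Fintype.card H : K) = (Fintype.card H : K) := C.fix_R (natCast_mem C.R _) h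
      rw [this]
      ring
    refine ⟨?_, heig⟩
    refine C.root_mem _ _ hn (C.R_le (C.mem_R_of_forall _ (fun h => ?_) (fun q hq hq1 => ?_)))
    · exact eig_pow_card heig h
    refine Sp.pow ?_ _
    by_cases hbr : ∃ i, C.f i ∈ q
    · obtain ⟨i, hi⟩ := hbr
      have hYq : Y ∉ q := hB q i hq hq1 hi Y rfl
      have hy' : C.Sp q (y⁻¹) := by
        have := (Sp.of_mem (C.S.pow_mem hy n') (p := q)).mul (Sp.div (1 : C.R) Y hYq)
        convert this using 1
        simp only [Y, hn', pow_succ]
        push_cast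
        field_simp
      have hfix : ∀ h : H, h • (w / y) = w / y := fun h => by
        rw [smul_div₀', hwe h, hye h, mul_div_mul_left]
        intro h0
        have := hye h
        rw [h0, zero_mul] at this
        exact hy0 ((smul_eq_zero_iff_eq h).1 this)
      obtain ⟨t, ht, htc⟩ := (Sp.of_mem hwS (p := q)).mul hy'
      rw [← div_eq_mul_inv] at htc
      let c : C.R := ⟨(t : K) * (w / y),
        (C.mem_R _).2 ⟨htc, fun h => by rw [smul_mul', C.fix_R t.2, hfix]⟩⟩
      have heq : (t : K) * w = (c : K) * y := by simp only [c]; field_simp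
      have hdy : C.Sp q (C.der l y) := by
        have := ((Sp.of_mem hy (p := q)).mul (Sp.of_R ⟨_, C.inv_card_mem⟩)).mul
          (Sp.div ⟨_, C.der_mem l _ Y.2⟩ Y hYq)
        rw [C.derivation_eig (C.der l) hy0]
        convert this using 1
        simp only [Y]
        field_simp
      have h := congrArg (C.der l) heq
      simp only [Derivation.leibniz, smul_eq_mul] at h
      have := ((((Sp.of_R c (p := q)).mul hdy).add
        ((Sp.of_mem hy).mul (Sp.of_R ⟨_, C.der_mem l _ c.2⟩))).sub
          ((Sp.of_mem hwS).mul (Sp.of_R ⟨_, C.der_mem l _ t.2⟩))).mul (Sp.div (1 : C.R) t ht)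
      convert this using 1
      have ht0 : (t : K) ≠ 0 := fun h => ht (by rw [show t = 0 from Subtype.ext h]; exact q.zero_mem)
      push_cast
      rw [← h]
      field_simp
      ring
    · push Not at hbr
      rw [C.der_eq_sum]
      refine Finset.sum_induction _ (C.Sp q) (fun a b ha hb => ha.add hb)
        (Sp.of_mem C.S.zero_mem) (fun i _ => ?_)
      have hinv : C.Sp q ((C.e i)⁻¹) := by
        have := (Sp.of_mem (C.S.pow_mem (C.e_mem i) n') (p := q)).mul
          (Sp.div (1 : C.R) (C.f i) (hbr i))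
        convert this using 1
        have := C.e_ne i
        rw [f_coe, hn', pow_succ]
        push_cast
        field_simp
      have := ((Sp.of_R (C.Finv l i) (p := q)).mul hinv).mul
        (Sp.of_mem (C.v_mem i w hwS))
      convert this using 1
      simp only [Finv]
      have := C.e_ne i
      field_simp
  -- a minimal system of generators
  let MS : Submodule C.R K := Submodule.span C.R (Set.range C.gen)
  haveI : Module.Finite C.R MS := Module.Finite.span_of_finite C.R (Set.finite_range _)
  have hWMS : W ≤ MS := by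
    rintro w ⟨hw, -⟩
    obtain ⟨r, rfl⟩ := C.gen_span w hw
    exact MS.sum_mem (fun j _ => MS.smul_mem (r j) (Submodule.subset_span (Set.mem_range_self j)))
  have hfg : W.FG := by
    have hM : IsNoetherian C.R MS := isNoetherian_of_isNoetherianRing_of_finite C.R MS
    have h := Submodule.FG.map MS.subtype (hM.noetherian (W.comap MS.subtype))
    rwa [Submodule.map_comap_subtype, inf_eq_right.2 hWMS] at h
  let Q : ℕ → Prop := fun r => ∃ w : Fin r → K, (∀ j, w j ∈ W) ∧ W ≤ Submodule.span C.R (Set.range w)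
  have hQ : ∃ r, Q r := by
    obtain ⟨r, w, hw⟩ := Submodule.fg_iff_exists_fin_generating_family.1 hfg
    exact ⟨r, w, fun j => hw ▸ Submodule.subset_span (Set.mem_range_self j), hw.ge⟩
  obtain ⟨w, hw, hWw⟩ := Nat.find_spec hQ
  have hmin : ∀ r, r < Nat.find hQ → ¬ Q r := fun r => Nat.find_min hQ
  generalize Nat.find hQ = r at w hw hWw hmin
  have hrel0 : ∀ a : Fin r → C.R, ∑ j, (a j : K) * w j = 0 → ∀ j, a j ∈ maximalIdeal C.R := by
    intro a ha q hu
    obtain ⟨b, hb⟩ := hu.exists_left_inv
    cases r with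
    | zero => exact q.elim0
    | succ r =>
      refine hmin r (Nat.lt_succ_self r) ⟨fun j => w (q.succAbove j), fun j => hw _, ?_⟩
      refine hWw.trans (Submodule.span_le.2 ?_)
      rintro _ ⟨j, rfl⟩
      by_cases hj : j = q
      · subst hj
        have h1 : w j = ∑ i, (-(b * a (j.succAbove i)) : C.R) • w (j.succAbove i) := by
          rw [Fin.sum_univ_succAbove _ j] at ha
          have hb' := congrArg Subtype.val hb
          push_cast at hb'
          simp only [Algebra.smul_def, neg_mul, map_neg]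
          rw [Finset.sum_neg_distrib]
          have : ∀ i, algebraMap C.R K (b * a (j.succAbove i)) * w (j.succAbove i)
              = (b : K) * ((a (j.succAbove i) : K) * w (j.succAbove i)) := fun i => by
            rw [map_mul, mul_assoc]; rfl
          simp only [this, ← Finset.mul_sum]
          linear_combination (b : K) * ha - w j * hb'
        rw [h1]
        exact Submodule.sum_mem _ (fun i _ => Submodule.smul_mem _ _
          (Submodule.subset_span ⟨i, rfl⟩))
      · obtain ⟨i, rfl⟩ := Fin.exists_succAbove_eq hj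
        exact Submodule.subset_span ⟨i, rfl⟩
  have hΓ : ∀ l j, ∃ c : Fin r → C.R, C.der l (w j) = ∑ i, (c i : K) * w i := by
    intro l j
    obtain ⟨c, hc⟩ := (Submodule.mem_span_range_iff_exists_fun C.R).1 (hWw (hWder l _ (hw j)))
    exact ⟨c, hc.symm⟩
  choose Γ hΓ using hΓ
  have hrel : ∀ s : ℕ, ∀ a : Fin r → C.R, ∑ j, (a j : K) * w j = 0 →
      ∀ j, a j ∈ maximalIdeal C.R ^ (s + 1) := by
    intro s
    induction s with
    | zero => intro a ha j; simpa using hrel0 a ha j
    | succ s ih =>
      intro a ha j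
      refine C.pow_succ_of_P_mem (Nat.succ_ne_zero s) (ih a ha j) (fun l => ?_)
      have ha' : ∑ i, ((C.P l (a i) + ∑ m, a m * Γ l m i : C.R) : K) * w i = 0 := by
        have h := congrArg (C.der l) ha
        simp only [map_sum, Derivation.leibniz, smul_eq_mul, hΓ, map_zero,
          Finset.sum_add_distrib, Finset.mul_sum] at h
        push_cast
        simp only [add_mul, Finset.sum_mul, Finset.sum_add_distrib]
        rw [Finset.sum_comm] at h
        rw [← h, add_comm]
        congr 1
        · exact Finset.sum_congr rfl (fun i _ => Finset.sum_congr rfl (fun m _ => mul_assoc _ _ _))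
        · exact Finset.sum_congr rfl (fun i _ => by rw [P, resR_coe, mul_comm])
      have h1 := ih _ ha' j
      have h2 : ∑ m, a m * Γ l m j ∈ maximalIdeal C.R ^ (s + 1) :=
        Ideal.sum_mem _ (fun m _ => Ideal.mul_mem_right _ _ (ih a ha m))
      simpa using Ideal.sub_mem _ h1 h2
  have hrel' : ∀ a : Fin r → C.R, ∑ j, (a j : K) * w j = 0 → ∀ j, a j = 0 := by
    intro a ha j
    have hmem : a j ∈ ⨅ i : ℕ, maximalIdeal C.R ^ i := by
      rw [Ideal.mem_iInf]
      rintro (_ | i)
      · simp
      · exact hrel i a ha j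
    rwa [Ideal.iInf_pow_eq_bot_of_isLocalRing _ (maximalIdeal.isMaximal C.R).ne_top,
      Submodule.mem_bot] at hmem
  -- the rank is one
  have hwne : ∀ j, w j ≠ 0 := by
    intro j hj
    have := hrel' (fun i => if i = j then 1 else 0) (by simp [hj, ite_mul, apply_ite]) j
    simp at this
  have hr1 : r = 1 := by
    match r, w, hw, hWw, hrel', hwne with
    | 0, w, hw, hWw, _, _ =>
      exfalso
      have := hWw (show y ∈ W from ⟨hy, hye⟩)
      rw [Set.range_eq_empty, Submodule.span_empty, Submodule.mem_bot] at this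
      exact hy0 this
    | 1, _, _, _, _, _ => rfl
    | r + 2, w, hw, hWw, hrel', hwne =>
      exfalso
      have hfix : ∀ h : H, h • (w 0 / w 1) = w 0 / w 1 := fun h => by
        rw [smul_div₀', (hw 0).2 h, (hw 1).2 h, mul_div_mul_left]
        intro h0
        have := (hw 0).2 h
        rw [h0, zero_mul] at this
        exact hwne 0 ((smul_eq_zero_iff_eq h).1 this)
      obtain ⟨a, b, hb, hab⟩ := C.fixed_frac _ hfix
      have h01 : (0 : Fin (r + 2)) ≠ 1 := by simp
      have hw1 := hwne 1
      have h := hrel' (fun i => (if i = 0 then b else 0) - if i = 1 then a else 0) (by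
        push_cast
        simp only [sub_mul, Finset.sum_sub_distrib, apply_ite Subtype.val, ite_mul,
          ZeroMemClass.coe_zero, zero_mul, Finset.sum_ite_eq', Finset.mem_univ, if_true]
        rw [← hab]
        field_simp
        ring) 0
      simp [h01] at h
      exact hb h
  subst hr1
  -- the generator is a unit
  let Y0 : C.R := ⟨_, C.eig_pow_mem (hw 0).1 (hw 0).2⟩
  have hY0 : Y0 ≠ 0 := fun h => pow_ne_zero _ (hwne 0) (congrArg Subtype.val h)
  have hunit : IsUnit Y0 := by
    by_contra hm
    have key : ∀ s : ℕ, Y0 ∈ maximalIdeal C.R ^ (s + 1) := by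
      intro s
      induction s with
      | zero => simpa using hm
      | succ s ih =>
        refine C.pow_succ_of_P_mem (Nat.succ_ne_zero s) ih (fun l => ?_)
        have : C.P l Y0 = (Fintype.card H : C.R) * Γ l 0 0 * Y0 := by
          apply Subtype.ext
          rw [P, resR_coe]
          push_cast
          simp only [Y0, Derivation.leibniz_pow, hΓ, Fin.sum_univ_one, smul_eq_mul, nsmul_eq_mul]
          rw [hn', Nat.add_sub_cancel, pow_succ]
          ring
        rw [this]
        exact Ideal.mul_mem_left _ _ ih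
    have hmem : Y0 ∈ ⨅ i : ℕ, maximalIdeal C.R ^ i := by
      rw [Ideal.mem_iInf]
      rintro (_ | i)
      · simp
      · exact key i
    rw [Ideal.iInf_pow_eq_bot_of_isLocalRing _ (maximalIdeal.isMaximal C.R).ne_top,
      Submodule.mem_bot] at hmem
    exact hY0 hmem
  let w0 : C.S := ⟨w 0, (hw 0).1⟩
  apply C.mem_max_of_eig (y := w0) (hw 0).2 hχ
  have h : IsUnit (w0 ^ Fintype.card H) := hunit.map C.incl
  exact (isUnit_pow_iff hn.ne').1 h

theorem maximalIdeal_le_span : ∃ u : Fin d → C.S, (∀ i, u i ∈ maximalIdeal C.S) ∧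
    maximalIdeal C.S ≤ Ideal.span (Set.range u) := by
  classical
  choose g hgm hgu hgl hgS hgmem hgdiv using C.exists_g
  let u : Fin d → C.S := fun i => ⟨_, hgS i⟩
  have humem : ∀ i, u i ∈ maximalIdeal C.S := fun i => hgmem i (hgS i)
  refine ⟨u, humem, ?_⟩
  let J : Ideal C.S := Ideal.span (Set.range u)
  have hJm : J ≤ maximalIdeal C.S := Ideal.span_le.2 (by rintro _ ⟨i, rfl⟩; exact humem i)
  -- the maximal ideal of `R`
  have hgJ : ∀ i, C.incl (g i) ∈ J := fun i => by
    have : C.incl (g i) = ⟨C.e i, C.e_mem i⟩ * u i := by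
      apply Subtype.ext
      change (g i : K) = C.e i * ((g i : K) / C.e i)
      rw [mul_div_cancel₀ _ (C.e_ne i)]
    rw [this]
    exact J.mul_mem_left _ (Ideal.subset_span (Set.mem_range_self i))
  have hmR : maximalIdeal C.R ≤ Ideal.span (Set.range g) := by
    have hstep : maximalIdeal C.R ≤ Ideal.span (Set.range g)
        ⊔ maximalIdeal C.R • maximalIdeal C.R := by
      intro a ha
      let b : C.R := ∑ i, (C.T i a * ↑((hgu i).unit⁻¹)) * g i
      have hb : b ∈ Ideal.span (Set.range g) := Ideal.sum_mem _ (fun i _ =>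
        Ideal.mul_mem_left _ _ (Ideal.subset_span (Set.mem_range_self i)))
      refine Submodule.mem_sup.2 ⟨b, hb, a - b, ?_, add_sub_cancel b a⟩
      have hw : a - b ∈ maximalIdeal C.R :=
        Ideal.sub_mem _ ha (Ideal.sum_mem _ (fun i _ => Ideal.mul_mem_left _ _ (hgm i)))
      have hT : ∀ j, C.T j (a - b) ∈ maximalIdeal C.R := by
        intro j
        have h1 : C.T j (a - b) = C.T j a - ∑ i, (C.T i a * ↑((hgu i).unit⁻¹)) * C.T j (g i)
            - ∑ i, g i * C.T j (C.T i a * ↑((hgu i).unit⁻¹)) := by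
          simp only [b, map_sub, map_sum, Derivation.leibniz, smul_eq_mul, Finset.sum_add_distrib]
          ring
        rw [h1]
        refine Ideal.sub_mem _ ?_ (Ideal.sum_mem _ (fun i _ => Ideal.mul_mem_right _ _ (hgm i)))
        rw [← Finset.add_sum_erase Finset.univ _ (Finset.mem_univ j), mul_assoc,
          IsUnit.val_inv_mul, mul_one, sub_add_cancel_left]
        exact Submodule.neg_mem _ (Ideal.sum_mem _ (fun i hi =>
          Ideal.mul_mem_left _ _ (hgl i j (Finset.ne_of_mem_erase hi).symm)))
      have hP : ∀ l, C.P l (a - b) ∈ maximalIdeal C.R := fun l => by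
        rw [C.P_apply]
        exact Ideal.sum_mem _ (fun j _ => Ideal.mul_mem_left _ _ (hT j))
      have := C.pow_succ_of_P_mem one_ne_zero (s := 1) (by simpa using hw) (by simpa using hP)
      simpa [pow_two, smul_eq_mul] using this
    exact Submodule.le_of_le_smul_of_le_jacobson_bot (IsNoetherian.noetherian _)
      (maximalIdeal_le_jacobson _) hstep
  have hmRJ : ∀ a ∈ maximalIdeal C.R, C.incl a ∈ J := by
    intro a ha
    obtain ⟨c, rfl⟩ := Ideal.mem_span_range_iff_exists_fun.1 (hmR ha)
    rw [map_sum]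
    exact J.sum_mem (fun i _ => by rw [map_mul]; exact J.mul_mem_left _ (hgJ i))
  -- the generators
  let G : Fin N → C.S := fun j => ⟨C.gen j, C.gen_mem j⟩
  have hG : ∀ j, G j ∈ J ∨ C.gen j ∈ C.R := by
    intro j
    obtain ⟨χ, hχ⟩ := C.gen_eig j
    by_cases h0 : C.gen j = 0
    · right; rw [h0]; exact C.R.zero_mem
    by_cases htriv : ∃ h, χ h ≠ 1
    · left
      by_cases hA : ∃ (q : Ideal C.R) (i : Fin d) (Y : C.R), q.IsPrime ∧ q.height = 1 ∧
          C.f i ∈ q ∧ Y ∈ q ∧ (Y : K) = C.gen j ^ Fintype.card H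
      · obtain ⟨q, i, Y, hq, hq1, hi, hY, hYe⟩ := hA
        have hz := hgdiv i χ _ (C.gen_mem j) hχ h0 q Y hq hq1 hi hY hYe
        have : G j = ⟨_, hz⟩ * u i := by
          apply Subtype.ext
          change C.gen j = C.gen j * C.e i / (g i : K) * ((g i : K) / C.e i)
          have := C.e_ne i
          have hg0 : (g i : K) ≠ 0 := by
            intro h
            have := hgu i
            rw [show g i = 0 from Subtype.ext h, map_zero] at this
            exact not_isUnit_zero this
          field_simp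
        rw [this]
        exact J.mul_mem_left _ (Ideal.subset_span (Set.mem_range_self i))
      · exact (C.case_B htriv (C.gen_mem j) hχ h0
          (fun q i hq hq1 hi Y hY hYq => hA ⟨q, i, Y, hq, hq1, hi, hYq, hY⟩)).elim
    · right
      push Not at htriv
      exact (C.mem_R _).2 ⟨C.gen_mem j, fun h => by rw [hχ h, htriv h, map_one, one_mul]⟩
  intro s hs
  obtain ⟨r, hr⟩ := C.gen_span (s : K) s.2
  let A : Finset (Fin N) := Finset.univ.filter (fun j => C.gen j ∈ C.R)
  let a : C.R := ∑ j ∈ A.attach, r j.1 * ⟨C.gen j.1, (Finset.mem_filter.1 j.2).2⟩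
  let t : C.S := ∑ j ∈ Finset.univ.filter (fun j => ¬ C.gen j ∈ C.R), C.incl (r j) * G j
  have ht : t ∈ J := J.sum_mem (fun j hj => J.mul_mem_left _
    ((hG j).resolve_right (Finset.mem_filter.1 hj).2))
  have hsplit : s = C.incl a + t := by
    apply Subtype.ext
    rw [hr, ← Finset.sum_filter_add_sum_filter_not Finset.univ (fun j => C.gen j ∈ C.R)]
    simp only [a, t, map_sum, AddMemClass.coe_add, AddSubmonoidClass.coe_finsetSum,
      MulMemClass.coe_mul]
    congr 1
    exact (Finset.sum_attach A (fun j => (r j : K) * C.gen j)).symm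
  have ha : a ∈ maximalIdeal C.R := by
    intro hu
    have h1 : C.incl a ∈ maximalIdeal C.S := by
      have := Ideal.sub_mem _ hs (hJm ht)
      rwa [hsplit, add_sub_cancel_right] at this
    exact h1 (hu.map C.incl)
  rw [hsplit]
  exact J.add_mem (hmRJ a ha) ht

end Cover

end Vale.Agent.P266
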