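import Mathlib
import Vale.Agent.P266.Extras

/-!
A criterion for a singular affine surface with free module of derivations.

`A` is a domain, integral over the subalgebra of two elements `x, y`, with two derivations. If the
ideal of their two-by-two minors contains, after inverting `h`, a regular pair, then the derivations
of `A_h` are free on the two. A point with three independent tangent vectors is then singular.
-/

open scoped Polynomial

namespace Vale.Agent.P266.Criterion

universe u v w

variable {k : Type u} [Field k] {A : Type v} [CommRing A] [Algebra k A]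

/-- The ideal of the two-by-two minors of two derivations. -/
def minorIdeal (D₁ D₂ : Derivation k A A) : Ideal A :=
  Ideal.span (Set.range fun w : A × A => D₁ w.1 * D₂ w.2 - D₁ w.2 * D₂ w.1)

/-- A derivation into a larger domain of characteristic zero which kills `x` and `y` vanishes
when the source is integral over the subalgebra of `x` and `y`. -/
theorem derivation_eq_zero {B : Type w} [CommRing B] [IsDomain B] [CharZero B] [Algebra A B]
    [Algebra k B] [IsScalarTower k A B] (hinj : Function.Injective (algebraMap A B)) {x y : A}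
    (hint : ∀ a : A, IsIntegral (Algebra.adjoin k ({x, y} : Set A)) a)
    (E : Derivation k A B) (hx : E x = 0) (hy : E y = 0) : E = 0 := by
  classical
  set S := Algebra.adjoin k ({x, y} : Set A)
  have hS : ∀ s ∈ S, E s = 0 := fun s hs => by
    have := Derivation.eqOn_adjoin (D1 := E) (D2 := 0) (s := ({x, y} : Set A)) (fun t ht => by
      rcases ht with rfl | rfl
      · simpa using hx
      · simpa using hy) hs
    simpa using this
  refine Derivation.ext fun a => ?_
  set f : S →+* B := (algebraMap A B).comp S.val.toRingHom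
  have key : ∀ p : S[X], E (Polynomial.aeval a p) =
      algebraMap A B (Polynomial.aeval a (Polynomial.derivative p)) * E a := by
    intro p
    induction p using Polynomial.induction_on' with
    | add p q hp hq => simp [hp, hq, add_mul]
    | monomial n c =>
      rw [Polynomial.derivative_monomial, Polynomial.aeval_monomial, Polynomial.aeval_monomial,
        show algebraMap S A c = (c : A) from rfl, Derivation.leibniz, Derivation.leibniz_pow,
        hS _ c.2, show algebraMap S A (c * (n : S)) = (c : A) * (n : A) by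
          push_cast; simp]
      simp only [Algebra.smul_def, map_mul, map_pow, map_natCast, eq_natCast]
      ring
  have hex : ∃ n, ∃ p : S[X], p.natDegree = n ∧ f p.leadingCoeff ≠ 0 ∧
      Polynomial.aeval a p = 0 := by
    obtain ⟨p, hp, hp0⟩ := hint a
    exact ⟨_, p, rfl, by simp [hp.leadingCoeff], hp0⟩
  obtain ⟨p, hpn, hplc, hp0⟩ := Nat.find_spec hex
  set n := Nat.find hex
  have h1 := key p
  rw [hp0, map_zero] at h1
  rcases Nat.eq_zero_or_pos n with hn | hn
  · exfalso
    rw [Polynomial.eq_C_of_natDegree_eq_zero (hpn.trans hn), Polynomial.aeval_C] at hp0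
    apply hplc
    rw [show p.leadingCoeff = p.coeff 0 by rw [Polynomial.leadingCoeff, hpn, hn]]
    show algebraMap A B (algebraMap S A (p.coeff 0)) = 0
    rw [hp0, map_zero]
  · refine (mul_eq_zero.1 h1.symm).resolve_left fun h0 => ?_
    have h0' : Polynomial.aeval a (Polynomial.derivative p) = 0 := hinj (by rw [h0, map_zero])
    have hc : (Polynomial.derivative p).coeff (n - 1) = p.leadingCoeff * (n : S) := by
      rw [Polynomial.coeff_derivative, Nat.sub_add_cancel hn, Polynomial.leadingCoeff, hpn]
      congr 1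
      rw [← Nat.cast_succ, Nat.succ_eq_add_one, Nat.sub_add_cancel hn]
    have hne : f ((Polynomial.derivative p).coeff (n - 1)) ≠ 0 := by
      rw [hc, map_mul, map_natCast]
      exact mul_ne_zero hplc (Nat.cast_ne_zero.2 hn.ne')
    have hdeg : (Polynomial.derivative p).natDegree ≤ n - 1 :=
      (Polynomial.natDegree_derivative_le p).trans (by omega)
    have hdeg' : (Polynomial.derivative p).natDegree = n - 1 :=
      le_antisymm hdeg (Polynomial.le_natDegree_of_ne_zero fun h => hne (by rw [h, map_zero]))
    refine Nat.find_min hex (show n - 1 < n by omega) ⟨_, hdeg', ?_, h0'⟩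
    rwa [Polynomial.leadingCoeff, hdeg']

/-- A regular pair in the coefficient ring stays regular in a free algebra. -/
theorem regular_of_free {R : Type w} [CommRing R] [Algebra R A] [Module.Free R A] {p r : R}
    (hpr : ∀ c : R, p ∣ r * c → p ∣ c) (a : A)
    (h : algebraMap R A p ∣ algebraMap R A r * a) : algebraMap R A p ∣ a := by
  obtain ⟨b, hb⟩ := h
  set e := Module.Free.chooseBasis R A
  have hb' : r • a = p • b := by rw [Algebra.smul_def, Algebra.smul_def, hb]
  have hi : ∀ i, ∃ c, e.repr a i = p * c := fun i => by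
    have := congrArg (fun z => e.repr z i) hb'
    simp only [map_smul, Finsupp.smul_apply, smul_eq_mul] at this
    exact hpr _ ⟨_, this⟩
  choose c hc using hi
  refine ⟨∑ i ∈ (e.repr a).support, c i • e i, ?_⟩
  conv_lhs => rw [← e.linearCombination_repr a]
  rw [← Algebra.smul_def, Finset.smul_sum, Finsupp.linearCombination_apply, Finsupp.sum]
  exact Finset.sum_congr rfl fun i _ => by rw [smul_smul, ← hc]

/-- A ring finite over the polynomial ring in `x` and `y` is integral over their subalgebra. -/
theorem isIntegral_of_finite (f : MvPolynomial (Fin 2) k →ₐ[k] A) (hf : f.toRingHom.Finite)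
    (a : A) : IsIntegral (Algebra.adjoin k
      ({f (MvPolynomial.X 0), f (MvPolynomial.X 1)} : Set A)) a := by
  set S := Algebra.adjoin k ({f (MvPolynomial.X 0), f (MvPolynomial.X 1)} : Set A)
  have hmem : ∀ q, f q ∈ S := fun q => by
    induction q using MvPolynomial.induction_on with
    | C c => rw [← MvPolynomial.algebraMap_eq, f.commutes]; exact S.algebraMap_mem c
    | add q q' h h' => rw [map_add]; exact S.add_mem h h'
    | mul_X q i h =>
      rw [map_mul]
      refine S.mul_mem h (Algebra.subset_adjoin ?_)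
      fin_cases i <;> simp
  obtain ⟨q, hq, hq0⟩ := hf.to_isIntegral a
  refine ⟨q.map (f.toRingHom.codRestrict S hmem), hq.map _, ?_⟩
  rw [Polynomial.eval₂_map]
  exact hq0

section Free

variable [IsDomain A]

/-- The derivations are free on two of them when their minors contain a regular pair. -/
theorem exists_combination {x y : A}
    (hext : ∀ E : Derivation k A A, E x = 0 → E y = 0 → E = 0)
    {D₁ D₂ : Derivation k A A} (hΔ : D₁ x * D₂ y - D₁ y * D₂ x ≠ 0) {p r : A}
    (hp : p ∈ minorIdeal D₁ D₂) (hr : r ∈ minorIdeal D₁ D₂) (hp0 : p ≠ 0)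
    (hreg : ∀ a, p ∣ r * a → p ∣ a) (D : Derivation k A A) :
    ∃ s t : A, D = s • D₁ + t • D₂ := by
  set Δ := D₁ x * D₂ y - D₁ y * D₂ x with hΔdef
  have h₀ : ∀ w, Δ * D w =
      (D x * D₂ y - D y * D₂ x) * D₁ w + (D₁ x * D y - D₁ y * D x) * D₂ w := by
    have hE : Δ • D - (D x * D₂ y - D y * D₂ x) • D₁ - (D₁ x * D y - D₁ y * D x) • D₂ = 0 :=
      hext _ (by simp [hΔdef]; ring) (by simp [hΔdef]; ring)
    intro w
    have := congrArg (fun E : Derivation k A A => E w) hE
    simp only [Derivation.sub_apply, Derivation.smul_apply, smul_eq_mul,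
      Derivation.zero_apply] at this
    linear_combination this
  have hJ : ∀ m ∈ minorIdeal D₁ D₂, ∃ a b, ∀ w, m * D w = a * D₁ w + b * D₂ w := by
    intro m hm
    induction hm using Submodule.span_induction with
    | mem m hm =>
      obtain ⟨⟨u, v⟩, rfl⟩ := hm
      refine ⟨D u * D₂ v - D v * D₂ u, D₁ u * D v - D₁ v * D u, fun w => mul_left_cancel₀ hΔ ?_⟩
      linear_combination (D₁ u * D₂ v - D₁ v * D₂ u) * h₀ w
        - (D₁ w * D₂ v - D₁ v * D₂ w) * h₀ u + (D₁ w * D₂ u - D₁ u * D₂ w) * h₀ v
    | zero => exact ⟨0, 0, fun w => by simp⟩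
    | add m m' _ _ h h' =>
      obtain ⟨a, b, h⟩ := h
      obtain ⟨a', b', h'⟩ := h'
      exact ⟨a + a', b + b', fun w => by linear_combination h w + h' w⟩
    | smul c m _ h =>
      obtain ⟨a, b, h⟩ := h
      exact ⟨c * a, c * b, fun w => by rw [smul_eq_mul]; linear_combination c * h w⟩
  obtain ⟨a, b, hab⟩ := hJ p hp
  obtain ⟨a', b', hab'⟩ := hJ r hr
  have hz : ∀ w, (r * a - p * a') * D₁ w + (r * b - p * b') * D₂ w = 0 := fun w => by
    linear_combination -r * hab w + p * hab' w
  have ha : r * a = p * a' := by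
    have : (r * a - p * a') * Δ = 0 := by
      linear_combination D₂ y * hz x - D₂ x * hz y
    exact sub_eq_zero.1 ((mul_eq_zero.1 this).resolve_right hΔ)
  have hb : r * b = p * b' := by
    have : (r * b - p * b') * Δ = 0 := by
      linear_combination D₁ x * hz y - D₁ y * hz x
    exact sub_eq_zero.1 ((mul_eq_zero.1 this).resolve_right hΔ)
  obtain ⟨s, rfl⟩ := hreg a ⟨a', ha⟩
  obtain ⟨t, rfl⟩ := hreg b ⟨b', hb⟩
  refine ⟨s, t, Derivation.ext fun w => mul_left_cancel₀ hp0 ?_⟩
  simp only [Derivation.add_apply, Derivation.smul_apply, smul_eq_mul]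
  linear_combination hab w

/-- The module of derivations is free of rank two. -/
theorem free_of_minors {x y : A} (hext : ∀ E : Derivation k A A, E x = 0 → E y = 0 → E = 0)
    {D₁ D₂ : Derivation k A A} (hΔ : D₁ x * D₂ y - D₁ y * D₂ x ≠ 0) {p r : A}
    (hp : p ∈ minorIdeal D₁ D₂) (hr : r ∈ minorIdeal D₁ D₂) (hp0 : p ≠ 0)
    (hreg : ∀ a, p ∣ r * a → p ∣ a) : Module.Free A (Derivation k A A) := by
  let F : (A × A) →ₗ[A] Derivation k A A :=
    { toFun := fun c => c.1 • D₁ + c.2 • D₂
      map_add' := fun c d => by simp [add_smul]; abel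
      map_smul' := fun a c => by simp [smul_smul, smul_add] }
  refine Module.Free.of_equiv (LinearEquiv.ofBijective F ⟨?_, fun D => ?_⟩)
  · rw [← LinearMap.ker_eq_bot, LinearMap.ker_eq_bot']
    rintro ⟨a, b⟩ h
    have hx := congrArg (fun E : Derivation k A A => E x) h
    have hy := congrArg (fun E : Derivation k A A => E y) h
    simp only [F, LinearMap.coe_mk, AddHom.coe_mk, Derivation.add_apply, Derivation.smul_apply,
      smul_eq_mul, Derivation.zero_apply] at hx hy
    have ha : a * (D₁ x * D₂ y - D₁ y * D₂ x) = 0 := by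
      linear_combination D₂ y * hx - D₂ x * hy
    have hb : b * (D₁ x * D₂ y - D₁ y * D₂ x) = 0 := by
      linear_combination D₁ x * hy - D₁ y * hx
    exact Prod.ext ((mul_eq_zero.1 ha).resolve_right hΔ) ((mul_eq_zero.1 hb).resolve_right hΔ)
  · obtain ⟨s, t, h⟩ := exists_combination hext hΔ hp hr hp0 hreg D
    exact ⟨(s, t), h.symm⟩

end Free

/-- Derivations extend to a localisation. -/
theorem exists_derivation_away (D : Derivation k A A) (M : Submonoid A) (B : Type v) [CommRing B]
    [Algebra A B] [Algebra k B] [IsScalarTower k A B] [IsLocalization M B] :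
    ∃ D' : Derivation k B B, ∀ a, D' (algebraMap A B a) = algebraMap A B (D a) := by
  have : IsLocalizedModule M (KaehlerDifferential.map k k A B) :=
    KaehlerDifferential.isLocalizedModule_map k A B M
  have hb : IsBaseChange B (KaehlerDifferential.map k k A B) :=
    (isLocalizedModule_iff_isBaseChange M B _).1 inferInstance
  let φ : Ω[B⁄k] →ₗ[B] B := hb.lift ((Algebra.linearMap A B).comp D.liftKaehlerDifferential)
  refine ⟨φ.compDer (KaehlerDifferential.D k B), fun a => ?_⟩
  change φ (KaehlerDifferential.D k B (algebraMap A B a)) = _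
  rw [← KaehlerDifferential.map_D k k A B a, hb.lift_eq]
  simp

/-- A point with three independent tangent vectors on a ring of dimension at most two is
singular. -/
theorem not_regular_of_tangent {B : Type w} [CommRing B] [IsNoetherianRing B] {K : Type*}
    [Field K] (hdim : ringKrullDim B ≤ 2) (n : Ideal B) [n.IsPrime] (χ : B →+* K)
    (hχ : ∀ b, b ∈ n ↔ χ b = 0) (δ : Fin 3 → B →+ K)
    (hδ : ∀ i a b, δ i (a * b) = χ a * δ i b + χ b * δ i a) (w : Fin 3 → B)
    (hw : ∀ j, w j ∈ n) (hdiag : ∀ i j, δ i (w j) = if i = j then 1 else 0) :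
    ¬ IsRegularLocalRing (Localization.AtPrime n) := by
  classical
  intro h
  have hd : ringKrullDim (Localization.AtPrime n) ≤ 2 := by
    rw [IsLocalization.AtPrime.ringKrullDim_eq_height n (Localization.AtPrime n)]
    exact (Ideal.height_le_ringKrullDim_of_isPrime (I := n)).trans hdim
  rw [← h.spanFinrank_maximalIdeal] at hd
  set m := IsLocalRing.maximalIdeal (Localization.AtPrime n)
  have hfg : m.FG := IsNoetherian.noetherian m
  obtain ⟨s, hs, hspan⟩ := Submodule.FG.exists_span_finset_card_eq_spanFinrank hfg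
  have hcard : s.card ≤ 2 := by
    rw [← hs] at hd
    exact_mod_cast hd
  -- representatives of the generators in `B`
  have hrep : ∀ g ∈ s, ∃ e ∈ n, ∃ t, t ∉ n ∧
      algebraMap B (Localization.AtPrime n) t * g = algebraMap B _ e := by
    intro g hg
    obtain ⟨e, t, het⟩ := IsLocalization.exists_mk'_eq n.primeCompl g
    have hgm : g ∈ m := by rw [← hspan]; exact Submodule.subset_span hg
    rw [← het, IsLocalization.AtPrime.mk'_mem_maximal_iff (Localization.AtPrime n) n] at hgm
    exact ⟨e, hgm, t, t.2, by rw [← het, mul_comm, IsLocalization.mk'_spec]⟩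
  choose e hen t htn het using hrep
  have hcol : ∀ j, ∃ c : s → K, ∀ i, δ i (w j) = ∑ g : s, c g * δ i (e g.1 g.2) := by
    intro j
    have hwm : algebraMap B (Localization.AtPrime n) (w j) ∈ m :=
      (IsLocalization.AtPrime.to_map_mem_maximal_iff (Localization.AtPrime n) n (w j)).2 (hw j)
    rw [← hspan] at hwm
    obtain ⟨c, -, hc⟩ := Submodule.mem_span_finset.1 hwm
    -- clear the denominators
    set T : B := ∏ g : s, t g.1 g.2
    have hT : T ∉ n := fun hT => by
      obtain ⟨g, -, hg⟩ := (Ideal.IsPrime.prod_mem_iff).1 hT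
      exact htn g.1 g.2 hg
    have hmem : ∀ g : s, ∃ a : B, ∃ u, u ∉ n ∧
        algebraMap B (Localization.AtPrime n) u * c g.1 = algebraMap B _ a := by
      intro g
      obtain ⟨a, u, hau⟩ := IsLocalization.exists_mk'_eq n.primeCompl (c g.1)
      exact ⟨a, u, u.2, by rw [← hau, mul_comm, IsLocalization.mk'_spec]⟩
    choose a u hun hua using hmem
    set U : B := ∏ g : s, u g
    have hU : U ∉ n := fun hU => by
      obtain ⟨g, -, hg⟩ := (Ideal.IsPrime.prod_mem_iff).1 hU
      exact hun g hg
    set co : s → B := fun g =>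
      a g * (∏ g' ∈ Finset.univ.erase g, u g') * ∏ g' ∈ Finset.univ.erase g, t g'.1 g'.2
    have heq : algebraMap B (Localization.AtPrime n) (U * T * w j) =
        algebraMap B _ (∑ g : s, co g * e g.1 g.2) := by
      rw [map_mul, ← hc, map_sum, ← Finset.sum_coe_sort s, Finset.mul_sum]
      refine Finset.sum_congr rfl fun g _ => ?_
      rw [show U = u g * ∏ g' ∈ Finset.univ.erase g, u g' from
          (Finset.mul_prod_erase _ _ (Finset.mem_univ g)).symm,
        show T = t g.1 g.2 * ∏ g' ∈ Finset.univ.erase g, t g'.1 g'.2 from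
          (Finset.mul_prod_erase _ _ (Finset.mem_univ g)).symm]
      simp only [co, map_mul, smul_eq_mul]
      rw [← hua g, ← het g.1 g.2]
      ring
    obtain ⟨v, hv⟩ := (IsLocalization.eq_iff_exists n.primeCompl _).1 heq
    have hvn : χ (v : B) ≠ 0 := fun hv0 => v.2 ((hχ _).2 hv0)
    have hUT : χ (U * T) ≠ 0 := by
      rw [map_mul]
      exact mul_ne_zero (fun h0 => hU ((hχ _).2 h0)) fun h0 => hT ((hχ _).2 h0)
    refine ⟨fun g => χ (co g) / χ (U * T), fun i => ?_⟩
    have h1 := congrArg (δ i) hv
    rw [hδ, hδ i v (∑ g : s, co g * e g.1 g.2), map_sum χ, map_sum (δ i)] at h1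
    simp only [map_mul χ, hδ, (hχ _).1 (hw j), fun g : s => (hχ _).1 (hen g.1 g.2), mul_zero,
      zero_mul, add_zero, Finset.sum_const_zero] at h1
    rw [← map_mul χ U T] at h1
    have h2 := mul_left_cancel₀ hvn h1
    rw [show ∑ g : s, χ (co g) / χ (U * T) * δ i (e g.1 g.2) =
      (∑ g : s, χ (co g) * δ i (e g.1 g.2)) / χ (U * T) by
        rw [Finset.sum_div]; exact Finset.sum_congr rfl fun g _ => by ring]
    rw [← h2, mul_div_cancel_left₀ _ hUT]
  choose c hc using hcol
  let P : Matrix (Fin 3) s K := Matrix.of fun i g => δ i (e g.1 g.2)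
  let Q : Matrix s (Fin 3) K := Matrix.of fun g j => c j g
  have hPQ : P * Q = 1 := by
    ext i j
    rw [Matrix.mul_apply, Matrix.one_apply, ← hdiag i j, hc j i]
    exact Finset.sum_congr rfl fun g _ => mul_comm _ _
  have h1 := Matrix.rank_mul_le_left P Q
  rw [hPQ, Matrix.rank_one] at h1
  have h2 := P.rank_le_card_width
  simp only [Fintype.card_fin, Fintype.card_coe] at h1 h2
  omega

/-- The Lipman–Zariski conjecture fails as soon as such data exist. -/
theorem counterexample_of_data [CharZero k] [IsDomain A] [Algebra.FiniteType k A] {x y : A}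
    (hint : ∀ a : A, IsIntegral (Algebra.adjoin k ({x, y} : Set A)) a)
    {D₁ D₂ : Derivation k A A} (hΔ : D₁ x * D₂ y - D₁ y * D₂ x ≠ 0) {h p r : A}
    (hp : h * p ∈ minorIdeal D₁ D₂) (hr : h * r ∈ minorIdeal D₁ D₂) (hp0 : p ≠ 0)
    (hreg : ∀ a, p ∣ r * a → p ∣ a) (χ : A →ₐ[k] k) (hh : χ h ≠ 0) (δ : Fin 3 → A →+ k)
    (hδ : ∀ i a b, δ i (a * b) = χ a * δ i b + χ b * δ i a) (w : Fin 3 → A)
    (hw : ∀ j, χ (w j) = 0) (hdiag : ∀ i j, δ i (w j) = if i = j then 1 else 0) :
    ∃ (B : Type v) (_ : CommRing B) (_ : IsDomain B) (_ : Algebra k B),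
      Algebra.FiniteType k B ∧ Module.Free B (Derivation k B B) ∧
        ∃ (n : Ideal B) (_ : n.IsMaximal), ¬ IsRegularLocalRing (Localization.AtPrime n) := by
  have hh0 : h ≠ 0 := fun e => hh (by rw [e, map_zero])
  let B := Localization.Away h
  have hle : Submonoid.powers h ≤ nonZeroDivisors A := powers_le_nonZeroDivisors_of_noZeroDivisors hh0
  have : IsDomain B := IsLocalization.isDomain_of_le_nonZeroDivisors B hle
  have hinj : Function.Injective (algebraMap A B) := IsLocalization.injective B hle
  have hu : IsUnit (algebraMap A B h) :=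
    IsLocalization.map_units B (⟨h, Submonoid.mem_powers h⟩ : Submonoid.powers h)
  have : Algebra.FiniteType k B :=
    (‹Algebra.FiniteType k A›).trans (IsLocalization.finiteType_of_monoid_fg (Submonoid.powers h) B)
  have : CharZero B := charZero_of_injective_algebraMap (algebraMap k B).injective
  obtain ⟨E₁, hE₁⟩ := exists_derivation_away D₁ (Submonoid.powers h) B
  obtain ⟨E₂, hE₂⟩ := exists_derivation_away D₂ (Submonoid.powers h) B
  have hmin : ∀ m ∈ minorIdeal D₁ D₂, algebraMap A B m ∈ minorIdeal E₁ E₂ := by
    intro m hm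
    refine Submodule.span_induction ?_ ?_ ?_ ?_ hm
    · rintro _ ⟨⟨a, b⟩, rfl⟩
      exact Ideal.subset_span ⟨(algebraMap A B a, algebraMap A B b), by
        simp [hE₁, hE₂]⟩
    · simp
    · intro a b _ _ ha hb
      rw [map_add]; exact Ideal.add_mem _ ha hb
    · intro c m _ hm
      rw [smul_eq_mul, map_mul]; exact Ideal.mul_mem_left _ _ hm
  have hmem : ∀ m : A, h * m ∈ minorIdeal D₁ D₂ → algebraMap A B m ∈ minorIdeal E₁ E₂ := by
    intro m hm
    have := hmin _ hm
    rw [map_mul] at this
    exact (Ideal.unit_mul_mem_iff_mem _ hu).1 this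
  have hfree : Module.Free B (Derivation k B B) := by
    refine free_of_minors (x := algebraMap A B x) (y := algebraMap A B y) (fun E hEx hEy => ?_)
      (D₁ := E₁) (D₂ := E₂) ?_ (hmem p hp) (hmem r hr) ?_ ?_
    · have h1 : E.compAlgebraMap A = 0 :=
        derivation_eq_zero hinj hint (E.compAlgebraMap A) hEx hEy
      refine Derivation.ext fun b => ?_
      obtain ⟨⟨a, s⟩, hb⟩ := IsLocalization.surj (Submonoid.powers h) b
      have h2 : ∀ a, E (algebraMap A B a) = 0 := fun a => DFunLike.congr_fun h1 a
      have h3 := congrArg E hb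
      rw [Derivation.leibniz, h2, h2, smul_zero, zero_add, smul_eq_mul] at h3
      exact (mul_eq_zero.1 h3).resolve_left
        (IsLocalization.map_units B s).ne_zero
    · rw [hE₁, hE₁, hE₂, hE₂, ← map_mul, ← map_mul, ← map_sub]
      exact fun e => hΔ (hinj (by rw [e, map_zero]))
    · exact fun e => hp0 (hinj (by rw [e, map_zero]))
    · intro b hb
      obtain ⟨⟨a, s⟩, hs⟩ := IsLocalization.surj (Submonoid.powers h) b
      obtain ⟨c, hc⟩ := hb
      obtain ⟨⟨c', s'⟩, hs'⟩ := IsLocalization.surj (Submonoid.powers h) c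
      have e1 : algebraMap A B (r * a * s') = algebraMap A B (p * (c' * s)) := by
        simp only [map_mul]
        linear_combination (algebraMap A B s') * (algebraMap A B s) * hc
          - (algebraMap A B r) * (algebraMap A B s') * hs
          + (algebraMap A B p) * (algebraMap A B s) * hs'
      obtain ⟨d, hd⟩ := hreg (a * s') ⟨c' * s, by rw [← hinj e1, mul_assoc]⟩
      have hu1 := (IsLocalization.map_units B s).mul (IsLocalization.map_units B s')
      refine (hu1.dvd_mul_right).1 ⟨algebraMap A B d, ?_⟩
      have e2 := congrArg (algebraMap A B) hd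
      simp only [map_mul] at e2
      linear_combination e2 + (algebraMap A B s') * hs
  -- the singular point
  let χB : B →+* k := IsLocalization.lift (M := Submonoid.powers h) (g := χ.toRingHom) (fun s => by
    obtain ⟨_, l, rfl⟩ := s
    simpa using (isUnit_iff_ne_zero.2 hh).pow l)
  have hχB : ∀ a, χB (algebraMap A B a) = χ a := fun a => IsLocalization.lift_eq _ a
  let ψ : Fin 3 → A →+* DualNumber k := fun i =>
    { toFun := fun a => TrivSqZeroExt.inl (χ a) + TrivSqZeroExt.inr (δ i a)
      map_one' := by
        have h0 : δ i 1 = 0 := by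
          have := hδ i 1 1
          simp only [mul_one, map_one, one_mul] at this
          linear_combination -this
        ext <;> simp [h0]
      map_mul' := fun a b => by ext <;> simp [hδ, mul_comm]
      map_zero' := by ext <;> simp
      map_add' := fun a b => by ext <;> simp }
  have hψu : ∀ i (s : Submonoid.powers h), IsUnit (ψ i s) := fun i s => by
    obtain ⟨_, l, rfl⟩ := s
    rw [TrivSqZeroExt.isUnit_iff_isUnit_fst]
    simpa [ψ] using (isUnit_iff_ne_zero.2 hh).pow l
  let ψB : Fin 3 → B →+* DualNumber k := fun i => IsLocalization.lift (hψu i)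
  have hfst : ∀ i b, TrivSqZeroExt.fst (ψB i b) = χB b := fun i => by
    have : (TrivSqZeroExt.fstHom k k k).toRingHom.comp (ψB i) = χB :=
      IsLocalization.ringHom_ext (Submonoid.powers h) (RingHom.ext fun a => by
        simp [ψB, χB, ψ, IsLocalization.lift_eq])
    exact fun b => RingHom.congr_fun this b
  set n := RingHom.ker χB
  have hsurj : Function.Surjective χB := fun c =>
    ⟨algebraMap A B (algebraMap k A c), by rw [hχB, χ.commutes]; rfl⟩
  have hmax : n.IsMaximal := RingHom.ker_isMaximal_of_surjective χB hsurj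
  have : IsNoetherianRing B := Algebra.FiniteType.isNoetherianRing k B
  refine ⟨B, inferInstance, inferInstance, inferInstance, inferInstance, hfree, n, hmax, ?_⟩
  refine not_regular_of_tangent ?_ n χB (fun _ => Iff.rfl)
    (fun i => ((TrivSqZeroExt.sndHom k k).toAddMonoidHom).comp (ψB i).toAddMonoidHom) ?_
    (fun j => algebraMap A B (w j)) (fun j => ?_) ?_
  · let S := Algebra.adjoin k ({x, y} : Set A)
    have : Algebra.IsIntegral S A := ⟨hint⟩
    have hA : ringKrullDim A ≤ 2 := by
      refine (ringKrullDim_ge_of_integral (R := S) (S := A)).trans ?_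
      let f : MvPolynomial (Fin 2) k →ₐ[k] S := MvPolynomial.aeval
        ![⟨x, Algebra.subset_adjoin (by simp)⟩, ⟨y, Algebra.subset_adjoin (by simp)⟩]
      have hf : Function.Surjective f := by
        rintro ⟨z, hz⟩
        have : z ∈ (S.val.comp f).range := by
          refine Algebra.adjoin_le ?_ hz
          rintro _ (rfl | rfl)
          · exact ⟨MvPolynomial.X 0, by simp [f]⟩
          · exact ⟨MvPolynomial.X 1, by simp [f]⟩
        obtain ⟨q, hq⟩ := this
        exact ⟨q, Subtype.ext hq⟩
      refine (ringKrullDim_le_of_surjective f.toRingHom hf).trans ?_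
      simp [ringKrullDim_eq_zero_of_field]
    refine le_trans ?_ hA
    exact Order.krullDim_le_of_strictMono (PrimeSpectrum.comap (algebraMap A B))
      ((IsLocalization.orderEmbedding (Submonoid.powers h) B).strictMono.comp (fun _ _ h => h))
  · intro i a b
    show TrivSqZeroExt.snd (ψB i (a * b)) = _
    rw [map_mul]
    simp [hfst]
    ring
  · show χB (algebraMap A B (w j)) = 0
    rw [hχB, hw]
  · intro i j
    show TrivSqZeroExt.snd (ψB i (algebraMap A B (w j))) = _
    simp [ψB, IsLocalization.lift_eq, ψ, hdiag, apply_ite TrivSqZeroExt.snd]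

end Vale.Agent.P266.Criterion
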