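import Mathlib
import Vale.Agent.P266.SetupBase

/-! Descent from the invariants of a stabiliser to the invariants of the whole group, and
facts about invariant subrings. -/

open IsLocalRing

namespace Vale.Agent.P266

universe u v w

theorem exists_descend {A : Type v} [CommRing A] {G : Type w} [Group G] [Finite G]
    [MulSemiringAction G A] (n : Ideal A) [hn : n.IsMaximal] (a : A) (ha : a ∈ n)
    (hfix : ∀ g ∈ stab (G := G) n, g • a = a) (N : ℕ) :
    ∃ e t : A, e ∉ n ∧ (∀ g ∈ stab (G := G) n, g • e = e) ∧ t ∈ n ∧ (∀ g : G, g • t = t) ∧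
      (Nat.card (stab (G := G) n) : A) * (a * e) - t ∈ n ^ N := by
  classical
  haveI := Fintype.ofFinite G
  have hprime := hn.isPrime
  have hcx : ∀ g : G, ∃ c, g ∉ stab n → c ∉ n ∧ g • c ∈ n := by
    intro g
    by_cases hg : g ∈ stab n
    · exact ⟨0, fun h => absurd hg h⟩
    let f : A →+* A := MulSemiringAction.toRingHom G A g
    have hsurj : Function.Surjective f := fun y => ⟨g⁻¹ • y, smul_inv_smul g y⟩
    haveI hm : (n.comap f).IsMaximal := Ideal.comap_isMaximal_of_surjective f hsurj
    have hle : ¬ n.comap f ≤ n := by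
      intro hle
      have heq := hm.eq_of_le hn.ne_top hle
      apply hg
      intro b hb
      rw [← heq] at hb
      exact hb
    obtain ⟨c, hc1, hc2⟩ := SetLike.not_le_iff_exists.1 hle
    exact ⟨c, fun _ => ⟨hc2, hc1⟩⟩
  choose c hc using hcx
  let out : Finset G := Finset.univ.filter (fun g => g ∉ stab n)
  let c0 : A := ∏ g ∈ out, c g ^ (N + 1)
  have hc0 : c0 ∉ n := by
    intro h
    obtain ⟨g, hg, hgn⟩ := hprime.prod_mem_iff.1 h
    exact (hc g (Finset.mem_filter.1 hg).2).1 (hprime.mem_of_pow_mem (N + 1) hgn)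
  let e : A := ∏ h : stab (G := G) n, (h : G) • c0
  have he : e ∉ n := by
    intro h
    obtain ⟨g, -, hgn⟩ := hprime.prod_mem_iff.1 h
    exact hc0 ((smul_mem_iff_of_mem_stab g.2 c0).1 hgn)
  have hefix : ∀ g ∈ stab (G := G) n, g • e = e := by
    intro g hg
    simp only [e, Finset.smul_prod', smul_smul]
    exact Fintype.prod_equiv (Equiv.mulLeft (⟨g, hg⟩ : stab (G := G) n)) _ _ (fun _ => rfl)
  have hout : ∀ g : G, g ∉ stab n → g • e ∈ n ^ N := by
    intro g hg
    have hmem : g ∈ out := Finset.mem_filter.2 ⟨Finset.mem_univ _, hg⟩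
    simp only [e]
    rw [← Finset.mul_prod_erase Finset.univ _ (Finset.mem_univ (1 : stab (G := G) n)),
      OneMemClass.coe_one, one_smul, smul_mul']
    refine Ideal.mul_mem_right _ _ ?_
    simp only [c0]
    rw [← Finset.mul_prod_erase out _ hmem, smul_mul', smul_pow']
    exact Ideal.mul_mem_right _ _ (Ideal.pow_le_pow_right (Nat.le_succ N) (Ideal.pow_mem_pow (hc g hg).2 (N + 1)))
  let t : A := ∑ g : G, g • (a * e)
  have hsplit : t = (Nat.card (stab (G := G) n) : A) * (a * e)
      + ∑ g ∈ out, g • (a * e) := by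
    simp only [t, out]
    rw [← Finset.sum_filter_add_sum_filter_not Finset.univ (fun g => g ∈ stab n)]
    congr 1
    rw [Finset.sum_congr rfl (fun g hg => ?_)]
    · rw [Finset.sum_const, nsmul_eq_mul]
      congr 2
      rw [Nat.card_eq_fintype_card, Fintype.card_subtype]
    · rw [smul_mul', hfix g (Finset.mem_filter.1 hg).2, hefix g (Finset.mem_filter.1 hg).2]
  have houtN : ∀ g ∈ out, g • (a * e) ∈ n ^ N := fun g hg => by
    rw [smul_mul']
    exact Ideal.mul_mem_left _ _ (hout g (Finset.mem_filter.1 hg).2)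
  refine ⟨e, t, he, hefix, ?_, ?_, ?_⟩
  · rw [hsplit]
    refine n.add_mem (n.mul_mem_left _ (n.mul_mem_right _ ha)) (n.sum_mem (fun g hg => ?_))
    rw [smul_mul']
    -- `g • e ∈ n` for `g` outside the stabiliser
    have hg' := (Finset.mem_filter.1 hg).2
    refine n.mul_mem_left _ ?_
    simp only [e]
    rw [← Finset.mul_prod_erase Finset.univ _ (Finset.mem_univ (1 : stab (G := G) n)),
      OneMemClass.coe_one, one_smul, smul_mul']
    refine n.mul_mem_right _ ?_
    simp only [c0]
    rw [← Finset.mul_prod_erase out _ hg, smul_mul', smul_pow']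
    exact n.mul_mem_right _ (Ideal.pow_mem_of_mem _ (hc g hg').2 _ (Nat.succ_pos N))
  · intro g
    simp only [t, Finset.smul_sum, smul_smul]
    exact Fintype.sum_equiv (Equiv.mulLeft g) _ _ (fun _ => rfl)
  · rw [hsplit, sub_add_cancel_left]
    exact neg_mem (Ideal.sum_mem _ houtN)

end Vale.Agent.P266
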