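import Mathlib
import Vale.Agent.P266.Coordinates

/-! An eigenbasis of the derivations of the local ring. -/

open IsLocalRing

namespace Vale.Agent.P266

universe u v w

section
variable {k : Type u} [Field k] {A : Type v} [CommRing A] [IsDomain A] [Algebra k A]

/-- The unique extension of derivations to the fraction field, as an `A`-linear map. -/
noncomputable def extDer :
    Derivation k A A →ₗ[A] Derivation k (FractionRing A) (FractionRing A) where
  toFun D := (exists_derivation_extend D).choose
  map_add' D D' := derivation_ext_of_base _ _ (fun a => by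
    rw [Derivation.add_apply, (exists_derivation_extend (D + D')).choose_spec,
      (exists_derivation_extend D).choose_spec, (exists_derivation_extend D').choose_spec,
      Derivation.add_apply, map_add])
  map_smul' c D := derivation_ext_of_base _ _ (fun a => by
    rw [RingHom.id_apply, Derivation.smul_apply, (exists_derivation_extend (c • D)).choose_spec,
      (exists_derivation_extend D).choose_spec, Derivation.smul_apply, smul_eq_mul, map_mul,
      Algebra.smul_def])

theorem extDer_algebraMap (D : Derivation k A A) (a : A) :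
    extDer D (algebraMap A _ a) = algebraMap A (FractionRing A) (D a) :=
  (exists_derivation_extend D).choose_spec a

theorem extDer_mem_locS (n : Ideal A) [n.IsPrime] (D : Derivation k A A) (y : FractionRing A)
    (hy : y ∈ locS (k := k) n) : extDer D y ∈ locS (k := k) n := by
  obtain ⟨a, b, hb, h⟩ := hy
  have h1 := congrArg (extDer D) h
  simp only [Derivation.leibniz, smul_eq_mul, extDer_algebraMap] at h1
  have h2 : extDer D y = (algebraMap A (FractionRing A) b)⁻¹
      * (algebraMap A (FractionRing A) (D a) - y * algebraMap A (FractionRing A) (D b)) := by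
    rw [← h1, add_sub_cancel_left, inv_mul_cancel_left₀ (algebraMap_ne_zero_of_notMem hb)]
  rw [h2]
  exact mul_mem (inv_mem_locS hb) (sub_mem (algebraMap_mem_locS _)
    (mul_mem ⟨a, b, hb, h⟩ (algebraMap_mem_locS _)))

end

variable {k : Type u} [Field k] [CharZero k] [IsAlgClosed k] {A : Type v} [CommRing A] [IsDomain A]
  [Algebra k A] [Algebra.FiniteType k A]
  {H : Type w} [CommGroup H] [Fintype H] [MulSemiringAction H A] [SMulCommClass H k A]
  [MulSemiringAction H (FractionRing A)] [SMulCommClass H k (FractionRing A)]
  {n : Ideal A} [n.IsMaximal]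

omit [CharZero k] [IsAlgClosed k] [IsDomain A] in
theorem finite_derivation : Module.Finite A (Derivation k A A) := by
  haveI : IsNoetherianRing A := Algebra.FiniteType.isNoetherianRing k A
  obtain ⟨s, hs⟩ := Algebra.FiniteType.out (R := k) (A := A)
  let ev : Derivation k A A →ₗ[A] ((↑s : Set A) → A) :=
    { toFun := fun D a => D a
      map_add' := fun _ _ => rfl
      map_smul' := fun _ _ => rfl }
  refine Module.Finite.of_injective ev (fun D D' h => ?_)
  exact Derivation.ext_of_adjoin_eq_top (↑s : Set A) hs (fun a ha => congrFun h ⟨a, ha⟩)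

omit [CharZero k] [IsAlgClosed k] in
theorem exists_basis_derivations (n : Ideal A) [n.IsMaximal]
    [Module.Free (Localization.AtPrime n) (LocalizedModule n.primeCompl (Derivation k A A))] :
    ∃ (N : ℕ) (D₀ : Fin N → Derivation k (FractionRing A) (FractionRing A)),
      (∀ i, ∀ y ∈ locS (k := k) n, D₀ i y ∈ locS (k := k) n) ∧
      (∀ D : Derivation k (FractionRing A) (FractionRing A),
        (∀ y ∈ locS (k := k) n, D y ∈ locS (k := k) n) →
        ∃ c : Fin N → locS (k := k) n, ∀ y, D y = ∑ i, (c i : FractionRing A) * D₀ i y) ∧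
      (∀ c : Fin N → FractionRing A, (∀ i, c i ∈ locS (k := k) n) →
        (∀ y, ∑ i, c i * D₀ i y = 0) → ∀ i, c i = 0) := by
  classical
  let K := FractionRing A
  let Λ := Localization.AtPrime n
  let S := locS (k := k) n
  have hne : ∀ s : n.primeCompl, algebraMap A K (s : A) ≠ 0 := fun s =>
    algebraMap_ne_zero_of_notMem s.2
  have hunits : ∀ s : n.primeCompl,
      IsUnit (algebraMap A (Module.End A (Derivation k K K)) (s : A)) := by
    intro s
    refine (Module.End.isUnit_iff _).2 ⟨fun D D' h => ?_, fun D => ?_⟩
    · ext y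
      have := congrArg (fun E : Derivation k K K => E y) h
      simp only [Module.algebraMap_end_apply, Derivation.smul_apply, Algebra.smul_def] at this
      exact mul_left_cancel₀ (hne s) this
    · refine ⟨(algebraMap A K (s : A))⁻¹ • D, ?_⟩
      ext y
      simp only [Module.algebraMap_end_apply, Derivation.smul_apply, Algebra.smul_def]
      exact mul_inv_cancel_left₀ (hne s) _
  let L : LocalizedModule n.primeCompl (Derivation k A A) →ₗ[A] Derivation k K K :=
    LocalizedModule.lift n.primeCompl extDer hunits
  have hL : ∀ m (s : n.primeCompl) (y : K),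
      algebraMap A K (s : A) * L (LocalizedModule.mk m s) y = extDer m y := by
    intro m s y
    have h1 : (s : A) • L (LocalizedModule.mk m s) = extDer m := by
      rw [← LinearMap.map_smul, LocalizedModule.smul'_mk]
      have h2 : LocalizedModule.mk ((s : A) • m) s = LocalizedModule.mk m 1 := by
        rw [LocalizedModule.mk_eq]
        exact ⟨1, by simp [Submonoid.smul_def]⟩
      rw [h2, LocalizedModule.lift_mk]
      simp
    rw [← h1, Derivation.smul_apply, Algebra.smul_def]
  have hLinj : ∀ z, L z = 0 → z = 0 := by
    intro z hz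
    induction z using LocalizedModule.induction_on with
    | h m s =>
      have h0 : m = 0 := by
        ext a
        have h1 := hL m s (algebraMap A K a)
        rw [hz, Derivation.zero_apply, mul_zero, extDer_algebraMap] at h1
        exact (map_eq_zero_iff _ (IsFractionRing.injective A K)).1 h1.symm
      rw [h0, LocalizedModule.zero_mk]
  let ψ : Λ →+* K := IsLocalization.lift (M := n.primeCompl) (g := algebraMap A K)
    (fun s => isUnit_iff_ne_zero.2 (hne s))
  have hψ : ∀ a : A, ψ (algebraMap A Λ a) = algebraMap A K a := fun a => IsLocalization.lift_eq _ a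
  have hψS : ∀ c, ψ c ∈ S := by
    intro c
    obtain ⟨⟨a, b⟩, h⟩ := IsLocalization.surj n.primeCompl c
    have h1 := congrArg ψ h
    rw [map_mul, hψ, hψ] at h1
    exact ⟨a, b, b.2, h1⟩
  have hψsurj : ∀ y ∈ S, ∃ c, ψ c = y := by
    rintro y ⟨a, b, hb, h⟩
    refine ⟨IsLocalization.mk' Λ a (⟨b, hb⟩ : n.primeCompl), mul_right_cancel₀ (hne ⟨b, hb⟩) ?_⟩
    rw [← hψ b, ← map_mul, IsLocalization.mk'_spec Λ a (⟨b, hb⟩ : n.primeCompl), hψ, hψ, h]
  have hψinj : ∀ c, ψ c = 0 → c = 0 := by
    intro c hc
    obtain ⟨⟨a, b⟩, h⟩ := IsLocalization.surj n.primeCompl c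
    have h1 := congrArg ψ h
    rw [map_mul, hc, zero_mul, hψ] at h1
    rw [(map_eq_zero_iff _ (IsFractionRing.injective A K)).1 h1.symm, map_zero] at h
    exact (IsLocalization.map_units Λ b).mul_left_eq_zero.1 h
  have hLsmul : ∀ (c : Λ) z (y : K), L (c • z) y = ψ c * L z y := by
    intro c z y
    obtain ⟨⟨a, b⟩, h⟩ := IsLocalization.surj n.primeCompl c
    have h1 : (b : A) • (c • z) = a • z := by
      rw [← algebraMap_smul Λ (b : A) (c • z), smul_smul, mul_comm, h, algebraMap_smul]
    have h2 := congrArg (fun w => L w y) h1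
    simp only [LinearMap.map_smul, Derivation.smul_apply, Algebra.smul_def] at h2
    have h3 := congrArg ψ h
    rw [map_mul, hψ, hψ] at h3
    refine mul_left_cancel₀ (hne b) ?_
    rw [h2, ← h3]; ring
  haveI : Module.Finite A (Derivation k A A) := finite_derivation
  haveI : Module.Finite Λ (LocalizedModule n.primeCompl (Derivation k A A)) :=
    Module.Finite.of_isLocalizedModule n.primeCompl
      (LocalizedModule.mkLinearMap n.primeCompl (Derivation k A A))
  let bb := Module.Free.chooseBasis Λ (LocalizedModule n.primeCompl (Derivation k A A))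
  let ι := Module.Free.ChooseBasisIndex Λ (LocalizedModule n.primeCompl (Derivation k A A))
  haveI : Finite ι := Module.Finite.finite_basis bb
  letI : Fintype ι := Fintype.ofFinite ι
  let Dι : ι → Derivation k K K := fun i => L (bb i)
  have hDι : ∀ i, ∀ y ∈ S, Dι i y ∈ S := by
    intro i y hy
    simp only [Dι]
    induction bb i using LocalizedModule.induction_on with
    | h m s =>
      have h1 := hL m s y
      have h2 : L (LocalizedModule.mk m s) y = (algebraMap A K (s : A))⁻¹ * extDer m y := by
        rw [← h1, inv_mul_cancel_left₀ (hne s)]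
      rw [h2]
      exact mul_mem (inv_mem_locS s.2) (extDer_mem_locS n m y hy)
  have hDind : ∀ c : ι → K, (∀ i, c i ∈ S) → (∀ y, ∑ i, c i * Dι i y = 0) → ∀ i, c i = 0 := by
    intro c hc h0
    choose l hl using fun i => hψsurj (c i) (hc i)
    have h1 : ∑ i, l i • bb i = 0 := hLinj _ (by
      ext y
      rw [Derivation.zero_apply, map_sum, ← Derivation.coeFnAddMonoidHom_apply, map_sum,
        Finset.sum_apply, ← h0 y]
      refine Finset.sum_congr rfl (fun i _ => ?_)
      change L (l i • bb i) y = _
      rw [hLsmul, hl])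
    intro i
    rw [← hl i, Fintype.linearIndependent_iff.1 bb.linearIndependent l h1 i, map_zero]
  have hDspan : ∀ D : Derivation k K K, (∀ y ∈ S, D y ∈ S) →
      ∃ c : ι → S, ∀ y, D y = ∑ i, (c i : K) * Dι i y := by
    intro D hD
    obtain ⟨s, hs⟩ := Algebra.FiniteType.out (R := k) (A := A)
    choose α β hβ hαβ using fun a => hD _ (algebraMap_mem_locS (k := k) (n := n) a)
    let B : A := ∏ a ∈ s, β a
    have hBn : B ∉ n := fun h => by
      obtain ⟨a, -, ha⟩ := (Ideal.IsMaximal.isPrime ‹_›).prod_mem_iff.1 h
      exact hβ a ha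
    have hB : ∀ a, ∃ a', algebraMap A K B * D (algebraMap A K a) = algebraMap A K a' := by
      intro a
      have ha : a ∈ Algebra.adjoin k (↑s : Set A) := hs ▸ Algebra.mem_top
      induction ha using Algebra.adjoin_induction with
      | mem a ha =>
        refine ⟨(∏ x ∈ s.erase a, β x) * α a, ?_⟩
        simp only [B]
        rw [← Finset.mul_prod_erase s β (Finset.mem_coe.1 ha), map_mul, map_mul, ← hαβ a]
        ring
      | algebraMap c =>
        exact ⟨0, by rw [← IsScalarTower.algebraMap_apply, Derivation.map_algebraMap, mul_zero,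
          map_zero]⟩
      | add a b _ _ ha hb =>
        obtain ⟨a', ha'⟩ := ha
        obtain ⟨b', hb'⟩ := hb
        exact ⟨a' + b', by rw [map_add, map_add, map_add, mul_add, ha', hb']⟩
      | mul a b _ _ ha hb =>
        obtain ⟨a', ha'⟩ := ha
        obtain ⟨b', hb'⟩ := hb
        refine ⟨a * b' + b * a', ?_⟩
        rw [map_mul, Derivation.leibniz, map_add, map_mul, map_mul, ← ha', ← hb', smul_eq_mul,
          smul_eq_mul]
        ring
    choose DA hDA using hB
    have hinj := IsFractionRing.injective A K
    let DA' : Derivation k A A := Derivation.mk'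
      { toFun := DA
        map_add' := fun a b => hinj (by simp only [map_add, ← hDA, mul_add])
        map_smul' := fun c a => hinj (by
          rw [RingHom.id_apply, Algebra.smul_def, Algebra.smul_def, map_mul, ← hDA, ← hDA, map_mul,
            ← IsScalarTower.algebraMap_apply, Derivation.leibniz, Derivation.map_algebraMap,
            smul_zero, add_zero, smul_eq_mul]
          ring) }
      (fun a b => hinj (by
        change algebraMap A K (DA (a * b)) = algebraMap A K (a * DA b + b * DA a)
        simp only [map_add, map_mul, ← hDA, Derivation.leibniz, smul_eq_mul]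
        ring))
    have hext : extDer DA' = algebraMap A K B • D := derivation_ext_of_base _ _ (fun a => by
      rw [extDer_algebraMap, Derivation.smul_apply, smul_eq_mul]
      exact (hDA a).symm)
    let z := LocalizedModule.mk DA' (1 : n.primeCompl)
    refine ⟨fun i => ⟨ψ (bb.repr z i) * (algebraMap A K B)⁻¹,
      mul_mem (hψS _) (inv_mem_locS hBn)⟩, fun y => ?_⟩
    have h1 : extDer DA' y = ∑ i, ψ (bb.repr z i) * Dι i y := by
      rw [← hL DA' 1 y, OneMemClass.coe_one, map_one, one_mul]
      conv_lhs => rw [show LocalizedModule.mk DA' (1 : n.primeCompl) = z from rfl, ← bb.sum_repr z]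
      rw [map_sum, ← Derivation.coeFnAddMonoidHom_apply, map_sum, Finset.sum_apply]
      exact Finset.sum_congr rfl (fun i _ => hLsmul _ _ y)
    rw [hext, Derivation.smul_apply, smul_eq_mul] at h1
    have hB0 := algebraMap_ne_zero_of_notMem (A := A) hBn
    rw [← inv_mul_cancel_left₀ hB0 (D y), h1, Finset.mul_sum]
    refine Finset.sum_congr rfl (fun i _ => ?_)
    change _ = ψ (bb.repr z i) * (algebraMap A K B)⁻¹ * Dι i y
    ring
  let e := Fintype.equivFin ι
  refine ⟨Fintype.card ι, fun i => Dι (e.symm i), fun i => hDι _, fun D hD => ?_,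
    fun c hc h0 i => ?_⟩
  · obtain ⟨c, hc⟩ := hDspan D hD
    refine ⟨fun i => c (e.symm i), fun y => ?_⟩
    rw [hc y, ← Equiv.sum_comp e.symm]
  · have := hDind (fun j => c (e j)) (fun j => hc _) (fun y => by
      rw [← h0 y, ← Equiv.sum_comp e (fun i => c i * Dι (e.symm i) y)]
      simp) (e.symm i)
    simpa using this

theorem exists_eigenbasis (hF : Fixes H n)
    [Module.Free (Localization.AtPrime n) (LocalizedModule n.primeCompl (Derivation k A A))] :
    ∃ (N : ℕ) (v : Fin N → Derivation k (FractionRing A) (FractionRing A))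
      (chi : Fin N → H → k),
      (∀ i, ∀ y ∈ locS (k := k) n, v i y ∈ locS (k := k) n) ∧
      (∀ i h y, h • v i y = algebraMap k (FractionRing A) (chi i h) * v i (h • y)) ∧
      (∀ D : Derivation k (FractionRing A) (FractionRing A),
        (∀ y ∈ locS (k := k) n, D y ∈ locS (k := k) n) →
        ∃ c : Fin N → FractionRing A, (∀ i, c i ∈ locS (k := k) n) ∧ ∀ y, D y = ∑ i, c i * v i y) ∧
      (∀ c : Fin N → FractionRing A, (∀ i, c i ∈ locS (k := k) n) →
        (∀ y, ∑ i, c i * v i y = 0) → ∀ i, c i = 0) := by
  classical
  let K := FractionRing A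
  let S := locS (k := k) n
  obtain ⟨N₀, Dι, hDι, hDspan, hDind⟩ := exists_basis_derivations (k := k) n
  let ι := Fin N₀
  -- residues
  let resE : k →+* ResidueField S := (IsLocalRing.residue S).comp (algebraMap k S)
  have hresE : Function.Bijective resE := ⟨resE.injective, fun z => by
    obtain ⟨s, rfl⟩ := Ideal.Quotient.mk_surjective z
    obtain ⟨c, hc⟩ := locS_residue (k := k) n s
    exact ⟨c, ((Ideal.Quotient.eq).2 hc).symm⟩⟩
  let res : S →+* k := (RingEquiv.ofBijective resE hresE).symm.toRingHom.comp (IsLocalRing.residue S)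
  have hresc : ∀ c : k, res (algebraMap k S c) = c := fun c =>
    (RingEquiv.ofBijective resE hresE).symm_apply_apply c
  have hresu : ∀ s : S, res s ≠ 0 → IsUnit s := fun s hs => by
    by_contra hu
    apply hs
    have : IsLocalRing.residue S s = 0 := Ideal.Quotient.eq_zero_iff_mem.2 hu
    simp [res, this]
  let P : Submodule k (Derivation k K K) :=
    { carrier := {D | ∀ y ∈ S, D y ∈ S}
      add_mem' := fun {D D'} h h' y hy => S.add_mem (h y hy) (h' y hy)
      zero_mem' := fun y hy => S.zero_mem
      smul_mem' := fun c D h y hy => S.smul_mem (h y hy) c }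
  choose coef hcoef using fun D : P => hDspan D.1 D.2
  have huniq : ∀ (D : P) (c : ι → S), (∀ y, (D : Derivation k K K) y = ∑ i, (c i : K) * Dι i y) →
      ∀ i, coef D i = c i := by
    intro D c h i
    have := hDind (fun i => (coef D i : K) - (c i : K)) (fun i => sub_mem (coef D i).2 (c i).2)
      (fun y => by simp only [sub_mul, Finset.sum_sub_distrib, ← hcoef D y]; rw [← h y, sub_self]) i
    exact Subtype.ext (sub_eq_zero.1 this)
  let Φ : P →ₗ[k] (ι → k) :=
    { toFun := fun D i => res (coef D i)
      map_add' := fun D D' => funext fun i => by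
        rw [huniq (D + D') (fun i => coef D i + coef D' i) (fun y => by
          change (D : Derivation k K K) y + (D' : Derivation k K K) y = _
          simp only [AddMemClass.coe_add, add_mul, Finset.sum_add_distrib]
          rw [hcoef D y, hcoef D' y]) i]
        exact map_add res _ _
      map_smul' := fun c D => funext fun i => by
        rw [huniq (c • D) (fun i => algebraMap k S c * coef D i) (fun y => by
          change c • (D : Derivation k K K) y = _
          rw [Algebra.smul_def, hcoef D y, Finset.mul_sum]
          exact Finset.sum_congr rfl (fun i _ => (mul_assoc _ _ _).symm)) i]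
        rw [map_mul, hresc]
        rfl }
  have hΦ : ∀ i, Φ ⟨Dι i, hDι i⟩ = Pi.single i 1 := by
    intro i
    funext j
    change res (coef ⟨Dι i, hDι i⟩ j) = _
    rw [huniq ⟨Dι i, hDι i⟩ (fun j => if j = i then 1 else 0) (fun y => by
      simp only [apply_ite Subtype.val, OneMemClass.coe_one, ZeroMemClass.coe_zero, ite_mul,
        one_mul, zero_mul]
      simp [ι]) j]
    rw [Pi.single_apply]
    split_ifs <;> simp
  let ρ : H →* Module.End k (Derivation k K K) :=
    { toFun := fun h =>
        { toFun := fun D => Derivation.mk'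
            ((DistribSMul.toLinearMap k K h).comp
              ((D : K →ₗ[k] K).comp (DistribSMul.toLinearMap k K h⁻¹)))
            (fun a b => by
              simp [smul_mul', smul_add, Derivation.leibniz])
          map_add' := fun D D' => by ext y; simp [smul_add]
          map_smul' := fun c D => by ext y; simp [smul_comm h c] }
      map_one' := by ext D y; simp
      map_mul' := fun g h => by ext D y; simp [← mul_smul, mul_comm g h, mul_comm g⁻¹ h⁻¹] }
  have hρ : ∀ h (D : Derivation k K K) y, ρ h D y = h • D (h⁻¹ • y) := fun _ _ _ => rfl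
  have hPρ : ∀ h, ∀ D ∈ P, ρ h D ∈ P := fun h D hD y hy =>
    hF.smul_mem_locS (k := k) h _ (hD _ (hF.smul_mem_locS (k := k) h⁻¹ y hy))
  let E : Set P := {D | ∃ χ : H → k, ∀ h, ρ h (D : Derivation k K K) = χ h • (D : Derivation k K K)}
  have hEspan : (⊤ : Submodule k (ι → k)) ≤ Submodule.span k (Φ '' E) := by
    have hE : (⊤ : Submodule k P) ≤ Submodule.span k E := by
      intro D _
      have h1 := mem_span_eigen ρ P hPρ D.1 D.2
      have h2 : Submodule.span k {y | y ∈ P ∧ ∃ χ : H → k, ∀ h, ρ h y = χ h • y}
          = (Submodule.span k E).map P.subtype := by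
        rw [Submodule.map_span]
        congr 1
        ext y
        exact ⟨fun ⟨hy, hχ⟩ => ⟨⟨y, hy⟩, hχ, rfl⟩, fun ⟨⟨y, hy⟩, hχ, hyy⟩ => hyy ▸ ⟨hy, hχ⟩⟩
      rw [h2] at h1
      obtain ⟨D', hD', hDD⟩ := h1
      rwa [show D = D' from Subtype.ext hDD.symm]
    rw [← Submodule.map_span]
    intro w _
    refine ⟨∑ i, w i • (⟨Dι i, hDι i⟩ : P), hE Submodule.mem_top, ?_⟩
    rw [map_sum]
    simp only [LinearMap.map_smul, hΦ]
    exact (pi_eq_sum_univ' w).symm
  obtain ⟨T, hTsub, hTspan, hTli⟩ := exists_linearIndependent k (Φ '' E)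
  have hTtop : ⊤ ≤ Submodule.span k (Set.range (Subtype.val : T → (ι → k))) := by
    rw [Subtype.range_coe, hTspan]; exact hEspan
  let BT := Module.Basis.mk hTli hTtop
  let eT : T ≃ ι := BT.indexEquiv (Pi.basisFun k ι)
  have hvT : ∀ i : ι, ∃ D : P, D ∈ E ∧ Φ D = (eT.symm i : ι → k) := fun i =>
    hTsub (eT.symm i).2
  choose v hvE hvΦ using hvT
  choose chi hchi using hvE
  let M : Matrix ι ι S := Matrix.of (fun i j => coef (v i) j)
  have hMdet : IsUnit M.det := by
    refine hresu _ (fun h0 => ?_)
    rw [RingHom.map_det] at h0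
    have hrows : LinearIndependent k (res.mapMatrix M).row := by
      have : (res.mapMatrix M).row = fun i => (eT.symm i : ι → k) := by
        funext i; rw [← hvΦ]; rfl
      rw [this]
      exact hTli.comp _ eT.symm.injective
    have := Matrix.linearIndependent_rows_iff_isUnit.1 hrows
    rw [Matrix.isUnit_iff_isUnit_det, h0] at this
    exact not_isUnit_zero this
  let Q := M⁻¹
  have hQM : Q * M = 1 := Matrix.nonsing_inv_mul M hMdet
  have hMQ : M * Q = 1 := Matrix.mul_nonsing_inv M hMdet
  let e := Fintype.equivFin ι
  refine ⟨Fintype.card ι, fun i => (v (e.symm i) : Derivation k K K), fun i => chi (e.symm i),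
    fun i => (v (e.symm i)).2, fun i h y => ?_, fun D hD => ?_, fun c hc h0 i => ?_⟩
  · have := congrArg (fun D : Derivation k K K => D (h • y)) (hchi (e.symm i) h)
    simp only [hρ, inv_smul_smul, Derivation.smul_apply, Algebra.smul_def] at this
    exact this
  · refine ⟨fun i => ((∑ j, coef ⟨D, hD⟩ j * Q j (e.symm i) : S) : K), fun i => Subtype.coe_prop _,
      fun y => ?_⟩
    have h1 : ∀ a b, ∑ i, (Q a i : K) * (coef (v i) b : K) = if a = b then 1 else 0 := by
      intro a b
      have := congrArg (fun R : Matrix ι ι S => ((R a b : S) : K)) hQM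
      simp only [Matrix.mul_apply, Matrix.one_apply, M, Matrix.of_apply] at this
      rw [apply_ite Subtype.val] at this
      push_cast at this
      exact this
    have h3 : ∀ a, Dι a y = ∑ i, (Q a i : K) * (v i : Derivation k K K) y := by
      intro a
      calc Dι a y = ∑ b, (∑ i, (Q a i : K) * (coef (v i) b : K)) * Dι b y := by simp [h1]
        _ = _ := by
          simp only [hcoef, Finset.sum_mul, Finset.mul_sum]
          rw [Finset.sum_comm]
          exact Finset.sum_congr rfl (fun i _ => Finset.sum_congr rfl (fun b _ => mul_assoc _ _ _))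
    change D y = _
    rw [show D y = _ from hcoef ⟨D, hD⟩ y, ← Equiv.sum_comp e]
    simp only [Equiv.symm_apply_apply, h3, Finset.mul_sum, AddSubmonoidClass.coe_finsetSum,
      MulMemClass.coe_mul, Finset.sum_mul]
    rw [Finset.sum_comm]
    exact Finset.sum_congr rfl (fun i _ => Finset.sum_congr rfl (fun b _ => (mul_assoc _ _ _).symm))
  · let c' : ι → S := fun j => ⟨c (e j), hc _⟩
    have h1 : ∀ b, ∑ j, c' j * M j b = 0 := by
      intro b
      apply Subtype.ext
      push_cast
      refine hDind (fun b => ∑ j, (c' j : K) * (M j b : K))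
        (fun b => Subalgebra.sum_mem _ (fun j _ => mul_mem (c' j).2 (M j b).2)) (fun y => ?_) b
      rw [← h0 y, ← Equiv.sum_comp e (fun i => c i * (v (e.symm i) : Derivation k K K) y)]
      simp only [Equiv.symm_apply_apply, hcoef, Finset.mul_sum, Finset.sum_mul, M, Matrix.of_apply,
        c']
      rw [Finset.sum_comm]
      exact Finset.sum_congr rfl (fun j _ => Finset.sum_congr rfl (fun b _ => mul_assoc _ _ _))
    have h2 : Matrix.vecMul c' M = 0 := funext h1
    have h3 := congrArg (fun w => Matrix.vecMul w Q) h2
    simp only [Matrix.vecMul_vecMul, hMQ, Matrix.vecMul_one, Matrix.zero_vecMul] at h3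
    simpa [c'] using congrArg Subtype.val (congrFun h3 (e.symm i))

end Vale.Agent.P266
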