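import Mathlib
import Vale.Agent.P266.Core3
import Vale.Agent.P266.FreeDer
import Vale.Agent.P266.Descent

/-! Lipman–Zariski for abelian covers of a regular base: assembly. -/

open IsLocalRing

namespace Vale.Agent.P266

universe u v w

variable {k : Type u} [Field k] [CharZero k] [IsAlgClosed k] {A : Type v} [CommRing A] [IsDomain A]
  [IsIntegrallyClosed A] [Algebra k A] [Algebra.FiniteType k A]

theorem regular_of_fixes {H : Type w} [CommGroup H] [Fintype H] [MulSemiringAction H A]
    [SMulCommClass H k A] [MulSemiringAction H (FractionRing A)]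
    [SMulCommClass H k (FractionRing A)] {n : Ideal A} [n.IsMaximal] (hF : Fixes H n) {d : ℕ}
    (x : Fin d → invR k H n)
    (hx : maximalIdeal (invR k H n) = Ideal.span (Set.range x))
    (hdim : (d : WithBot ℕ∞) ≤ ringKrullDim A)
    [Module.Free (Localization.AtPrime n) (LocalizedModule n.primeCompl (Derivation k A A))] :
    IsRegularLocalRing (Localization.AtPrime n) := by
  obtain ⟨N, gen, hg, heig, hspan⟩ := exists_gens (k := k) hF
  obtain ⟨der, hder, hderx, hdimR⟩ := exists_coords hF x hx hdim
  obtain ⟨d', v, chi, hv, hveig, hvspan, hvind⟩ := exists_eigenbasis (k := k) hF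
  let C : Cover k (FractionRing A) H d d' N :=
    { S := locS (k := k) n
      R := invR k H n
      mem_R := fun y => Iff.rfl
      exists_frac := locS_frac
      root_mem := locS_root
      smul_mem := fun h y hy => hF.smul_mem_locS (k := k) h y hy
      localS := isLocalRing_locS
      res := locS_residue n
      localR := isLocalRing_invR
      noethR := noetherian_invR hF
      icR := integrallyClosed_invR hF
      gen := gen
      gen_mem := hg
      gen_eig := heig
      gen_span := hspan
      dimR := hdimR
      x := x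
      x_span := hx
      der := der
      der_mem := hder
      der_x := hderx
      v := v
      v_mem := hv
      chi := chi
      v_eig := hveig
      v_span := hvspan
      v_indep := hvind }
  obtain rfl := C.card_eq
  obtain ⟨u, hu, hle⟩ := C.maximalIdeal_le_span
  have heq : maximalIdeal (locS (k := k) n) = Ideal.span (Set.range u) :=
    le_antisymm hle (Ideal.span_le.2 (by rintro _ ⟨i, rfl⟩; exact hu i))
  -- the dimension
  letI : Algebra (invR k H n) (locS (k := k) n) := inclR.toAlgebra
  haveI : Module.Finite (invR k H n) (locS (k := k) n) := by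
    refine Module.Finite.of_surjective
      (Fintype.linearCombination (invR k H n)
        (fun j => (⟨gen j, hg j⟩ : locS (k := k) n))) ?_
    intro y
    obtain ⟨r, hr⟩ := hspan (y : FractionRing A) y.2
    refine ⟨r, Subtype.ext ?_⟩
    rw [Fintype.linearCombination_apply, AddSubmonoidClass.coe_finsetSum, hr]
    rfl
  haveI : Algebra.IsIntegral (invR k H n) (locS (k := k) n) := Algebra.IsIntegral.of_finite _ _
  have hdimS : (d' : WithBot ℕ∞) ≤ ringKrullDim (locS (k := k) n) := by
    rw [← hdimR]
    exact ringKrullDim_le_of_integral (fun a b h => Subtype.ext (by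
      have h1 := congrArg Subtype.val h
      exact h1))
  have hS : IsRegularLocalRing (locS (k := k) n) := by
    refine IsRegularLocalRing.of_spanFinrank_maximalIdeal_le _ (le_trans ?_ hdimS)
    have h2 : (Set.range u).ncard ≤ d' := by
      rw [← Set.image_univ]
      refine (Set.ncard_image_le Set.finite_univ).trans ?_
      simp [Set.ncard_univ]
    have h1 := (Submodule.spanFinrank_span_le_ncard_of_finite (R := locS (k := k) n)
      (Set.finite_range u)).trans h2
    rw [heq]
    exact_mod_cast h1
  exact IsRegularLocalRing.of_ringEquiv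
    (IsLocalization.algEquiv n.primeCompl (locS (k := k) n) (Localization.AtPrime n)).toRingEquiv

theorem fg_maximalIdeal (R : Type*) [CommRing R] [IsRegularLocalRing R] :
    (maximalIdeal R).FG :=
  (maximalIdeal R).fg_of_isNoetherianRing

/-- The main theorem. -/
theorem regular_of_abelian_stab {G : Type w} [Group G] [Finite G] [MulSemiringAction G A]
    [SMulCommClass G k A] (n : Ideal A) [n.IsMaximal]
    (hcomm : ∀ g h : G, (∀ a ∈ n, g • a ∈ n) → (∀ a ∈ n, h • a ∈ n) → g * h = h * g)
    (hreg : IsRegularLocalRing (Localization.AtPrime (n.under (FixedPoints.subalgebra k A G))))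
    [Module.Free (Localization.AtPrime n) (LocalizedModule n.primeCompl (Derivation k A A))] :
    IsRegularLocalRing (Localization.AtPrime n) := by
  classical
  let K := FractionRing A
  letI : MulSemiringAction G K := IsFractionRing.mulSemiringAction G A K
  have hcompat : ∀ (g : G) (a : A), g • algebraMap A K a = algebraMap A K (g • a) := fun g a =>
    (algebraMap.coe_smul' (B := A) (C := K) g a).symm
  haveI : SMulCommClass G k K := ⟨fun g c z => by
    rw [Algebra.smul_def, Algebra.smul_def, smul_mul']
    congr 1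
    rw [IsScalarTower.algebraMap_apply k A K, hcompat, smul_algebraMap]⟩
  let H : Subgroup G := stab n
  letI : CommGroup H :=
    { (inferInstance : Group H) with
      mul_comm := fun a b => Subtype.ext (hcomm a b a.2 b.2) }
  letI : Fintype H := Fintype.ofFinite H
  haveI : SMulCommClass H k A := ⟨fun g c z => smul_comm (g : G) c z⟩
  haveI : SMulCommClass H k K := ⟨fun g c z => smul_comm (g : G) c z⟩
  have hF : Fixes H n := ⟨fun h a ha => h.2 a ha, fun h a => hcompat h a⟩
  -- the base
  let R₀ := FixedPoints.subalgebra k A G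
  let P : Ideal R₀ := n.under R₀
  have hmem0 : ∀ a : R₀, algebraMap A K (a : A) ∈ invR k H n := fun a =>
    ⟨algebraMap_mem_locS _, fun h => by
      change h • algebraMap A K (a : A) = _
      rw [hF.compat]; exact congrArg (algebraMap A K) (a.2 (h : G))⟩
  let g₀ : R₀ →+* invR k H n :=
    { toFun := fun a => ⟨_, hmem0 a⟩
      map_one' := Subtype.ext (map_one (algebraMap A K))
      map_mul' := fun a b => Subtype.ext (map_mul (algebraMap A K) _ _)
      map_zero' := Subtype.ext (map_zero (algebraMap A K))
      map_add' := fun a b => Subtype.ext (map_add (algebraMap A K) _ _) }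
  have hg₀ : ∀ a : R₀, g₀ a ∈ maximalIdeal (invR k H n) ↔ (a : A) ∈ n := fun a => by
    rw [← inclR_mem_max, ← algebraMap_mem_max_iff (k := k) (n := n) (a : A)]
    rfl
  let Λ₀ := Localization.AtPrime P
  let ψ : Λ₀ →+* invR k H n := IsLocalization.lift (M := P.primeCompl) (g := g₀) (fun s => by
    by_contra h
    exact s.2 ((hg₀ (s : R₀)).1 h))
  have hψ : ∀ a : R₀, ψ (algebraMap R₀ Λ₀ a) = g₀ a := fun a => IsLocalization.lift_eq _ a
  let d := (maximalIdeal Λ₀).spanFinrank
  haveI : IsRegularLocalRing Λ₀ := hreg
  have hfg : (maximalIdeal Λ₀).FG := fg_maximalIdeal Λ₀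
  obtain ⟨s, hscard, hsspan⟩ := Submodule.FG.exists_span_finset_card_eq_spanFinrank hfg
  let e : Fin d ≃ (s : Set Λ₀) := (s.equivFinOfCardEq hscard).symm
  let x : Fin d → invR k H n := fun j => ψ (e j : Λ₀)
  have hψm : ∀ z ∈ maximalIdeal Λ₀, ψ z ∈ Ideal.span (Set.range x) := by
    intro z hz
    rw [← hsspan] at hz
    have := Ideal.mem_map_of_mem ψ hz
    rw [Ideal.map_span] at this
    refine Ideal.span_mono ?_ this
    rintro _ ⟨w, hw, rfl⟩
    exact ⟨e.symm ⟨w, hw⟩, by simp [x]⟩
  have hψmax : ∀ z ∈ maximalIdeal Λ₀, ψ z ∈ maximalIdeal (invR k H n) := by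
    intro z hz
    rw [← Localization.AtPrime.map_eq_maximalIdeal] at hz
    have := Ideal.mem_map_of_mem ψ hz
    rw [Ideal.map_map] at this
    refine (Ideal.map_le_iff_le_comap.2 ?_) this
    intro a ha
    rw [Ideal.mem_comap, RingHom.comp_apply, hψ, hg₀]
    exact ha
  have hxm : Ideal.span (Set.range x) ≤ maximalIdeal (invR k H n) := by
    rw [Ideal.span_le]
    rintro _ ⟨j, rfl⟩
    exact hψmax _ (hsspan ▸ Submodule.subset_span (e j).2)
  haveI : IsNoetherianRing (invR k H n) := noetherian_invR hF
  obtain ⟨N₀, hN₀⟩ := exists_pow_le_map (k := k) hF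
  have hkey : ∀ a : A, a ∈ n → (∀ h : H, h • a = a) → ∀ ha : algebraMap A K a ∈ invR k H n,
      (⟨_, ha⟩ : invR k H n) ∈ Ideal.span (Set.range x)
        ⊔ maximalIdeal (invR k H n) • maximalIdeal (invR k H n) := by
    intro a han hfix ha
    obtain ⟨e', t, he, hefix, ht, htfix, hdiff⟩ :=
      exists_descend n a han (fun g hg => hfix ⟨g, hg⟩) (N₀ * 2)
    have heR : algebraMap A K e' ∈ invR k H n := ⟨algebraMap_mem_locS _, fun h => by
      change h • algebraMap A K e' = _
      rw [hF.compat]; exact congrArg (algebraMap A K) (hefix (h : G) h.2)⟩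
    let a' : invR k H n := ⟨_, ha⟩
    let E : invR k H n := ⟨_, heR⟩
    let T : invR k H n := g₀ ⟨t, htfix⟩
    have hT : T ∈ Ideal.span (Set.range x) := by
      have : T = ψ (algebraMap R₀ Λ₀ ⟨t, htfix⟩) := (hψ _).symm
      rw [this]
      exact hψm _ ((IsLocalization.AtPrime.to_map_mem_maximal_iff Λ₀ P _).2 ht)
    let r : invR k H n := (Nat.card (stab (G := G) n) : invR k H n) * (a' * E) - T
    have hr : r ∈ maximalIdeal (invR k H n) ^ 2 := by
      apply mem_of_inclR_mem_map (k := k) hF
      rw [Ideal.map_pow]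
      refine Ideal.pow_right_mono hN₀ 2 ?_
      rw [← pow_mul]
      have h1 : inclR r = algebraMap A (locS (k := k) n)
          ((Nat.card (stab (G := G) n) : A) * (a * e') - t) := by
        simp only [r, map_sub, map_mul, map_natCast]
        rfl
      rw [h1]
      have h2 := Ideal.mem_map_of_mem (algebraMap A (locS (k := k) n)) hdiff
      rwa [Ideal.map_pow, IsLocalization.AtPrime.map_eq_maximalIdeal n] at h2
    have hu : IsUnit ((Nat.card (stab (G := G) n) : invR k H n) * E) := by
      refine IsUnit.mul ?_ ?_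
      · have h := (IsUnit.mk0 (Nat.card (stab (G := G) n) : k)
          (Nat.cast_ne_zero.2 Nat.card_pos.ne')).map (algebraMap k (invR k H n))
        simpa using h
      · refine (isUnit_inclR_iff E).1 ?_
        exact IsLocalization.map_units (locS (k := k) n) (⟨e', he⟩ : n.primeCompl)
    have h3 : (Nat.card (stab (G := G) n) : invR k H n) * E * a' = T + r := by
      simp only [r]; ring
    rw [← Ideal.unit_mul_mem_iff_mem _ hu]
    change _ * a' ∈ _
    rw [h3]
    exact Submodule.add_mem_sup hT (by rwa [smul_eq_mul, ← pow_two])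
  have hx : maximalIdeal (invR k H n) = Ideal.span (Set.range x) := by
    refine le_antisymm (Submodule.le_of_le_smul_of_le_jacobson_bot (IsNoetherian.noetherian _)
      (maximalIdeal_le_jacobson _) ?_) hxm
    intro y hy
    obtain ⟨⟨a, b, hb, hab⟩, hyfix⟩ := y.2
    let B : A := ∏ h : H, h • b
    have hB : B = b * ∏ h ∈ Finset.univ.erase (1 : H), h • b := by
      simp only [B]
      rw [← Finset.mul_prod_erase Finset.univ _ (Finset.mem_univ (1 : H)), one_smul]
    have hBn : B ∉ n := fun hh => by
      obtain ⟨h, -, hh⟩ := (Ideal.IsMaximal.isPrime ‹_›).prod_mem_iff.1 hh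
      exact hF.notMem h hb hh
    have hBfix : ∀ h : H, h • B = B := fun g => by
      simp only [B, Finset.smul_prod', smul_smul]
      exact Fintype.prod_equiv (Equiv.mulLeft g) _ _ (fun _ => rfl)
    let a₁ : A := a * ∏ h ∈ Finset.univ.erase (1 : H), h • b
    have ha₁ : algebraMap A K a₁ = (y : K) * algebraMap A K B := by
      simp only [a₁]
      rw [hB, map_mul, map_mul, ← hab]
      ring
    have ha₁fix : ∀ h : H, h • a₁ = a₁ := fun h => IsFractionRing.injective A K (by
      rw [← hF.compat, ha₁, smul_mul', hF.compat, hBfix]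
      congr 1
      exact hyfix h)
    have hBR : algebraMap A K B ∈ invR k H n := ⟨algebraMap_mem_locS _, fun h => by
      change h • algebraMap A K B = _
      rw [hF.compat, hBfix]⟩
    have ha₁R : algebraMap A K a₁ ∈ invR k H n := ha₁ ▸ mul_mem y.2 hBR
    have hBu : IsUnit (⟨_, hBR⟩ : invR k H n) :=
      (isUnit_inclR_iff _).1 (IsLocalization.map_units (locS (k := k) n) (⟨B, hBn⟩ : n.primeCompl))
    have ha₁n : a₁ ∈ n := by
      rw [← algebraMap_mem_max_iff (k := k) (n := n)]
      have h1 : algebraMap A (locS (k := k) n) a₁ = inclR (y * ⟨_, hBR⟩) := Subtype.ext ha₁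
      rw [h1, inclR_mem_max]
      exact Ideal.mul_mem_right _ _ hy
    have h := hkey a₁ ha₁n ha₁fix ha₁R
    have h2 : (⟨_, ha₁R⟩ : invR k H n) = y * ⟨_, hBR⟩ := Subtype.ext ha₁
    rw [h2] at h
    exact (Ideal.mul_unit_mem_iff_mem _ hBu).1 h
  have hdim : (d : WithBot ℕ∞) ≤ ringKrullDim A := by
    haveI : Algebra.IsInvariant R₀ A G := ⟨fun a ha => ⟨⟨a, ha⟩, rfl⟩⟩
    haveI : Algebra.IsIntegral R₀ A := Algebra.IsInvariant.isIntegral R₀ A G
    calc (d : WithBot ℕ∞) = ringKrullDim Λ₀ := hreg.spanFinrank_maximalIdeal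
      _ ≤ ringKrullDim R₀ := by
        rw [IsLocalization.AtPrime.ringKrullDim_eq_height P Λ₀]
        exact Ideal.height_le_ringKrullDim_of_ne_top Ideal.IsPrime.ne_top'
      _ ≤ ringKrullDim A := ringKrullDim_le_of_integral (fun a b h => Subtype.ext h)
  exact regular_of_fixes hF x hx hdim

end Vale.Agent.P266
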